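/- Row 132 (S0179), module MAIN (helper91): tools for the abstract chain of finding 679. -/
import Mathlib

set_option autoImplicit false

namespace Crest.Agent.Lib.Crouzeix

open Complex Metric Set Filter Topology MeasureTheory Real Polynomial Matrix
open scoped ComplexOrder MatrixOrder

local notation "S¹" => sphere (0 : ℂ) 1

theorem ci {F : Type*} [NormedAddCommGroup F] {f : ℂ → F} (hf : ContinuousOn f S¹) :
    CircleIntegrable f 0 1 :=
  hf.circleIntegrable zero_le_one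

theorem mean_mono {f g : ℂ → ℝ} (hf : ContinuousOn f S¹) (hg : ContinuousOn g S¹)
    (h : ∀ t, ‖t‖ = 1 → f t ≤ g t) : circleAverage f 0 1 ≤ circleAverage g 0 1 := by
  refine circleAverage_mono (ci hf) (ci hg) ?_
  intro x hx
  apply h
  simpa using hx

theorem mean_nonneg {f : ℂ → ℝ} (h : ∀ t, ‖t‖ = 1 → 0 ≤ f t) (hf : ContinuousOn f S¹) :
    0 ≤ circleAverage f 0 1 := by
  have h1 := mean_mono (f := fun _ => (0 : ℝ)) (g := f) continuousOn_const hf h
  rwa [circleAverage_const] at h1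

theorem norm_mean_le {f : ℂ → ℂ} (hf : ContinuousOn f S¹) :
    ‖circleAverage f 0 1‖ ≤ circleAverage (fun t => ‖f t‖) 0 1 := by
  rw [circleAverage_def, circleAverage_def, norm_smul, smul_eq_mul, Real.norm_of_nonneg (by positivity)]
  refine mul_le_mul_of_nonneg_left ?_ (by positivity)
  exact intervalIntegral.norm_integral_le_integral_norm (by positivity)

/-- A Cauchy-Schwarz conclusion from the arithmetic-geometric form. -/
theorem sq_le_of_amgm {A a b : ℝ} (hA : 0 ≤ A) (ha : 0 ≤ a) (hb : 0 ≤ b)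
    (h : ∀ l : ℝ, 0 < l → 2 * A ≤ l * a + b / l) : A ^ 2 ≤ a * b := by
  rcases hA.eq_or_lt with rfl | hA
  · have : 0 ≤ a * b := mul_nonneg ha hb
    simpa using this
  rcases ha.eq_or_lt with rfl | ha
  · exfalso
    have h1 := h ((b + 1) / A) (by positivity)
    rw [mul_zero, zero_add] at h1
    have h2 : b / ((b + 1) / A) = b * A / (b + 1) := by field_simp
    rw [h2] at h1
    have h3 : b * A / (b + 1) ≤ A := by
      rw [div_le_iff₀ (by positivity)]
      nlinarith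
    linarith
  · have h1 := h (A / a) (by positivity)
    have h2 : A / a * a = A := by field_simp
    have h3 : b / (A / a) = a * b / A := by field_simp
    rw [h2, h3] at h1
    have h4 : A ≤ a * b / A := by linarith
    rw [le_div_iff₀ hA] at h4
    nlinarith

/-- Cauchy-Schwarz for the mean of finite sums of products. -/
theorem mean_cs {ι : Type*} [Fintype ι] (f g : ι → ℂ → ℂ) (hf : ∀ p, ContinuousOn (f p) S¹)
    (hg : ∀ p, ContinuousOn (g p) S¹) :
    ‖circleAverage (fun t => ∑ p, f p t * g p t) 0 1‖ ^ 2 ≤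
      circleAverage (fun t => ∑ p, ‖f p t‖ ^ 2) 0 1 * circleAverage (fun t => ∑ p, ‖g p t‖ ^ 2) 0 1 := by
  have c1 : ContinuousOn (fun t => ∑ p, f p t * g p t) S¹ :=
    continuousOn_finsetSum _ (fun p _ => (hf p).mul (hg p))
  have c2 : ContinuousOn (fun t => ∑ p, ‖f p t‖ ^ 2) S¹ :=
    continuousOn_finsetSum _ (fun p _ => (hf p).norm.pow 2)
  have c3 : ContinuousOn (fun t => ∑ p, ‖g p t‖ ^ 2) S¹ :=
    continuousOn_finsetSum _ (fun p _ => (hg p).norm.pow 2)
  refine sq_le_of_amgm (norm_nonneg _) (mean_nonneg (fun t _ => by positivity) c2)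
    (mean_nonneg (fun t _ => by positivity) c3) ?_
  intro l hl
  have h1 := norm_mean_le c1
  have h2 : circleAverage (fun t => 2 * ‖∑ p, f p t * g p t‖) 0 1 ≤
      circleAverage (fun t => l * (∑ p, ‖f p t‖ ^ 2) + (∑ p, ‖g p t‖ ^ 2) / l) 0 1 := by
    have c4 : ContinuousOn (fun t => 2 * ‖∑ p, f p t * g p t‖) S¹ := continuousOn_const.mul c1.norm
    have c5 : ContinuousOn (fun t => l * (∑ p, ‖f p t‖ ^ 2) + (∑ p, ‖g p t‖ ^ 2) / l) S¹ :=
      (continuousOn_const.mul c2).add (c3.div_const l)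
    refine mean_mono c4 c5 ?_
    intro t _
    have h3 : ‖∑ p, f p t * g p t‖ ≤ ∑ p, ‖f p t‖ * ‖g p t‖ :=
      (norm_sum_le _ _).trans (le_of_eq (Finset.sum_congr rfl (fun p _ => norm_mul _ _)))
    have h4 : ∀ p, 2 * (‖f p t‖ * ‖g p t‖) ≤ l * ‖f p t‖ ^ 2 + ‖g p t‖ ^ 2 / l := by
      intro p
      have h5 : 0 ≤ (l * ‖f p t‖ - ‖g p t‖) ^ 2 / l := by positivity
      have h6 : (l * ‖f p t‖ - ‖g p t‖) ^ 2 / l = l * ‖f p t‖ ^ 2 + ‖g p t‖ ^ 2 / l - 2 * (‖f p t‖ * ‖g p t‖) := by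
        field_simp
        ring
      linarith
    calc 2 * ‖∑ p, f p t * g p t‖ ≤ 2 * ∑ p, ‖f p t‖ * ‖g p t‖ := by linarith
      _ = ∑ p, 2 * (‖f p t‖ * ‖g p t‖) := Finset.mul_sum _ _ _
      _ ≤ ∑ p, (l * ‖f p t‖ ^ 2 + ‖g p t‖ ^ 2 / l) := Finset.sum_le_sum (fun p _ => h4 p)
      _ = _ := by
        rw [Finset.sum_add_distrib, Finset.mul_sum, Finset.sum_div]
  have e1 : circleAverage (fun t => 2 * ‖∑ p, f p t * g p t‖) 0 1 =
      2 * circleAverage (fun t => ‖∑ p, f p t * g p t‖) 0 1 := by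
    simpa [smul_eq_mul] using circleAverage_fun_smul (a := (2 : ℝ)) (f := fun t => ‖∑ p, f p t * g p t‖) (c := 0) (R := 1)
  have e2 : circleAverage (fun t => l * (∑ p, ‖f p t‖ ^ 2) + (∑ p, ‖g p t‖ ^ 2) / l) 0 1 =
      l * circleAverage (fun t => ∑ p, ‖f p t‖ ^ 2) 0 1 + circleAverage (fun t => ∑ p, ‖g p t‖ ^ 2) 0 1 / l := by
    have c6 : ContinuousOn (fun t => l * (∑ p, ‖f p t‖ ^ 2)) S¹ := continuousOn_const.mul c2
    have c7 : ContinuousOn (fun t => (∑ p, ‖g p t‖ ^ 2) / l) S¹ := c3.div_const l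
    rw [circleAverage_fun_add (ci c6) (ci c7)]
    congr 1
    · simpa [smul_eq_mul] using circleAverage_fun_smul (a := l) (f := fun t => ∑ p, ‖f p t‖ ^ 2) (c := 0) (R := 1)
    · have := circleAverage_fun_smul (a := l⁻¹) (f := fun t => ∑ p, ‖g p t‖ ^ 2) (c := 0) (R := 1)
      simpa [smul_eq_mul, div_eq_inv_mul] using this
  rw [e1, e2] at h2
  linarith

/-! ### The block inequality -/

section Block

variable {ι : Type*} [Fintype ι] {E : Type*} [AddCommGroup E] [Module ℂ E]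

/-- The Gram matrix of a positive Hermitian sesquilinear form is positive semidefinite; written for a
form `B` given through its values. -/
theorem gram_posSemidef (B : E → E → ℂ)
    (hadd2 : ∀ y z z', B y (z + z') = B y z + B y z')
    (hsmul2 : ∀ (c : ℂ) y z, B y (c • z) = c * B y z)
    (hherm : ∀ y z, B z y = star (B y z))
    (hpos : ∀ y, 0 ≤ B y y) (w : ι → E) :
    (Matrix.of fun i j => B (w i) (w j)).PosSemidef := by
  classical
  have hadd1 : ∀ y y' z, B (y + y') z = B y z + B y' z := by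
    intro y y' z
    rw [hherm z (y + y'), hadd2, star_add, ← hherm, ← hherm]
  have hsmul1 : ∀ (c : ℂ) y z, B (c • y) z = star c * B y z := by
    intro c y z
    rw [hherm z (c • y), hsmul2, star_mul', ← hherm]
  have h0 : ∀ z, B 0 z = 0 := by
    intro z
    have := hsmul1 0 (0 : E) z
    simpa using this
  have h0' : ∀ z, B z 0 = 0 := by
    intro z
    have := hsmul2 0 z (0 : E)
    simpa using this
  have hsum2 : ∀ (s : Finset ι) (a : ι → ℂ) (y : E), B y (∑ j ∈ s, a j • w j) = ∑ j ∈ s, a j * B y (w j) := by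
    intro s a y
    induction s using Finset.induction_on with
    | empty => simp [h0']
    | insert j s hj ih => rw [Finset.sum_insert hj, Finset.sum_insert hj, hadd2, hsmul2, ih]
  have hsum1 : ∀ (s : Finset ι) (a : ι → ℂ) (z : E), B (∑ j ∈ s, a j • w j) z = ∑ j ∈ s, star (a j) * B (w j) z := by
    intro s a z
    induction s using Finset.induction_on with
    | empty => simp [h0]
    | insert j s hj ih => rw [Finset.sum_insert hj, Finset.sum_insert hj, hadd1, hsmul1, ih]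
  refine Matrix.PosSemidef.of_dotProduct_mulVec_nonneg ?_ ?_
  · ext i j
    simp only [Matrix.conjTranspose_apply, Matrix.of_apply]
    exact (hherm (w j) (w i)).symm
  · intro a
    have : star a ⬝ᵥ ((Matrix.of fun i j => B (w i) (w j)) *ᵥ a) =
        B (∑ i, a i • w i) (∑ j, a j • w j) := by
      rw [hsum1, dotProduct]
      refine Finset.sum_congr rfl (fun i _ => ?_)
      rw [hsum2, Matrix.mulVec, dotProduct]
      simp only [Pi.star_apply, Matrix.of_apply]
      congr 1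
      exact Finset.sum_congr rfl (fun j _ => mul_comm _ _)
    rw [this]
    exact hpos _

/-- The quadratic form of the entrywise squared norms of a Gram matrix at a real vector is nonnegative. -/
theorem gram_sq_nonneg (B : E → E → ℂ)
    (hadd2 : ∀ y z z', B y (z + z') = B y z + B y z')
    (hsmul2 : ∀ (c : ℂ) y z, B y (c • z) = c * B y z)
    (hherm : ∀ y z, B z y = star (B y z))
    (hpos : ∀ y, 0 ≤ B y y) (w : ι → E) (e : ι → ℝ) :
    0 ≤ ∑ i, ∑ j, e i * e j * ‖B (w i) (w j)‖ ^ 2 := by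
  classical
  have h1 := gram_posSemidef B hadd2 hsmul2 hherm hpos w
  have h2 : (Matrix.of fun i j => B (w j) (w i)).PosSemidef := by
    have e : (Matrix.of fun i j => B (w j) (w i)) = (Matrix.of fun i j => B (w i) (w j))ᵀ := by
      ext i j; rfl
    rw [e]
    exact h1.transpose
  have h3 := (h1.hadamard h2).dotProduct_mulVec_nonneg (fun i => (e i : ℂ))
  have h4 : star (fun i => (e i : ℂ)) ⬝ᵥ ((Matrix.of fun i j => B (w i) (w j)) ⊙ (Matrix.of fun i j => B (w j) (w i))) *ᵥ (fun i => (e i : ℂ)) =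
      ((∑ i, ∑ j, e i * e j * ‖B (w i) (w j)‖ ^ 2 : ℝ) : ℂ) := by
    rw [dotProduct]
    push_cast
    refine Finset.sum_congr rfl (fun i _ => ?_)
    rw [Matrix.mulVec, dotProduct, Finset.mul_sum]
    refine Finset.sum_congr rfl (fun j _ => ?_)
    simp only [Pi.star_apply, Matrix.hadamard_apply, Matrix.of_apply]
    rw [hherm (w i) (w j)]
    have : B (w i) (w j) * star (B (w i) (w j)) = ((‖B (w i) (w j)‖ ^ 2 : ℝ) : ℂ) := by
      rw [Complex.star_def, Complex.mul_conj, Complex.normSq_eq_norm_sq]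
    rw [this]
    simp
    ring
  rw [h4] at h3
  exact_mod_cast h3

/-- **Block inequality**. For `B` positive, `2 α β ∑ ‖B (v i) (x j)‖² ≤ α² ∑ ‖B (x i) (x j)‖² + β² ∑ ‖B (v i) (v j)‖²`. -/
theorem block_ineq (B : E → E → ℂ)
    (hadd2 : ∀ y z z', B y (z + z') = B y z + B y z')
    (hsmul2 : ∀ (c : ℂ) y z, B y (c • z) = c * B y z)
    (hherm : ∀ y z, B z y = star (B y z))
    (hpos : ∀ y, 0 ≤ B y y) (x v : ι → E) (α β : ℝ) :
    2 * (α * β) * ∑ i, ∑ j, ‖B (v i) (x j)‖ ^ 2 ≤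
      α ^ 2 * ∑ i, ∑ j, ‖B (x i) (x j)‖ ^ 2 + β ^ 2 * ∑ i, ∑ j, ‖B (v i) (v j)‖ ^ 2 := by
  classical
  have h := gram_sq_nonneg B hadd2 hsmul2 hherm hpos (Sum.elim x v) (Sum.elim (fun _ => α) (fun _ => -β))
  simp only [Fintype.sum_sum_type, Sum.elim_inl, Sum.elim_inr] at h
  have e1 : ∑ i, ∑ j, ‖B (x i) (v j)‖ ^ 2 = ∑ i, ∑ j, ‖B (v i) (x j)‖ ^ 2 := by
    rw [Finset.sum_comm]
    refine Finset.sum_congr rfl (fun i _ => Finset.sum_congr rfl (fun j _ => ?_))
    rw [hherm (v i) (x j), Complex.star_def, Complex.norm_conj]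
  simp only [Finset.sum_add_distrib, ← Finset.mul_sum] at h
  rw [e1] at h
  nlinarith

end Block

/-! ### Hilbert-Schmidt and operator norms -/

section HS

variable {m : Type*} [Fintype m] [DecidableEq m]

local notation "opN" M => ‖Matrix.toEuclideanCLM (n := m) (𝕜 := ℂ) M‖

theorem hs_mul_le_left (P R : Matrix m m ℂ) :
    ∑ i, ∑ j, ‖(P * R) i j‖ ^ 2 ≤ (opN P) ^ 2 * ∑ i, ∑ j, ‖R i j‖ ^ 2 := by
  rw [Finset.sum_comm, Finset.sum_comm (f := fun i j => ‖R i j‖ ^ 2), Finset.mul_sum]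
  refine Finset.sum_le_sum (fun j _ => ?_)
  let u : EuclideanSpace ℂ m := WithLp.toLp 2 (fun i => R i j)
  have h1 : ‖Matrix.toEuclideanCLM (n := m) (𝕜 := ℂ) P u‖ ≤ (opN P) * ‖u‖ :=
    ContinuousLinearMap.le_opNorm _ _
  have h2 : ‖u‖ ^ 2 = ∑ i, ‖R i j‖ ^ 2 := by
    rw [EuclideanSpace.norm_sq_eq]
  have h3 : ‖Matrix.toEuclideanCLM (n := m) (𝕜 := ℂ) P u‖ ^ 2 = ∑ i, ‖(P * R) i j‖ ^ 2 := by
    rw [EuclideanSpace.norm_sq_eq]
    refine Finset.sum_congr rfl (fun i _ => ?_)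
    congr 2
  rw [← h2, ← h3, ← mul_pow]
  exact pow_le_pow_left₀ (norm_nonneg _) h1 2

theorem opN_conjTranspose (P : Matrix m m ℂ) : (opN Pᴴ) = opN P := by
  have : Matrix.toEuclideanCLM (n := m) (𝕜 := ℂ) Pᴴ = star (Matrix.toEuclideanCLM (n := m) (𝕜 := ℂ) P) := by
    rw [← map_star]
    rfl
  rw [this, ContinuousLinearMap.star_eq_adjoint]
  exact LinearIsometryEquiv.norm_map _ _

theorem hs_mul_le_right (P R : Matrix m m ℂ) :
    ∑ i, ∑ j, ‖(R * P) i j‖ ^ 2 ≤ (opN P) ^ 2 * ∑ i, ∑ j, ‖R i j‖ ^ 2 := by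
  have h := hs_mul_le_left Pᴴ Rᴴ
  rw [opN_conjTranspose] at h
  have e1 : ∑ i, ∑ j, ‖(Pᴴ * Rᴴ) i j‖ ^ 2 = ∑ i, ∑ j, ‖(R * P) i j‖ ^ 2 := by
    rw [← Matrix.conjTranspose_mul, Finset.sum_comm]
    refine Finset.sum_congr rfl (fun i _ => Finset.sum_congr rfl (fun j _ => ?_))
    rw [Matrix.conjTranspose_apply, norm_star]
  have e2 : ∑ i, ∑ j, ‖Rᴴ i j‖ ^ 2 = ∑ i, ∑ j, ‖R i j‖ ^ 2 := by
    rw [Finset.sum_comm]
    refine Finset.sum_congr rfl (fun i _ => Finset.sum_congr rfl (fun j _ => ?_))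
    rw [Matrix.conjTranspose_apply, norm_star]
  rwa [e1, e2] at h

end HS

end Crest.Agent.Lib.Crouzeix
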