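/- Row 132 (S0179), module MAIN (helper91): the abstract chain of finding 679, matrix-valued. -/
import Crest.Agent.Lib.Crouzeix.MainTools

set_option autoImplicit false

namespace Crest.Agent.Lib.Crouzeix

open Complex Metric Set Filter Topology MeasureTheory Real Polynomial Matrix
open scoped ComplexConjugate ComplexOrder

local notation "S¹" => sphere (0 : ℂ) 1
local notation "⟪" x ", " y "⟫" => (inner ℂ x y : ℂ)

variable {E : Type*} [NormedAddCommGroup E] [InnerProductSpace ℂ E]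

/-- The abstract data of the chain: a curve `G`, a kernel `L` with the Cauchy formula, positive real
part, the product formula, Parseval for its Fourier coefficients `F (s+1) (A)`, and the `L²` bound. -/
structure CoreData (A : E →L[ℂ] E) (G : ℂ → ℂ) (L : ℂ → E →L[ℂ] E) (F : ℕ → ℂ[X]) : Prop where
  contG : ContinuousOn G S¹
  contL : ∀ y z : E, ContinuousOn (fun t => ⟪y, L t z⟫) S¹
  cauchy : ∀ (q : ℂ[X]) (y z : E),
    ⟪y, aeval A q z⟫ = circleAverage (fun t => q.eval (G t) * ⟪y, L t z⟫) 0 1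
  pos : ∀ t : ℂ, ‖t‖ = 1 → ∀ y : E, 0 ≤ (⟪y, L t y⟫).re
  mean_mul : ∀ a b c d : E,
    circleAverage (fun t => ⟪a, L t b⟫ * ⟪c, L t d⟫) 0 1 = ⟪a, b⟫ * ⟪c, d⟫
  parseval : ∀ a b : E, HasSum (fun s : ℕ => ‖⟪a, aeval A (F (s + 1)) b⟫‖ ^ 2)
      (circleAverage (fun t => ‖⟪a, L t b⟫‖ ^ 2) 0 1 - ‖⟪a, b⟫‖ ^ 2)
  faber_L2 : ∀ (a₀ : ℂ) (n : ℕ) (a : Fin n → ℂ),
    circleAverage (fun t => ‖a₀ + ∑ j, a j * (F (j + 1)).eval (G t)‖ ^ 2) 0 1 ≤
      ‖a₀‖ ^ 2 + 2 * ∑ j, ‖a j‖ ^ 2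

variable {ι : Type*} [Fintype ι]

/-- The matrix polynomial acting on a family of vectors. -/
noncomputable def act (A : E →L[ℂ] E) (Ψ : ι → ι → ℂ[X]) (w : ι → E) (i : ι) : E :=
  ∑ j, aeval A (Ψ i j) (w j)

/-- Product of matrix polynomials. -/
noncomputable def mulP (Ψ Θ : ι → ι → ℂ[X]) (i j : ι) : ℂ[X] := ∑ k, Ψ i k * Θ k j

theorem act_mulP (A : E →L[ℂ] E) (Ψ Θ : ι → ι → ℂ[X]) (w : ι → E) :
    act A (mulP Ψ Θ) w = act A Ψ (act A Θ w) := by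
  funext i
  simp only [act, mulP, map_sum, map_mul, _root_.sum_apply]
  rw [Finset.sum_comm]
  rfl

/-- Evaluation of a matrix polynomial. -/
noncomputable def evalM (Ψ : ι → ι → ℂ[X]) (z : ℂ) : Matrix ι ι ℂ := Matrix.of fun i j => (Ψ i j).eval z

theorem evalM_mulP (Ψ Θ : ι → ι → ℂ[X]) (z : ℂ) : evalM (mulP Ψ Θ) z = evalM Ψ z * evalM Θ z := by
  ext i j
  simp [evalM, mulP, Matrix.mul_apply, Polynomial.eval_finsetSum]

/-- The squared Hilbert-Schmidt norm at a point. -/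
noncomputable def hs2 (Ψ : ι → ι → ℂ[X]) (z : ℂ) : ℝ := ∑ p : ι × ι, ‖(Ψ p.1 p.2).eval z‖ ^ 2

theorem hs2_mul_left [DecidableEq ι] (P R : ι → ι → ℂ[X]) (z : ℂ) :
    hs2 (mulP P R) z ≤ ‖Matrix.toEuclideanCLM (n := ι) (𝕜 := ℂ) (evalM P z)‖ ^ 2 * hs2 R z := by
  have h := hs_mul_le_left (evalM P z) (evalM R z)
  rw [← evalM_mulP] at h
  simpa only [hs2, Fintype.sum_prod_type, evalM, Matrix.of_apply] using h

theorem hs2_mul_right [DecidableEq ι] (P R : ι → ι → ℂ[X]) (z : ℂ) :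
    hs2 (mulP R P) z ≤ ‖Matrix.toEuclideanCLM (n := ι) (𝕜 := ℂ) (evalM P z)‖ ^ 2 * hs2 R z := by
  have h := hs_mul_le_right (evalM P z) (evalM R z)
  rw [← evalM_mulP] at h
  simpa only [hs2, Fintype.sum_prod_type, evalM, Matrix.of_apply] using h

section Data

variable {A : E →L[ℂ] E} {G : ℂ → ℂ} {L : ℂ → E →L[ℂ] E} {F : ℕ → ℂ[X]}

theorem CoreData.cont_eval (hD : CoreData A G L F) (q : ℂ[X]) :
    ContinuousOn (fun t => q.eval (G t)) S¹ :=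
  q.continuous.comp_continuousOn hD.contG

theorem CoreData.cont_hs2 (hD : CoreData A G L F) (Ψ : ι → ι → ℂ[X]) :
    ContinuousOn (fun t => hs2 Ψ (G t)) S¹ :=
  continuousOn_finsetSum _ (fun p _ => (hD.cont_eval _).norm.pow 2)

theorem pair_eq (hD : CoreData A G L F) (Ψ : ι → ι → ℂ[X]) (y w : ι → E) :
    ∑ i, ⟪y i, act A Ψ w i⟫ =
      circleAverage (fun t => ∑ p : ι × ι, (Ψ p.1 p.2).eval (G t) * ⟪y p.1, L t (w p.2)⟫) 0 1 := by
  have c : ∀ p : ι × ι, ContinuousOn (fun t => (Ψ p.1 p.2).eval (G t) * ⟪y p.1, L t (w p.2)⟫) S¹ :=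
    fun p => (hD.cont_eval _).mul (hD.contL _ _)
  rw [circleAverage_fun_sum (f := fun (p : ι × ι) t => (Ψ p.1 p.2).eval (G t) * ⟪y p.1, L t (w p.2)⟫)
    (fun p _ => ci (c p))]
  rw [Fintype.sum_prod_type]
  refine Finset.sum_congr rfl fun i _ => ?_
  rw [act, inner_sum]
  exact Finset.sum_congr rfl fun j _ => hD.cauchy _ _ _

theorem pair_cs (hD : CoreData A G L F) (Ψ : ι → ι → ℂ[X]) (y w : ι → E) :
    ‖∑ i, ⟪y i, act A Ψ w i⟫‖ ^ 2 ≤
      circleAverage (fun t => hs2 Ψ (G t)) 0 1 *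
        circleAverage (fun t => ∑ p : ι × ι, ‖⟪y p.1, L t (w p.2)⟫‖ ^ 2) 0 1 := by
  rw [pair_eq hD]
  have h := mean_cs (ι := ι × ι) (fun p t => (Ψ p.1 p.2).eval (G t)) (fun p t => ⟪y p.1, L t (w p.2)⟫)
    (fun p => hD.cont_eval _) (fun p => hD.contL _ _)
  simp only [hs2]
  exact h

/-- Inner products of the vectors. -/
noncomputable def lam (A : E →L[ℂ] E) (F : ℕ → ℂ[X]) (u : ι → E) (i j : ι) (s : ℕ) : ℂ :=
  ⟪u i, aeval A (F (s + 1)) (u j)⟫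

/-- The test polynomials. -/
noncomputable def testP (A : E →L[ℂ] E) (F : ℕ → ℂ[X]) (n : ℕ) (u : ι → E) (i j : ι) : ℂ[X] :=
  C (2 * conj ⟪u i, u j⟫) + ∑ s : Fin n, C (conj (lam A F u i j s)) * F (s + 1)

/-- The truncated energy. -/
noncomputable def Tn (A : E →L[ℂ] E) (F : ℕ → ℂ[X]) (n : ℕ) (u : ι → E) : ℝ :=
  ∑ i, ∑ j, (2 * ‖⟪u i, u j⟫‖ ^ 2 + ∑ s : Fin n, ‖lam A F u i j s‖ ^ 2)

theorem aeval_test_apply (A : E →L[ℂ] E) (a : ℂ) {n : ℕ} (b : Fin n → ℂ) (q : Fin n → ℂ[X]) (z : E) :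
    aeval A (C a + ∑ s, C (b s) * q s) z = a • z + ∑ s, b s • aeval A (q s) z := by
  simp only [Polynomial.C_mul', map_add, map_sum, map_smul, _root_.add_apply,
    _root_.sum_apply, _root_.smul_apply, aeval_C, ContinuousLinearMap.algebraMap_apply]

theorem conj_mul_self_eq (a : ℂ) : conj a * a = ((‖a‖ ^ 2 : ℝ) : ℂ) := by
  rw [mul_comm, Complex.mul_conj, Complex.normSq_eq_norm_sq]

theorem pair_test (A : E →L[ℂ] E) (F : ℕ → ℂ[X]) (n : ℕ) (u : ι → E) :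
    ∑ i, ⟪u i, act A (testP A F n u) u i⟫ = ((Tn A F n u : ℝ) : ℂ) := by
  rw [Tn]
  push_cast
  refine Finset.sum_congr rfl fun i _ => ?_
  rw [act, inner_sum]
  refine Finset.sum_congr rfl fun j _ => ?_
  rw [testP, aeval_test_apply, inner_add_right, inner_smul_right, inner_sum]
  congr 1
  · rw [mul_assoc, conj_mul_self_eq]
    push_cast
    ring
  · refine Finset.sum_congr rfl fun s _ => ?_
    rw [inner_smul_right]
    have := conj_mul_self_eq (lam A F u i j s)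
    rw [lam] at this ⊢
    rw [this]
    push_cast
    ring

theorem Tn_nonneg (A : E →L[ℂ] E) (F : ℕ → ℂ[X]) (n : ℕ) (u : ι → E) : 0 ≤ Tn A F n u := by
  rw [Tn]
  positivity

theorem L2_test (hD : CoreData A G L F) (n : ℕ) (u : ι → E) :
    circleAverage (fun t => hs2 (testP A F n u) (G t)) 0 1 ≤ 2 * Tn A F n u := by
  have h1 : ∀ (p : ι × ι) (t : ℂ), (testP A F n u p.1 p.2).eval (G t) =
      (2 * conj ⟪u p.1, u p.2⟫) + ∑ s : Fin n, conj (lam A F u p.1 p.2 s) * (F (s + 1)).eval (G t) := by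
    intro p t
    simp [testP, Polynomial.eval_finsetSum]
  have h2 : (fun t => hs2 (testP A F n u) (G t)) = fun t => ∑ p : ι × ι,
      ‖(2 * conj ⟪u p.1, u p.2⟫) + ∑ s : Fin n, conj (lam A F u p.1 p.2 s) * (F (s + 1)).eval (G t)‖ ^ 2 := by
    funext t
    rw [hs2]
    exact Finset.sum_congr rfl fun p _ => by rw [h1]
  rw [h2, circleAverage_fun_sum]
  · calc _ ≤ ∑ p : ι × ι, (‖2 * conj ⟪u p.1, u p.2⟫‖ ^ 2 + 2 * ∑ s : Fin n, ‖conj (lam A F u p.1 p.2 s)‖ ^ 2) :=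
          Finset.sum_le_sum fun p _ => hD.faber_L2 _ _ _
      _ = _ := by
        rw [Tn, Finset.mul_sum, Fintype.sum_prod_type]
        refine Finset.sum_congr rfl fun i _ => ?_
        rw [Finset.mul_sum]
        refine Finset.sum_congr rfl fun j _ => ?_
        simp only [norm_mul, Complex.norm_conj, mul_pow, Complex.norm_ofNat]
        ring
  · intro p _
    refine ci ?_
    have : ContinuousOn (fun t => 2 * conj ⟪u p.1, u p.2⟫ +
        ∑ s : Fin n, conj (lam A F u p.1 p.2 s) * (F (s + 1)).eval (G t)) S¹ :=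
      continuousOn_const.add (continuousOn_finsetSum _ fun s _ => continuousOn_const.mul (hD.cont_eval _))
    exact this.norm.pow 2

/-- The main estimate for one test polynomial. -/
theorem key_ineq (hD : CoreData A G L F) (Ψ R : ι → ι → ℂ[X]) (y w : ι → E) (K τ M : ℝ) (hτ : 0 ≤ τ)
    (hpair : ∑ i, ⟪y i, act A Ψ w i⟫ = ((K * τ : ℝ) : ℂ))
    (hhs : ∀ t : ℂ, ‖t‖ = 1 → hs2 Ψ (G t) ≤ M ^ 2 * hs2 R (G t))
    (hR : circleAverage (fun t => hs2 R (G t)) 0 1 ≤ 2 * τ) :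
    (K * τ) ^ 2 ≤ M ^ 2 * (2 * τ) *
      circleAverage (fun t => ∑ p : ι × ι, ‖⟪y p.1, L t (w p.2)⟫‖ ^ 2) 0 1 := by
  have h1 := pair_cs hD Ψ y w
  rw [hpair, Complex.norm_real, Real.norm_eq_abs, sq_abs] at h1
  have hW : 0 ≤ circleAverage (fun t => ∑ p : ι × ι, ‖⟪y p.1, L t (w p.2)⟫‖ ^ 2) 0 1 :=
    mean_nonneg (fun t _ => by positivity)
      (continuousOn_finsetSum _ fun p _ => (hD.contL _ _).norm.pow 2)
  have h2 : circleAverage (fun t => hs2 Ψ (G t)) 0 1 ≤ M ^ 2 * (2 * τ) := by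
    have h3 : circleAverage (fun t => hs2 Ψ (G t)) 0 1 ≤
        circleAverage (fun t => M ^ 2 * hs2 R (G t)) 0 1 :=
      mean_mono (hD.cont_hs2 _) (continuousOn_const.mul (hD.cont_hs2 _)) hhs
    have h4 : circleAverage (fun t => M ^ 2 * hs2 R (G t)) 0 1 =
        M ^ 2 * circleAverage (fun t => hs2 R (G t)) 0 1 := by
      simpa [smul_eq_mul] using circleAverage_fun_smul (a := M ^ 2) (f := fun t => hs2 R (G t)) (c := 0) (R := 1)
    rw [h4] at h3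
    have h5 : M ^ 2 * circleAverage (fun t => hs2 R (G t)) 0 1 ≤ M ^ 2 * (2 * τ) :=
      mul_le_mul_of_nonneg_left hR (by positivity)
    linarith
  exact h1.trans (mul_le_mul_of_nonneg_right h2 hW)

/-- The second moment of matrix elements of `L`. -/
noncomputable def QQ (L : ℂ → E →L[ℂ] E) (y z : E) : ℝ := circleAverage (fun t => ‖⟪y, L t z⟫‖ ^ 2) 0 1

/-- The energy. -/
noncomputable def TT (L : ℂ → E →L[ℂ] E) (u : ι → E) : ℝ :=
  ∑ i, ∑ j, (QQ L (u i) (u j) + ‖⟪u i, u j⟫‖ ^ 2)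

theorem QQ_nonneg (hD : CoreData A G L F) (y z : E) : 0 ≤ QQ L y z :=
  mean_nonneg (fun t _ => by positivity) ((hD.contL _ _).norm.pow 2)

theorem Tn_tendsto (hD : CoreData A G L F) (u : ι → E) :
    Tendsto (fun n => Tn A F n u) atTop (𝓝 (TT L u)) := by
  refine tendsto_finsetSum _ fun i _ => tendsto_finsetSum _ fun j _ => ?_
  have hs := (hD.parseval (u i) (u j)).tendsto_sum_nat
  have h2 := (tendsto_const_nhds (x := (2 * ‖⟪u i, u j⟫‖ ^ 2 : ℝ))).add hs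
  have e : 2 * ‖⟪u i, u j⟫‖ ^ 2 + (circleAverage (fun t => ‖⟪u i, L t (u j)⟫‖ ^ 2) 0 1 - ‖⟪u i, u j⟫‖ ^ 2) =
      QQ L (u i) (u j) + ‖⟪u i, u j⟫‖ ^ 2 := by
    rw [QQ]; ring
  rw [e] at h2
  refine h2.congr fun n => ?_
  congr 1
  rw [← Fin.sum_univ_eq_sum_range (fun s => ‖⟪u i, aeval A (F (s + 1)) (u j)⟫‖ ^ 2) n]
  rfl

theorem gam_le_Tn (A : E →L[ℂ] E) (F : ℕ → ℂ[X]) (n : ℕ) (u : ι → E) (i : ι) :
    2 * ‖⟪u i, u i⟫‖ ^ 2 ≤ Tn A F n u := by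
  classical
  rw [Tn]
  have h1 : 2 * ‖⟪u i, u i⟫‖ ^ 2 + ∑ s : Fin n, ‖lam A F u i i s‖ ^ 2 ≤
      ∑ j, (2 * ‖⟪u i, u j⟫‖ ^ 2 + ∑ s : Fin n, ‖lam A F u i j s‖ ^ 2) :=
    Finset.single_le_sum (f := fun j => 2 * ‖⟪u i, u j⟫‖ ^ 2 + ∑ s : Fin n, ‖lam A F u i j s‖ ^ 2)
      (fun j _ => by positivity) (Finset.mem_univ i)
  have h2 : ∑ j, (2 * ‖⟪u i, u j⟫‖ ^ 2 + ∑ s : Fin n, ‖lam A F u i j s‖ ^ 2) ≤
      ∑ i, ∑ j, (2 * ‖⟪u i, u j⟫‖ ^ 2 + ∑ s : Fin n, ‖lam A F u i j s‖ ^ 2) :=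
    Finset.single_le_sum (f := fun i => ∑ j, (2 * ‖⟪u i, u j⟫‖ ^ 2 + ∑ s : Fin n, ‖lam A F u i j s‖ ^ 2))
      (fun i _ => by positivity) (Finset.mem_univ i)
  have h3 : 0 ≤ ∑ s : Fin n, ‖lam A F u i i s‖ ^ 2 := by positivity
  linarith

omit [Fintype ι] in
theorem exists_pos_gam {u : ι → E} (hu : u ≠ 0) : ∃ i, 0 < 2 * ‖⟪u i, u i⟫‖ ^ 2 := by
  obtain ⟨i, hi⟩ := Function.ne_iff.1 hu
  refine ⟨i, ?_⟩
  have : ⟪u i, u i⟫ ≠ 0 := inner_self_ne_zero.2 hi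
  have : 0 < ‖⟪u i, u i⟫‖ := norm_pos_iff.2 this
  positivity

theorem Tn_pos (A : E →L[ℂ] E) (F : ℕ → ℂ[X]) (n : ℕ) {u : ι → E} (hu : u ≠ 0) : 0 < Tn A F n u := by
  obtain ⟨i, hi⟩ := exists_pos_gam hu
  exact hi.trans_le (gam_le_Tn A F n u i)

theorem TT_pos (hD : CoreData A G L F) {u : ι → E} (hu : u ≠ 0) : 0 < TT L u := by
  obtain ⟨i, hi⟩ := exists_pos_gam hu
  refine hi.trans_le ?_
  exact ge_of_tendsto' (Tn_tendsto hD u) fun n => gam_le_Tn A F n u i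

/-! ### The positive form -/

/-- The positive Hermitian form `B_t`. -/
noncomputable def Bf (L : ℂ → E →L[ℂ] E) (t : ℂ) (y z : E) : ℂ := ⟪y, L t z⟫ + star ⟪z, L t y⟫

theorem Bf_add2 (L : ℂ → E →L[ℂ] E) (t : ℂ) (y z z' : E) : Bf L t y (z + z') = Bf L t y z + Bf L t y z' := by
  simp only [Bf, map_add, inner_add_left, inner_add_right, star_add]
  ring

theorem Bf_smul2 (L : ℂ → E →L[ℂ] E) (t : ℂ) (a : ℂ) (y z : E) : Bf L t y (a • z) = a * Bf L t y z := by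
  simp only [Bf, map_smul, inner_smul_left, inner_smul_right, star_mul']
  simp only [Complex.star_def, Complex.conj_conj]
  ring

theorem Bf_herm (L : ℂ → E →L[ℂ] E) (t : ℂ) (y z : E) : Bf L t z y = star (Bf L t y z) := by
  simp only [Bf, star_add, star_star]
  ring

theorem Bf_pos (hD : CoreData A G L F) {t : ℂ} (ht : ‖t‖ = 1) (y : E) : 0 ≤ Bf L t y y := by
  rw [Bf, Complex.star_def, Complex.add_conj]
  have := hD.pos t ht y
  exact_mod_cast (by positivity : 0 ≤ 2 * (⟪y, L t y⟫).re)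

theorem norm_add_star_sq (a b : ℂ) : ‖a + star b‖ ^ 2 = ‖a‖ ^ 2 + ‖b‖ ^ 2 + 2 * (a * b).re := by
  rw [Complex.sq_norm, Complex.sq_norm, Complex.sq_norm, Complex.normSq_add]
  simp [Complex.star_def, Complex.normSq_conj]

theorem mean_re {f : ℂ → ℂ} (hf : ContinuousOn f S¹) :
    circleAverage (fun t => (f t).re) 0 1 = (circleAverage f 0 1).re :=
  Complex.reCLM.circleAverage_comp_comm (ci hf)

theorem mean_Bf_sq (hD : CoreData A G L F) (y z : E) :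
    circleAverage (fun t => ‖Bf L t y z‖ ^ 2) 0 1 = QQ L y z + QQ L z y + 2 * ‖⟪y, z⟫‖ ^ 2 := by
  have c1 : ContinuousOn (fun t => ‖⟪y, L t z⟫‖ ^ 2) S¹ := (hD.contL _ _).norm.pow 2
  have c2 : ContinuousOn (fun t => ‖⟪z, L t y⟫‖ ^ 2) S¹ := (hD.contL _ _).norm.pow 2
  have c3 : ContinuousOn (fun t => ⟪y, L t z⟫ * ⟪z, L t y⟫) S¹ := (hD.contL _ _).mul (hD.contL _ _)
  have c4 : ContinuousOn (fun t => (⟪y, L t z⟫ * ⟪z, L t y⟫).re) S¹ := Complex.continuous_re.comp_continuousOn c3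
  have e : (fun t => ‖Bf L t y z‖ ^ 2) = fun t =>
      ‖⟪y, L t z⟫‖ ^ 2 + ‖⟪z, L t y⟫‖ ^ 2 + (2 : ℝ) • (⟪y, L t z⟫ * ⟪z, L t y⟫).re := by
    funext t
    rw [Bf, norm_add_star_sq, smul_eq_mul]
  have c5 : ContinuousOn (fun t => ‖⟪y, L t z⟫‖ ^ 2 + ‖⟪z, L t y⟫‖ ^ 2) S¹ := c1.add c2
  have c6 : ContinuousOn (fun t => (2 : ℝ) • (⟪y, L t z⟫ * ⟪z, L t y⟫).re) S¹ := c4.const_smul (2 : ℝ)
  rw [e, circleAverage_fun_add (ci c5) (ci c6),
    circleAverage_fun_add (ci c1) (ci c2), circleAverage_fun_smul, mean_re c3, hD.mean_mul,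
    smul_eq_mul]
  have e2 : (⟪y, z⟫ * ⟪z, y⟫).re = ‖⟪y, z⟫‖ ^ 2 := by
    rw [← inner_conj_symm y z, conj_mul_self_eq, Complex.ofReal_re, Complex.norm_conj]
  rw [e2, QQ, QQ]

/-- The pointwise energy of the form. -/
noncomputable def Zf (L : ℂ → E →L[ℂ] E) (a b : ι → E) (t : ℂ) : ℝ := ∑ i, ∑ j, ‖Bf L t (a i) (b j)‖ ^ 2

theorem cont_Bf (hD : CoreData A G L F) (y z : E) : ContinuousOn (fun t => Bf L t y z) S¹ :=
  (hD.contL _ _).add (continuous_star.comp_continuousOn (hD.contL _ _))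

theorem cont_Zf (hD : CoreData A G L F) (a b : ι → E) : ContinuousOn (Zf L a b) S¹ :=
  continuousOn_finsetSum _ fun i _ => continuousOn_finsetSum _ fun j _ => (cont_Bf hD _ _).norm.pow 2

theorem mean_Zf (hD : CoreData A G L F) (a b : ι → E) :
    circleAverage (Zf L a b) 0 1 = ∑ i, ∑ j, (QQ L (a i) (b j) + QQ L (b j) (a i) + 2 * ‖⟪a i, b j⟫‖ ^ 2) := by
  unfold Zf
  rw [circleAverage_fun_sum]
  · refine Finset.sum_congr rfl fun i _ => ?_
    rw [circleAverage_fun_sum]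
    · exact Finset.sum_congr rfl fun j _ => mean_Bf_sq hD _ _
    · intro j _
      exact ci ((cont_Bf hD _ _).norm.pow 2)
  · intro i _
    refine ci ?_
    exact continuousOn_finsetSum _ fun j _ => (cont_Bf hD _ _).norm.pow 2

theorem mean_Zf_self (hD : CoreData A G L F) (u : ι → E) : circleAverage (Zf L u u) 0 1 = 2 * TT L u := by
  have e : ∑ i, ∑ j, QQ L (u j) (u i) = ∑ i, ∑ j, QQ L (u i) (u j) := Finset.sum_comm
  have e2 : ∑ i, ∑ j, (QQ L (u i) (u j) + QQ L (u j) (u i) + 2 * ‖⟪u i, u j⟫‖ ^ 2) =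
      ∑ i, ∑ j, QQ L (u i) (u j) + ∑ i, ∑ j, QQ L (u j) (u i) + 2 * ∑ i, ∑ j, ‖⟪u i, u j⟫‖ ^ 2 := by
    simp only [Finset.sum_add_distrib, Finset.mul_sum]
  have e3 : TT L u = ∑ i, ∑ j, QQ L (u i) (u j) + ∑ i, ∑ j, ‖⟪u i, u j⟫‖ ^ 2 := by
    simp only [TT, Finset.sum_add_distrib]
  rw [mean_Zf hD, e2, e3, e]
  ring

theorem block_mean (hD : CoreData A G L F) (x v : ι → E) (α β : ℝ) :
    2 * (α * β) * circleAverage (Zf L v x) 0 1 ≤
      α ^ 2 * circleAverage (Zf L x x) 0 1 + β ^ 2 * circleAverage (Zf L v v) 0 1 := by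
  have c1 := cont_Zf hD v x
  have c2 := cont_Zf hD x x
  have c3 := cont_Zf hD v v
  have c4 : ContinuousOn (fun t => (2 * (α * β)) • Zf L v x t) S¹ := c1.const_smul (2 * (α * β))
  have c5 : ContinuousOn (fun t => (α ^ 2) • Zf L x x t) S¹ := c2.const_smul (α ^ 2)
  have c6 : ContinuousOn (fun t => (β ^ 2) • Zf L v v t) S¹ := c3.const_smul (β ^ 2)
  have h := mean_mono (f := fun t => (2 * (α * β)) • Zf L v x t)
    (g := fun t => (α ^ 2) • Zf L x x t + (β ^ 2) • Zf L v v t) c4 (c5.add c6) (by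
      intro t ht
      simp only [smul_eq_mul]
      exact block_ineq (Bf L t) (Bf_add2 L t) (Bf_smul2 L t) (Bf_herm L t) (Bf_pos hD ht) x v α β)
  rw [circleAverage_fun_add (ci c5) (ci c6), circleAverage_fun_smul, circleAverage_fun_smul,
    circleAverage_fun_smul] at h
  simpa only [smul_eq_mul] using h

/-- `W = ∑ Q(v i, x j)`. -/
theorem W_eq (hD : CoreData A G L F) (y w : ι → E) :
    circleAverage (fun t => ∑ p : ι × ι, ‖⟪y p.1, L t (w p.2)⟫‖ ^ 2) 0 1 = ∑ i, ∑ j, QQ L (y i) (w j) := by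
  have c : ∀ p : ι × ι, ContinuousOn (fun t => ‖⟪y p.1, L t (w p.2)⟫‖ ^ 2) S¹ :=
    fun p => (hD.contL _ _).norm.pow 2
  rw [circleAverage_fun_sum (f := fun (p : ι × ι) t => ‖⟪y p.1, L t (w p.2)⟫‖ ^ 2) (fun p _ => ci (c p)),
    Fintype.sum_prod_type]
  rfl

/-- **The abstract chain**. -/
theorem chain_bound [DecidableEq ι] (hD : CoreData A G L F) (P : ι → ι → ℂ[X]) (M : ℝ) (hM0 : 0 ≤ M)
    (hM : ∀ t : ℂ, ‖t‖ = 1 → ‖Matrix.toEuclideanCLM (n := ι) (𝕜 := ℂ) (evalM P (G t))‖ ≤ M)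
    (x v : ι → E) (K : ℝ) (hK : 0 ≤ K) (hx : x ≠ 0) (hv : v ≠ 0)
    (h1 : ∀ i, act A P x i = (K : ℂ) • v i)
    (h2 : ∀ w : ι → E, ∑ i, ⟪v i, act A P w i⟫ = (K : ℂ) * ∑ i, ⟪x i, w i⟫) : K ≤ 2 * M := by
  set W : ℝ := circleAverage (fun t => ∑ p : ι × ι, ‖⟪v p.1, L t (x p.2)⟫‖ ^ 2) 0 1 with hW
  have hM2 : ∀ t : ℂ, ‖t‖ = 1 →
      ‖Matrix.toEuclideanCLM (n := ι) (𝕜 := ℂ) (evalM P (G t))‖ ^ 2 ≤ M ^ 2 :=
    fun t ht => pow_le_pow_left₀ (norm_nonneg _) (hM t ht) 2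
  have hs2nn : ∀ (R : ι → ι → ℂ[X]) z, 0 ≤ hs2 R z := fun R z => by
    rw [hs2]; positivity
  -- the test inequality for `x`
  have kx : ∀ n, K ^ 2 * Tn A F n x ≤ 2 * M ^ 2 * W := by
    intro n
    have hτ := Tn_pos A F n hx
    have h3 := key_ineq hD (mulP P (testP A F n x)) (testP A F n x) v x K (Tn A F n x) M hτ.le
      (by
        rw [act_mulP, h2, pair_test]
        push_cast
        ring)
      (fun t ht => (hs2_mul_left _ _ _).trans (mul_le_mul_of_nonneg_right (hM2 t ht) (hs2nn _ _)))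
      (L2_test hD n x)
    rw [← hW] at h3
    have h4 : (K ^ 2 * Tn A F n x) * Tn A F n x ≤ (2 * M ^ 2 * W) * Tn A F n x := by nlinarith
    exact le_of_mul_le_mul_right h4 hτ
  -- the test inequality for `v`
  have kv : ∀ n, K ^ 2 * Tn A F n v ≤ 2 * M ^ 2 * W := by
    intro n
    have hτ := Tn_pos A F n hv
    have h3 := key_ineq hD (mulP (testP A F n v) P) (testP A F n v) v x K (Tn A F n v) M hτ.le
      (by
        rw [act_mulP]
        have e : act A P x = fun i => (K : ℂ) • v i := funext h1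
        rw [e]
        have e2 : ∀ i, ⟪v i, act A (testP A F n v) (fun i => (K : ℂ) • v i) i⟫ =
            (K : ℂ) * ⟪v i, act A (testP A F n v) v i⟫ := by
          intro i
          rw [act, act, inner_sum, inner_sum, Finset.mul_sum]
          refine Finset.sum_congr rfl fun j _ => ?_
          rw [map_smul, inner_smul_right]
        rw [Finset.sum_congr rfl fun i _ => e2 i, ← Finset.mul_sum, pair_test]
        push_cast
        ring)
      (fun t ht => (hs2_mul_right _ _ _).trans (mul_le_mul_of_nonneg_right (hM2 t ht) (hs2nn _ _)))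
      (L2_test hD n v)
    rw [← hW] at h3
    have h4 : (K ^ 2 * Tn A F n v) * Tn A F n v ≤ (2 * M ^ 2 * W) * Tn A F n v := by nlinarith
    exact le_of_mul_le_mul_right h4 hτ
  -- pass to the limit
  have lx : K ^ 2 * TT L x ≤ 2 * M ^ 2 * W :=
    le_of_tendsto' ((Tn_tendsto hD x).const_mul (K ^ 2)) kx
  have lv : K ^ 2 * TT L v ≤ 2 * M ^ 2 * W :=
    le_of_tendsto' ((Tn_tendsto hD v).const_mul (K ^ 2)) kv
  have Tx := TT_pos hD hx
  have Tv := TT_pos hD hv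
  -- the form
  set Z : ℝ := circleAverage (Zf L v x) 0 1 with hZ
  have hW0 : 0 ≤ W := by
    rw [hW, W_eq hD]
    exact Finset.sum_nonneg fun i _ => Finset.sum_nonneg fun j _ => QQ_nonneg hD _ _
  have hWZ : W ≤ Z := by
    rw [hW, W_eq hD, hZ, mean_Zf hD]
    refine Finset.sum_le_sum fun i _ => Finset.sum_le_sum fun j _ => ?_
    have := QQ_nonneg hD (x j) (v i)
    have h5 : 0 ≤ 2 * ‖⟪v i, x j⟫‖ ^ 2 := by positivity
    linarith
  have hblock : ∀ α β : ℝ, 2 * (α * β) * Z ≤ α ^ 2 * (2 * TT L x) + β ^ 2 * (2 * TT L v) := by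
    intro α β
    have := block_mean hD x v α β
    rwa [mean_Zf_self hD, mean_Zf_self hD] at this
  have hZ2 : Z ^ 2 ≤ 4 * TT L x * TT L v := by
    have h3 := hblock Z (2 * TT L x)
    have h4 : (Z ^ 2) * (2 * TT L x) ≤ (4 * TT L x * TT L v) * (2 * TT L x) := by nlinarith
    exact le_of_mul_le_mul_right h4 (by positivity)
  -- conclude
  by_contra hcon
  push Not at hcon
  have hK2 : (2 * M) ^ 2 < K ^ 2 := by nlinarith
  have hprod : (K ^ 2 * TT L x) * (K ^ 2 * TT L v) ≤ (2 * M ^ 2 * W) * (2 * M ^ 2 * W) :=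
    mul_le_mul lx lv (by positivity) (by positivity)
  have hW2 : W ^ 2 ≤ Z ^ 2 := pow_le_pow_left₀ hW0 hWZ 2
  have h6 : (2 * M ^ 2 * W) * (2 * M ^ 2 * W) ≤ (2 * M) ^ 2 * (2 * M) ^ 2 * (TT L x * TT L v) := by
    have : M ^ 4 * W ^ 2 ≤ M ^ 4 * (4 * TT L x * TT L v) :=
      mul_le_mul_of_nonneg_left (hW2.trans hZ2) (by positivity)
    nlinarith
  have h7 : (2 * M) ^ 2 * (2 * M) ^ 2 < K ^ 2 * K ^ 2 := by
    have hM20 : 0 ≤ (2 * M) ^ 2 := by positivity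
    exact mul_lt_mul'' hK2 hK2 hM20 hM20
  have hTT : 0 < TT L x * TT L v := mul_pos Tx Tv
  nlinarith

end Data

end Crest.Agent.Lib.Crouzeix
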