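import Mathlib

/-!
Reduction of the matrix-valued Crouzeix inequality from a general complex Hilbert space to
finite-dimensional inner product spaces: compress `A` to the span of the vectors `A^k v_j`.
-/

set_option autoImplicit false

namespace Crest.Agent.Lib.Crouzeix

universe u

/-- The finite-dimensional form of the statement S0179. -/
def FDCrouzeix : Prop :=
  ∀ (E : Type u) [NormedAddCommGroup E] [InnerProductSpace ℂ E] [FiniteDimensional ℂ E]
    (A : E →L[ℂ] E) (m d : ℕ) (B : Fin (d + 1) → Matrix (Fin m) (Fin m) ℂ) (M : ℝ)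
    (_ : ∀ x : E, ‖x‖ = 1 →
      ‖Matrix.toEuclideanCLM (n := Fin m) (𝕜 := ℂ)
          (∑ k : Fin (d + 1), (inner ℂ x (A x)) ^ (k : ℕ) • B k)‖ ≤ M)
    (v : PiLp 2 (fun _ : Fin m => E)),
    ‖(WithLp.toLp 2 (fun i : Fin m => ∑ j : Fin m, ∑ k : Fin (d + 1), B k i j • (A ^ (k : ℕ)) (v j))
        : PiLp 2 (fun _ : Fin m => E))‖ ≤ 2 * M * ‖v‖

theorem general_of_fd (hfd : FDCrouzeix.{u})
    {H : Type u} [NormedAddCommGroup H] [InnerProductSpace ℂ H] [CompleteSpace H]
    (A : H →L[ℂ] H) (m d : ℕ) (B : Fin (d + 1) → Matrix (Fin m) (Fin m) ℂ) (M : ℝ)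
    (hM : ∀ x : H, ‖x‖ = 1 →
      ‖Matrix.toEuclideanCLM (n := Fin m) (𝕜 := ℂ)
          (∑ k : Fin (d + 1), (inner ℂ x (A x)) ^ (k : ℕ) • B k)‖ ≤ M)
    (v : PiLp 2 (fun _ : Fin m => H)) :
    ‖(WithLp.toLp 2 (fun i : Fin m => ∑ j : Fin m, ∑ k : Fin (d + 1), B k i j • (A ^ (k : ℕ)) (v j))
        : PiLp 2 (fun _ : Fin m => H))‖ ≤ 2 * M * ‖v‖ := by
  classical
  -- the span of the vectors `A^k v_j`, `k ≤ d`
  let S : Finset H := (Finset.univ : Finset (Fin (d + 1) × Fin m)).image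
    fun p => (A ^ (p.1 : ℕ)) (v p.2)
  let E : Submodule ℂ H := Submodule.span ℂ (S : Set H)
  have : FiniteDimensional ℂ E := FiniteDimensional.span_finset ℂ S
  have hmem : ∀ (k : ℕ) (j : Fin m), k ≤ d → (A ^ k) (v j) ∈ E := by
    intro k j hk
    apply Submodule.subset_span
    simp only [S, Finset.coe_image, Finset.coe_univ, Set.image_univ, Set.mem_range]
    exact ⟨(⟨k, Nat.lt_succ_of_le hk⟩, j), rfl⟩
  -- the compression
  let A' : E →L[ℂ] E := E.orthogonalProjectionOnto ∘L A ∘L E.subtypeL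
  have hA'coe : ∀ (x : E), A x ∈ E → ((A' x : E) : H) = A x := by
    intro x hx
    have : ((E.orthogonalProjectionOnto (A x) : E) : H) = A x :=
      Submodule.starProjection_eq_self_iff.mpr hx
    simpa [A'] using this
  have hpow : ∀ (k : ℕ) (j : Fin m) (hk : k ≤ d),
      (((A' ^ k) ⟨v j, by simpa using hmem 0 j (Nat.zero_le d)⟩ : E) : H) = (A ^ k) (v j) := by
    intro k j
    induction k with
    | zero => intro _; simp
    | succ k ih =>
      intro hk
      have hk' : k ≤ d := by omega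
      have h1 := ih hk'
      rw [pow_succ', ContinuousLinearMap.mul_apply]
      have h2 : A (((A' ^ k) ⟨v j, by simpa using hmem 0 j (Nat.zero_le d)⟩ : E) : H) ∈ E := by
        rw [h1]
        have := hmem (k + 1) j hk
        rwa [pow_succ', ContinuousLinearMap.mul_apply] at this
      rw [hA'coe _ h2, h1, pow_succ', ContinuousLinearMap.mul_apply]
  have hinner : ∀ x : E, inner ℂ x (A' x) = inner ℂ (x : H) (A x) := by
    intro x
    have h1 : inner ℂ x (A' x) = inner ℂ (x : H) ((A' x : E) : H) := rfl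
    rw [h1]
    have h2 : ((A' x : E) : H) = E.starProjection (A x) := rfl
    rw [h2, ← Submodule.inner_starProjection_left_eq_right,
      Submodule.starProjection_eq_self_iff.mpr x.2]
  -- the hypothesis for `A'`
  have hM' : ∀ x : E, ‖x‖ = 1 →
      ‖Matrix.toEuclideanCLM (n := Fin m) (𝕜 := ℂ)
          (∑ k : Fin (d + 1), (inner ℂ x (A' x)) ^ (k : ℕ) • B k)‖ ≤ M := by
    intro x hx
    rw [hinner x]
    exact hM (x : H) (by simpa using hx)
  let v' : PiLp 2 (fun _ : Fin m => E) :=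
    WithLp.toLp 2 fun j => ⟨v j, by simpa using hmem 0 j (Nat.zero_le d)⟩
  have key := hfd E A' m d B M hM' v'
  -- compare the norms
  have hnv : ‖v'‖ = ‖v‖ := by
    rw [PiLp.norm_eq_of_L2, PiLp.norm_eq_of_L2]
    congr 1
  have hcomp : ∀ i : Fin m,
      ((∑ j : Fin m, ∑ k : Fin (d + 1), B k i j • (A' ^ (k : ℕ)) (v' j) : E) : H)
        = ∑ j : Fin m, ∑ k : Fin (d + 1), B k i j • (A ^ (k : ℕ)) (v j) := by
    intro i
    rw [Submodule.coe_sum]
    refine Finset.sum_congr rfl fun j _ => ?_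
    rw [Submodule.coe_sum]
    refine Finset.sum_congr rfl fun k _ => ?_
    rw [Submodule.coe_smul]
    congr 1
    exact hpow k j (Nat.lt_succ_iff.mp k.2)
  have hnorm : ‖(WithLp.toLp 2 (fun i : Fin m =>
        ∑ j : Fin m, ∑ k : Fin (d + 1), B k i j • (A ^ (k : ℕ)) (v j))
        : PiLp 2 (fun _ : Fin m => H))‖
      = ‖(WithLp.toLp 2 (fun i : Fin m =>
        ∑ j : Fin m, ∑ k : Fin (d + 1), B k i j • (A' ^ (k : ℕ)) (v' j))
        : PiLp 2 (fun _ : Fin m => E))‖ := by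
    rw [PiLp.norm_eq_of_L2, PiLp.norm_eq_of_L2]
    congr 1
    refine Finset.sum_congr rfl fun i _ => ?_
    congr 1
    show ‖∑ j : Fin m, ∑ k : Fin (d + 1), B k i j • (A ^ (k : ℕ)) (v j)‖
      = ‖∑ j : Fin m, ∑ k : Fin (d + 1), B k i j • (A' ^ (k : ℕ)) (v' j)‖
    rw [← hcomp i, Submodule.coe_norm]
  rw [hnorm]
  rw [← hnv]
  exact key

end Crest.Agent.Lib.Crouzeix
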