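import Mathlib

/-!
# Circle means of functions analytic at infinity: Laurent expansion on the unit circle,
Fourier coefficients, Parseval.

Row 132 (S0179), module RES, part 1.
-/

set_option autoImplicit false

open Complex Metric Set Filter Topology MeasureTheory
open scoped ComplexConjugate Real

namespace Crest.Agent.Lib.Crouzeix.Res

/-- Circle mean. -/
noncomputable def mean (f : ℂ → ℂ) : ℂ :=
  ((2 * π : ℝ) : ℂ)⁻¹ * ∫ θ in (0 : ℝ)..(2 * π), f (exp (θ * I))

/-- The point on the unit circle. -/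
noncomputable def ee (θ : ℝ) : ℂ := exp (θ * I)

lemma ee_norm (θ : ℝ) : ‖ee θ‖ = 1 := by simp [ee, norm_exp_ofReal_mul_I]

lemma ee_ne (θ : ℝ) : ee θ ≠ 0 := by simp [ee]

lemma continuous_ee : Continuous ee := by unfold ee; fun_prop

lemma ee_conj (θ : ℝ) : conj (ee θ) = (ee θ)⁻¹ := by
  have h := ee_norm θ
  rw [Complex.inv_def, Complex.normSq_eq_norm_sq, h]
  simp

lemma mean_const (c : ℂ) : mean (fun _ => c) = c := by
  unfold mean
  rw [intervalIntegral.integral_const]
  have hpi : ((2 * π : ℝ) : ℂ) ≠ 0 := by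
    exact_mod_cast (by positivity : (2 * π : ℝ) ≠ 0)
  simp only [sub_zero, real_smul]
  field_simp

lemma mean_add {f g : ℂ → ℂ} (hf : Continuous fun θ : ℝ => f (exp (θ * I)))
    (hg : Continuous fun θ : ℝ => g (exp (θ * I))) :
    mean (fun t => f t + g t) = mean f + mean g := by
  unfold mean
  rw [intervalIntegral.integral_add (hf.intervalIntegrable _ _) (hg.intervalIntegrable _ _)]
  ring

lemma mean_sub {f g : ℂ → ℂ} (hf : Continuous fun θ : ℝ => f (exp (θ * I)))
    (hg : Continuous fun θ : ℝ => g (exp (θ * I))) :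
    mean (fun t => f t - g t) = mean f - mean g := by
  unfold mean
  rw [intervalIntegral.integral_sub (hf.intervalIntegrable _ _) (hg.intervalIntegrable _ _)]
  ring

lemma mean_const_mul (c : ℂ) (f : ℂ → ℂ) : mean (fun t => c * f t) = c * mean f := by
  unfold mean
  rw [intervalIntegral.integral_const_mul]
  ring

lemma mean_congr {f g : ℂ → ℂ} (h : ∀ t, ‖t‖ = 1 → f t = g t) : mean f = mean g := by
  unfold mean
  congr 1
  apply intervalIntegral.integral_congr
  intro θ _
  exact h _ (by simp [norm_exp_ofReal_mul_I])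

/-- Mean of an integer power on the circle. -/
lemma mean_zpow (k : ℤ) : mean (fun t => t ^ k) = if k = 0 then 1 else 0 := by
  split_ifs with h
  · subst h; simpa using mean_const (1 : ℂ)
  · unfold mean
    have hk : (k : ℂ) * I ≠ 0 := by
      simp [h]
    have h1 : ∀ θ : ℝ, (exp (θ * I)) ^ k = exp ((k : ℂ) * I * θ) := by
      intro θ
      rw [← Complex.exp_int_mul]
      congr 1; ring
    simp_rw [h1]
    have h2 : ∫ θ in (0 : ℝ)..(2 * π), exp ((k : ℂ) * I * θ) = 0 := by
      rw [integral_exp_mul_complex hk]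
      have h3 : exp ((k : ℂ) * I * ((2 * π : ℝ) : ℂ)) = 1 := by
        have : (k : ℂ) * I * ((2 * π : ℝ) : ℂ) = (k : ℂ) * (2 * π * I) := by
          push_cast; ring
        rw [this, Complex.exp_int_mul, Complex.exp_two_pi_mul_I]
        simp
      rw [h3]
      simp
    rw [h2]; simp

/-- Functions analytic outside a disc of radius `r < 1`, with a limit at infinity. -/
structure AtInf (f : ℂ → ℂ) (r : ℝ) (a : ℂ) : Prop where
  diff : DifferentiableOn ℂ f {t | r < ‖t‖}
  lim : Tendsto f (Bornology.cobounded ℂ) (𝓝 a)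

lemma AtInf.continuous_circle {f : ℂ → ℂ} {r : ℝ} {a : ℂ} (h : AtInf f r a) (hr : r < 1) :
    Continuous fun θ : ℝ => f (exp (θ * I)) := by
  have hU : IsOpen {t : ℂ | r < ‖t‖} := isOpen_lt continuous_const continuous_norm
  refine continuous_iff_continuousAt.2 fun θ => ?_
  have h1 : exp (θ * I) ∈ {t : ℂ | r < ‖t‖} := by simpa [norm_exp_ofReal_mul_I] using hr
  have h2 : ContinuousAt f (exp (θ * I)) :=
    (h.diff _ h1).continuousWithinAt.continuousAt (hU.mem_nhds h1)
  exact ContinuousAt.comp (f := fun θ : ℝ => exp (θ * I)) h2 (by fun_prop)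

/-- The function in the inverted variable, extended by its limit at `0`. -/
noncomputable def inv0 (f : ℂ → ℂ) (a : ℂ) (u : ℂ) : ℂ := if u = 0 then a else f u⁻¹

lemma inv0_differentiableOn {f : ℂ → ℂ} {r : ℝ} {a : ℂ} (h : AtInf f r a) (hr0 : 0 < r) :
    DifferentiableOn ℂ (inv0 f a) (ball 0 r⁻¹) := by
  have hpunct : ∀ u ∈ ball (0 : ℂ) r⁻¹, u ≠ 0 → DifferentiableAt ℂ (inv0 f a) u := by
    intro u hu hu0
    have hu' : r < ‖u⁻¹‖ := by
      rw [norm_inv]
      have : ‖u‖ < r⁻¹ := by simpa using hu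
      have hpos : 0 < ‖u‖ := norm_pos_iff.2 hu0
      exact (lt_inv_comm₀ hpos hr0).1 this
    have hU : IsOpen {t : ℂ | r < ‖t‖} := isOpen_lt continuous_const continuous_norm
    have h1 : DifferentiableAt ℂ f u⁻¹ := (h.diff _ hu').differentiableAt (hU.mem_nhds hu')
    have h2 : DifferentiableAt ℂ (fun u : ℂ => f u⁻¹) u :=
      DifferentiableAt.comp (f := fun u : ℂ => u⁻¹) u h1 (differentiableAt_inv hu0)
    refine h2.congr_of_eventuallyEq ?_
    filter_upwards [isOpen_ne.mem_nhds hu0] with v hv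
    simp [inv0, hv]
  have hcont0 : ContinuousAt (inv0 f a) 0 := by
    have h1 : Tendsto (fun u : ℂ => f u⁻¹) (𝓝[≠] 0) (𝓝 a) := by
      refine h.lim.comp ?_
      exact tendsto_inv₀_nhdsNE_zero
    have h2 : Tendsto (inv0 f a) (𝓝[≠] 0) (𝓝 a) := by
      refine h1.congr' ?_
      filter_upwards [self_mem_nhdsWithin] with v hv
      simp only [mem_compl_iff, mem_singleton_iff] at hv
      simp [inv0, hv]
    have h3 : inv0 f a 0 = a := by simp [inv0]
    refine continuousAt_iff_punctured_nhds.2 ?_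
    rw [h3]; exact h2
  intro u hu
  by_cases hu0 : u = 0
  · subst hu0
    have hev : ∀ᶠ z in 𝓝[≠] (0 : ℂ), DifferentiableAt ℂ (inv0 f a) z := by
      have : ball (0 : ℂ) r⁻¹ ∈ 𝓝 (0 : ℂ) := ball_mem_nhds _ (by positivity)
      filter_upwards [nhdsWithin_le_nhds this, self_mem_nhdsWithin] with z hz hz0
      exact hpunct z hz hz0
    exact (Complex.analyticAt_of_differentiable_on_punctured_nhds_of_continuousAt hev
      hcont0).differentiableAt.differentiableWithinAt
  · exact (hpunct u hu hu0).differentiableWithinAt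

/-- **Laurent expansion at infinity.** -/
theorem AtInf.exists_series {f : ℂ → ℂ} {r : ℝ} {a : ℂ} (h : AtInf f r a) (hr0 : 0 < r)
    (hr : r < 1) :
    ∃ c : ℕ → ℂ, Summable (fun j => ‖c j‖) ∧ c 0 = a ∧
      ∀ t : ℂ, ‖t‖ = 1 → HasSum (fun j => c j * t⁻¹ ^ j) (f t) := by
  obtain ⟨R', hR1, hR2⟩ : ∃ R : ℝ, 1 < R ∧ R < r⁻¹ := exists_between (by
    exact (one_lt_inv₀ hr0).2 hr)
  have hRpos' : 0 < R' := by linarith
  lift R' to NNReal using hRpos'.le with R
  have hd := inv0_differentiableOn h hr0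
  have hd' : DifferentiableOn ℂ (inv0 f a) (closedBall 0 R) := by
    refine hd.mono ?_
    intro u hu
    simp only [mem_closedBall, dist_zero_right] at hu
    simp only [mem_ball, dist_zero_right]
    linarith
  have hRpos : 0 < R := by exact_mod_cast hRpos'
  have hps := hd'.hasFPowerSeriesOnBall (c := 0) (R := R) hRpos
  set p := cauchyPowerSeries (inv0 f a) 0 R with hp
  refine ⟨fun j => p.coeff j, ?_, ?_, ?_⟩
  · have hrad : ((1 : NNReal) : ENNReal) < p.radius := by
      refine lt_of_lt_of_le ?_ hps.r_le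
      exact_mod_cast hR1
    have := p.summable_norm_mul_pow hrad
    simpa [FormalMultilinearSeries.norm_apply_eq_norm_coef] using this
  · have := hps.coeff_zero (fun _ => (0 : ℂ))
    simp only [FormalMultilinearSeries.coeff]
    have h2 : inv0 f a 0 = a := by simp [inv0]
    rw [← h2, ← this]
    simp
  · intro t ht
    have hu : t⁻¹ ∈ Metric.eball (0 : ℂ) (R : ENNReal) := by
      have : ‖t⁻¹‖ < (R : ℝ) := by simpa [ht] using hR1
      simpa [Metric.eball_coe, dist_zero_right] using this
    have hs := hps.hasSum hu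
    have hne : t⁻¹ ≠ 0 := by
      have : t ≠ 0 := by intro h0; simp [h0] at ht
      exact inv_ne_zero this
    have hval : inv0 f a (0 + t⁻¹) = f t := by simp [inv0, hne]
    rw [hval] at hs
    refine hs.congr_fun ?_
    intro j
    rw [p.apply_eq_prod_smul_coeff]
    simp [mul_comm]

lemma mean_eq_circleAverage (f : ℂ → ℂ) : mean f = Real.circleAverage f 0 1 := by
  simp [mean, Real.circleAverage, circleMap]

/-- Termwise means. -/
lemma hasSum_mean {F : ℕ → ℂ → ℂ} {f : ℂ → ℂ} {u : ℕ → ℝ}
    (hF : ∀ i, Continuous fun θ : ℝ => F i (exp (θ * I)))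
    (hb : ∀ i t, ‖t‖ = 1 → ‖F i t‖ ≤ u i) (hu : Summable u)
    (hs : ∀ t, ‖t‖ = 1 → HasSum (fun i => F i t) (f t)) :
    HasSum (fun i => mean (F i)) (mean f) := by
  unfold mean
  apply HasSum.mul_left
  refine intervalIntegral.hasSum_integral_of_dominated_convergence (fun i _ => u i)
    (fun i => (hF i).aestronglyMeasurable) ?_ ?_ ?_ ?_
  · intro i
    exact Filter.Eventually.of_forall fun θ _ => hb i _ (by simp [norm_exp_ofReal_mul_I])
  · exact Filter.Eventually.of_forall fun θ _ => hu
  · exact intervalIntegrable_const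
  · exact Filter.Eventually.of_forall fun θ _ => hs _ (by simp [norm_exp_ofReal_mul_I])

/-- The Fourier data of a function analytic at infinity. -/
theorem AtInf.exists_coeff {f : ℂ → ℂ} {r : ℝ} {a : ℂ} (h : AtInf f r a) (hr0 : 0 < r)
    (hr : r < 1) :
    ∃ c : ℕ → ℂ, Summable (fun j => ‖c j‖) ∧ c 0 = a ∧
      (∀ t : ℂ, ‖t‖ = 1 → HasSum (fun j => c j * t⁻¹ ^ j) (f t)) ∧
      (∀ n : ℕ, mean (fun t => t ^ n * f t) = c n) ∧
      (∀ n : ℕ, mean (fun t => t⁻¹ ^ (n + 1) * f t) = 0) ∧
      HasSum (fun j => ((‖c j‖ ^ 2 : ℝ) : ℂ)) (mean (fun t => f t * conj (f t))) := by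
  obtain ⟨c, hc, hc0, hs⟩ := h.exists_series hr0 hr
  have hcont := h.continuous_circle hr
  have hcircle : Continuous fun θ : ℝ => exp (θ * I) := by fun_prop
  -- integer Fourier coefficients
  have key : ∀ k : ℤ, HasSum (fun j : ℕ => c j * (if k - (j : ℤ) = 0 then 1 else 0))
      (mean (fun t => t ^ k * f t)) := by
    intro k
    have h1 : HasSum (fun j : ℕ => mean (fun t => c j * t ^ (k - (j : ℤ))))
        (mean (fun t => t ^ k * f t)) := by
      refine hasSum_mean (u := fun j => ‖c j‖) ?_ ?_ hc ?_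
      · intro j
        refine continuous_const.mul ?_
        exact continuous_iff_continuousAt.2 fun θ =>
          ContinuousAt.zpow₀ (by fun_prop) _ (Or.inl (exp_ne_zero _))
      · intro j t ht
        simp [ht, norm_zpow]
      · intro t ht
        have ht0 : t ≠ 0 := by intro h0; simp [h0] at ht
        have := (hs t ht).mul_left (t ^ k)
        refine this.congr_fun ?_ 
        intro j
        rw [zpow_sub₀ ht0]
        simp only [zpow_natCast, inv_pow]
        field_simp
    refine h1.congr_fun ?_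
    intro j
    rw [mean_const_mul, mean_zpow]
  have hcoef : ∀ k : ℕ, mean (fun t => t ^ k * f t) = c k := by
    intro k
    have h1 := key (k : ℤ)
    have h2 : HasSum (fun j : ℕ => c j * (if (k : ℤ) - (j : ℤ) = 0 then 1 else 0)) (c k) := by
      have := hasSum_ite_eq (k) (c k)
      refine this.congr_fun ?_
      intro j
      by_cases hj : j = k
      · subst hj; simp
      · have : ¬ ((k : ℤ) - (j : ℤ) = 0) := by omega
        simp [hj, this]
    have h3 := h1.unique h2
    simpa [zpow_natCast] using h3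
  have hneg : ∀ n : ℕ, mean (fun t => t⁻¹ ^ (n + 1) * f t) = 0 := by
    intro n
    have h1 := key (-((n + 1 : ℕ) : ℤ))
    have h2 : HasSum (fun j : ℕ => c j * (if -(((n + 1 : ℕ)) : ℤ) - (j : ℤ) = 0 then (1 : ℂ) else 0))
        0 := by
      have : (fun j : ℕ => c j * (if -(((n + 1 : ℕ)) : ℤ) - (j : ℤ) = 0 then (1 : ℂ) else 0)) =
          fun _ => 0 := by
        funext j
        have : ¬ (-(((n + 1 : ℕ)) : ℤ) - (j : ℤ) = 0) := by omega
        rw [if_neg this, mul_zero]
      rw [this]; exact hasSum_zero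
    have h3 := h1.unique h2
    rw [← h3]
    apply mean_congr
    intro t _
    congr 1
    rw [zpow_neg, zpow_natCast, inv_pow]
  refine ⟨c, hc, hc0, hs, hcoef, hneg, ?_⟩
  -- Parseval
  obtain ⟨B, hB⟩ : ∃ B : ℝ, ∀ t : ℂ, ‖t‖ = 1 → ‖f t‖ ≤ B := by
    refine ⟨∑' j, ‖c j‖, fun t ht => ?_⟩
    have h1 := (hs t ht).norm_le_of_bounded (g := fun j => ‖c j‖) hc.hasSum ?_
    · exact h1
    · intro j; simp [ht]
  have hB0 : 0 ≤ B := by
    have := hB 1 (by simp)
    exact (norm_nonneg _).trans this
  have h1 : HasSum (fun j : ℕ => mean (fun t => conj (c j) * (t ^ j * f t)))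
      (mean (fun t => f t * conj (f t))) := by
    refine hasSum_mean (u := fun j => ‖c j‖ * B) ?_ ?_ (hc.mul_right B) ?_
    · intro j
      exact continuous_const.mul ((hcircle.pow j).mul hcont)
    · intro j t ht
      simp only [norm_mul, norm_pow, ht, RCLike.norm_conj, one_pow, one_mul]
      exact mul_le_mul_of_nonneg_left (hB t ht) (norm_nonneg _)
    · intro t ht
      have ht0 : t ≠ 0 := by intro h0; simp [h0] at ht
      have h2 : HasSum (fun j => conj (c j * t⁻¹ ^ j)) (conj (f t)) :=
        Complex.hasSum_conj'.2 (hs t ht)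
      have h3 := h2.mul_right (f t)
      rw [mul_comm (conj (f t))] at h3
      refine h3.congr_fun ?_
      intro j
      have h4 : conj t = t⁻¹ := by
        rw [Complex.inv_def, Complex.normSq_eq_norm_sq, ht]; simp
      simp only [map_mul, map_pow, map_inv₀, h4, inv_inv]
      ring
  refine h1.congr_fun ?_
  intro j
  rw [mean_const_mul, hcoef]
  rw [Complex.conj_mul']
  simp

end Crest.Agent.Lib.Crouzeix.Res
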