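import Crest.Agent.Lib.Crouzeix.Kernel
import Crest.Agent.Lib.Crouzeix.ResMean

/-!
# The operator side of the Crouzeix argument (row 132, S0179, module RES)

`L t = t G'(t) (G t - A)⁻¹`: analytic outside a disc of radius `< 1`, `L t → 1` at infinity,
Cauchy formula for polynomials, Fourier coefficients = Faber polynomials of `A`, positivity
of the real part, orthogonality and Parseval on the unit circle.
-/

set_option autoImplicit false

open Complex Metric Set Filter Topology MeasureTheory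
open scoped ComplexConjugate Real

namespace Crest.Agent.Lib.Crouzeix.Res

variable {E : Type*} [NormedAddCommGroup E] [InnerProductSpace ℂ E] [CompleteSpace E]

local notation "⟪" x ", " y "⟫" => (inner ℂ x y : ℂ)

/-- The operator kernel `L t = t G'(t) (G t - A)⁻¹`. -/
noncomputable def Lop (G : ℂ → ℂ) (A : E →L[ℂ] E) (t : ℂ) : E →L[ℂ] E :=
  (t * deriv G t) • resolvent A (G t)

/-- Matrix elements of the kernel. -/
noncomputable def lk (G : ℂ → ℂ) (A : E →L[ℂ] E) (a b : E) (t : ℂ) : ℂ :=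
  ⟪b, Lop G A t a⟫

lemma lk_def (G : ℂ → ℂ) (A : E →L[ℂ] E) (a b : E) (t : ℂ) :
    lk G A a b t = t * deriv G t * ⟪b, resolvent A (G t) a⟫ := by
  simp [lk, Lop]

section Resolvent

variable (A : E →L[ℂ] E)

lemma mul_resolvent {z : ℂ} (hz : z ∉ spectrum ℂ A) (a : E) :
    z • resolvent A z a = a + resolvent A z (A a) := by
  have hu := spectrum.notMem_iff.1 hz
  have h1 : resolvent A z * (algebraMap ℂ (E →L[ℂ] E) z - A) = 1 := by
    rw [resolvent]; exact Ring.inverse_mul_cancel _ hu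
  have h2 := congrArg (fun T : E →L[ℂ] E => T a) h1
  simp only [ContinuousLinearMap.mul_apply, ContinuousLinearMap.sub_apply, map_sub,
    ContinuousLinearMap.one_apply, Algebra.algebraMap_eq_smul_one, ContinuousLinearMap.smul_apply,
    map_smul] at h2
  exact sub_eq_iff_eq_add.1 h2

lemma sub_resolvent_apply {z : ℂ} (hz : z ∉ spectrum ℂ A) (a : E) :
    z • resolvent A z a - A (resolvent A z a) = a := by
  have hu := spectrum.notMem_iff.1 hz
  have h1 : (algebraMap ℂ (E →L[ℂ] E) z - A) * resolvent A z = 1 := by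
    rw [resolvent]; exact Ring.mul_inverse_cancel _ hu
  have h2 := congrArg (fun T : E →L[ℂ] E => T a) h1
  simpa [ContinuousLinearMap.mul_apply, ContinuousLinearMap.sub_apply,
    Algebra.algebraMap_eq_smul_one, ContinuousLinearMap.smul_apply] using h2

/-- `z R(z) → 1` at infinity, in operator norm. -/
lemma tendsto_smul_resolvent :
    Tendsto (fun z : ℂ => z • resolvent A z) (Bornology.cobounded ℂ) (𝓝 1) := by
  have h0 := spectrum.resolvent_tendsto_cobounded (𝕜 := ℂ) A
  have h1 : Tendsto (fun z : ℂ => 1 + resolvent A z * A) (Bornology.cobounded ℂ) (𝓝 (1 + 0 * A)) :=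
    tendsto_const_nhds.add (h0.mul tendsto_const_nhds)
  rw [zero_mul, add_zero] at h1
  refine h1.congr' ?_
  have hev : ∀ᶠ z : ℂ in Bornology.cobounded ℂ, z ∉ spectrum ℂ A := by
    have hb := (spectrum.isCompact (𝕜 := ℂ) A).isBounded
    exact Bornology.isBounded_def.1 hb
  filter_upwards [hev] with z hz
  ext a
  have := mul_resolvent A (z := z) hz a
  simp only [ContinuousLinearMap.add_apply, ContinuousLinearMap.one_apply,
    ContinuousLinearMap.mul_apply, ContinuousLinearMap.smul_apply]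
  exact this.symm

end Resolvent

section Exterior

variable {G : ℂ → ℂ} {r : ℝ} {c : ℂ} {e : ℂ → ℂ}

lemma ExtMap.isOpen_ext (r : ℝ) : IsOpen {t : ℂ | r < ‖t‖} :=
  isOpen_lt continuous_const continuous_norm

lemma differentiableAt_G (h : ExtMap G r c e) {t : ℂ} (ht : r < ‖t‖) : DifferentiableAt ℂ G t :=
  (h.diff t ht).differentiableAt ((ExtMap.isOpen_ext r).mem_nhds ht)

lemma differentiableOn_deriv_G (h : ExtMap G r c e) :
    DifferentiableOn ℂ (deriv G) {t | r < ‖t‖} :=
  h.diff.deriv (ExtMap.isOpen_ext r)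

lemma e_differentiableAt (h : ExtMap G r c e) {u : ℂ} (hu : ‖u‖ < r⁻¹) : DifferentiableAt ℂ e u :=
  (h.e_diff u (by simpa using hu)).differentiableAt (isOpen_ball.mem_nhds (by simpa using hu))

lemma deriv_G_eq (h : ExtMap G r c e) {t : ℂ} (ht : r < ‖t‖) :
    deriv G t = c - deriv e t⁻¹ * (t⁻¹) ^ 2 := by
  have hr := h.r_pos
  have ht0 : t ≠ 0 := by
    intro h0; simp [h0] at ht; linarith
  have hev : G =ᶠ[𝓝 t] fun s => c * s + e s⁻¹ := by
    filter_upwards [(ExtMap.isOpen_ext r).mem_nhds ht] with s hs using h.eq s hs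
  rw [hev.deriv_eq]
  have hu : ‖t⁻¹‖ < r⁻¹ := by
    rw [norm_inv]
    exact (inv_lt_inv₀ (by positivity) hr).2 ht
  have h1 := (e_differentiableAt h hu).hasDerivAt
  have h2 : HasDerivAt (fun s : ℂ => s⁻¹) (-(t ^ 2)⁻¹) t := hasDerivAt_inv ht0
  have h3 : HasDerivAt (fun s : ℂ => e s⁻¹) (deriv e t⁻¹ * (-(t ^ 2)⁻¹)) t :=
    HasDerivAt.comp (h₂ := e) (h := fun s : ℂ => s⁻¹) t h1 h2
  have h4 : HasDerivAt (fun s : ℂ => c * s + e s⁻¹) (c * 1 + deriv e t⁻¹ * (-(t ^ 2)⁻¹)) t :=
    ((hasDerivAt_id t).const_mul c).add h3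
  rw [h4.deriv]
  rw [inv_pow]; ring

/-- `t G'(t) / G t → 1`, and `G → ∞`. -/
lemma tendsto_ext (h : ExtMap G r c e) :
    Tendsto G (Bornology.cobounded ℂ) (Bornology.cobounded ℂ) ∧
    Tendsto (fun t => t * deriv G t / G t) (Bornology.cobounded ℂ) (𝓝 1) := by
  have hr := h.r_pos
  have hinv : Tendsto (fun t : ℂ => t⁻¹) (Bornology.cobounded ℂ) (𝓝 0) :=
    tendsto_inv₀_cobounded
  have hb0 : (0 : ℂ) ∈ ball (0 : ℂ) r⁻¹ := by simp [hr]
  have hecont : ContinuousAt e 0 :=
    (h.e_diff 0 hb0).continuousWithinAt.continuousAt (isOpen_ball.mem_nhds hb0)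
  have hdcont : ContinuousAt (deriv e) 0 :=
    ((h.e_diff.deriv isOpen_ball) 0 hb0).continuousWithinAt.continuousAt
      (isOpen_ball.mem_nhds hb0)
  have he : Tendsto (fun t : ℂ => e t⁻¹) (Bornology.cobounded ℂ) (𝓝 (e 0)) :=
    hecont.tendsto.comp hinv
  have hd : Tendsto (fun t : ℂ => deriv e t⁻¹) (Bornology.cobounded ℂ) (𝓝 (deriv e 0)) :=
    hdcont.tendsto.comp hinv
  have hf1 : Tendsto (fun t : ℂ => c + e t⁻¹ * t⁻¹) (Bornology.cobounded ℂ) (𝓝 (c + e 0 * 0)) :=
    tendsto_const_nhds.add (he.mul hinv)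
  rw [mul_zero, add_zero] at hf1
  have hf2 : Tendsto (fun t : ℂ => c - deriv e t⁻¹ * (t⁻¹) ^ 2) (Bornology.cobounded ℂ)
      (𝓝 (c - deriv e 0 * 0 ^ 2)) :=
    tendsto_const_nhds.sub (hd.mul (hinv.pow 2))
  have h00 : c - deriv e 0 * 0 ^ 2 = c := by simp
  rw [h00] at hf2
  have hlarge : ∀ᶠ t : ℂ in Bornology.cobounded ℂ, r < ‖t‖ ∧ t ≠ 0 := by
    have h1 : ∀ᶠ t : ℂ in Bornology.cobounded ℂ, r + 1 < ‖t‖ :=
      tendsto_norm_cobounded_atTop.eventually (eventually_gt_atTop (r + 1))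
    filter_upwards [h1] with t ht
    refine ⟨by linarith, ?_⟩
    intro h0
    simp [h0] at ht
    linarith
  constructor
  · rw [← tendsto_norm_atTop_iff_cobounded]
    have h1 : Tendsto (fun t : ℂ => ‖t‖ * ‖c + e t⁻¹ * t⁻¹‖) (Bornology.cobounded ℂ) atTop :=
      tendsto_norm_cobounded_atTop.atTop_mul_pos (norm_pos_iff.2 h.c_ne) hf1.norm
    refine h1.congr' ?_
    filter_upwards [hlarge] with t ht
    rw [h.eq t ht.1, ← norm_mul]
    congr 1
    field_simp [ht.2]
  · have h1 : Tendsto (fun t : ℂ => (c - deriv e t⁻¹ * (t⁻¹) ^ 2) / (c + e t⁻¹ * t⁻¹))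
        (Bornology.cobounded ℂ) (𝓝 (c / c)) := hf2.div hf1 h.c_ne
    rw [div_self h.c_ne] at h1
    refine h1.congr' ?_
    have hne : ∀ᶠ t : ℂ in Bornology.cobounded ℂ, c + e t⁻¹ * t⁻¹ ≠ 0 :=
      hf1.eventually_ne h.c_ne
    filter_upwards [hlarge, hne] with t ht hn
    rw [deriv_G_eq h ht.1, h.eq t ht.1]
    have h2 : c * t + e t⁻¹ = t * (c + e t⁻¹ * t⁻¹) := by field_simp [ht.2]
    rw [h2]
    field_simp [ht.2]

end Exterior

section Main

variable {G : ℂ → ℂ} {r : ℝ} {c : ℂ} {e : ℂ → ℂ} {A : E →L[ℂ] E}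

/-- Outside a disc of radius `< 1` the curve avoids the spectrum. -/
lemma exists_radius (h : ExtMap G r c e) (hs : ∀ t, 1 ≤ ‖t‖ → G t ∉ spectrum ℂ A) :
    ∃ r', r < r' ∧ r' < 1 ∧ ∀ t, r' < ‖t‖ → G t ∉ spectrum ℂ A := by
  have hr0 := h.r_pos
  have hr1 := h.r_lt
  set r1 := (r + 1) / 2 with hr1def
  have hr1a : r < r1 := by rw [hr1def]; linarith
  have hr1b : r1 < 1 := by rw [hr1def]; linarith
  let C : Set ℂ := {t | r1 ≤ ‖t‖ ∧ ‖t‖ ≤ 1} ∩ {t | G t ∈ spectrum ℂ A}
  have hann : IsCompact {t : ℂ | r1 ≤ ‖t‖ ∧ ‖t‖ ≤ 1} := by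
    refine (isCompact_closedBall (0 : ℂ) 1).of_isClosed_subset ?_ ?_
    · exact (isClosed_le continuous_const continuous_norm).inter
        (isClosed_le continuous_norm continuous_const)
    · intro t ht; simpa using ht.2
  have hGcont : ContinuousOn G {t : ℂ | r1 ≤ ‖t‖ ∧ ‖t‖ ≤ 1} := fun t ht =>
    (differentiableAt_G h (lt_of_lt_of_le hr1a ht.1)).continuousAt.continuousWithinAt
  have hC : IsCompact C := by
    have hcl : IsClosed (spectrum ℂ A) := (spectrum.isCompact (𝕜 := ℂ) A).isClosed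
    have hcl2 : IsClosed C :=
      hGcont.preimage_isClosed_of_isClosed hann.isClosed hcl
    exact hann.of_isClosed_subset hcl2 inter_subset_left
  by_cases hne : C.Nonempty
  · obtain ⟨t0, ht0, hmax⟩ := hC.exists_isMaxOn hne continuous_norm.continuousOn
    have ht01 : ‖t0‖ < 1 := by
      refine lt_of_le_of_ne ht0.1.2 ?_
      intro h1
      exact hs t0 h1.ge ht0.2
    refine ⟨max r1 ‖t0‖, lt_of_lt_of_le hr1a (le_max_left _ _), max_lt hr1b ht01, ?_⟩
    intro t ht hmem
    have h1 : ‖t‖ > r1 := lt_of_le_of_lt (le_max_left _ _) ht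
    have h2 : ‖t‖ > ‖t0‖ := lt_of_le_of_lt (le_max_right _ _) ht
    by_cases h3 : 1 ≤ ‖t‖
    · exact hs t h3 hmem
    · have : t ∈ C := ⟨⟨h1.le, (not_le.1 h3).le⟩, hmem⟩
      exact absurd (hmax this) (not_le.2 h2)
  · refine ⟨r1, hr1a, hr1b, ?_⟩
    intro t ht hmem
    by_cases h3 : 1 ≤ ‖t‖
    · exact hs t h3 hmem
    · exact hne ⟨t, ⟨ht.le, (not_le.1 h3).le⟩, hmem⟩

lemma lk_differentiableOn (h : ExtMap G r c e) {r' : ℝ} (hr' : r ≤ r')
    (hsp : ∀ t, r' < ‖t‖ → G t ∉ spectrum ℂ A) (a b : E) :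
    DifferentiableOn ℂ (lk G A a b) {t | r' < ‖t‖} := by
  have hfun : lk G A a b = fun t => t * deriv G t * ⟪b, resolvent A (G t) a⟫ := by
    funext t; exact lk_def G A a b t
  rw [hfun]
  intro t ht
  have htr : r < ‖t‖ := lt_of_le_of_lt hr' ht
  have h1 : DifferentiableAt ℂ G t := differentiableAt_G h htr
  have h2 : DifferentiableAt ℂ (deriv G) t :=
    ((differentiableOn_deriv_G h) t htr).differentiableAt ((ExtMap.isOpen_ext r).mem_nhds htr)
  have h3 : DifferentiableAt ℂ (fun s => resolvent A (G s)) t := by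
    have h4 : G t ∈ resolventSet ℂ A := by
      have := hsp t ht
      simpa [spectrum] using this
    have h5 := (spectrum.hasDerivAt_resolvent (a := A) h4).differentiableAt
    exact DifferentiableAt.comp (g := resolvent A) t h5 h1
  let φ : (E →L[ℂ] E) →L[ℂ] ℂ := (innerSL ℂ b).comp (ContinuousLinearMap.apply ℂ E a)
  have h6 : DifferentiableAt ℂ (fun s => ⟪b, resolvent A (G s) a⟫) t := by
    have := φ.differentiableAt.comp t h3
    exact this
  exact (((differentiableAt_id).mul h2).mul h6).differentiableWithinAt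

lemma tendsto_Lop (h : ExtMap G r c e) :
    Tendsto (Lop G A) (Bornology.cobounded ℂ) (𝓝 1) := by
  obtain ⟨h1, h2⟩ := tendsto_ext h
  have h3 := (tendsto_smul_resolvent A).comp h1
  have h4 := h2.smul h3
  rw [one_smul] at h4
  refine h4.congr' ?_
  have hne : ∀ᶠ t : ℂ in Bornology.cobounded ℂ, G t ≠ 0 := by
    have : ({0} : Set ℂ)ᶜ ∈ Bornology.cobounded ℂ :=
      Bornology.isBounded_def.1 (Bornology.isBounded_singleton)
    exact h1.eventually this
  filter_upwards [hne] with t ht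
  simp only [Function.comp, Lop, smul_smul]
  congr 1
  field_simp

lemma lk_atInf (h : ExtMap G r c e) {r' : ℝ} (hr' : r ≤ r')
    (hsp : ∀ t, r' < ‖t‖ → G t ∉ spectrum ℂ A) (a b : E) :
    AtInf (lk G A a b) r' ⟪b, a⟫ := by
  refine ⟨lk_differentiableOn h hr' hsp a b, ?_⟩
  let φ : (E →L[ℂ] E) →L[ℂ] ℂ := (innerSL ℂ b).comp (ContinuousLinearMap.apply ℂ E a)
  have h1 := φ.continuous.tendsto (1 : E →L[ℂ] E)
  have h2 := h1.comp (tendsto_Lop (A := A) h)
  have h3 : φ 1 = ⟪b, a⟫ := by simp [φ]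
  rw [h3] at h2
  exact h2

lemma AtInf.mul {f g : ℂ → ℂ} {r : ℝ} {a b : ℂ} (hf : AtInf f r a) (hg : AtInf g r b) :
    AtInf (fun t => f t * g t) r (a * b) :=
  ⟨hf.diff.mul hg.diff, hf.lim.mul hg.lim⟩

lemma AtInf.mono {f : ℂ → ℂ} {r r' : ℝ} {a : ℂ} (hf : AtInf f r a) (hr : r ≤ r') :
    AtInf f r' a :=
  ⟨hf.diff.mono fun _ (ht : r' < _) => lt_of_le_of_lt hr ht, hf.lim⟩

/-- Mean value at infinity. -/
lemma AtInf.mean_eq {f : ℂ → ℂ} {r : ℝ} {a : ℂ} (hf : AtInf f r a) (hr0 : 0 < r) (hr : r < 1) :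
    mean f = a := by
  obtain ⟨c, -, hc0, -, hco, -, -⟩ := hf.exists_coeff hr0 hr
  have := hco 0
  simp only [pow_zero, one_mul] at this
  rw [this, hc0]

lemma mean_tDG_pow (h : ExtMap G r c e) (n : ℕ) :
    mean (fun t => t * deriv G t * G t ^ n) = 0 := by
  have hr1 := h.r_lt
  have hcirc : ∀ θ : ℝ, r < ‖exp (θ * I)‖ := by
    intro θ; simpa [norm_exp_ofReal_mul_I] using hr1
  have hcircle : Continuous fun θ : ℝ => exp (θ * I) := by fun_prop
  have hGc : Continuous fun θ : ℝ => G (exp (θ * I)) :=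
    continuous_iff_continuousAt.2 fun θ =>
      ContinuousAt.comp (f := fun θ : ℝ => exp (θ * I))
        (differentiableAt_G h (hcirc θ)).continuousAt hcircle.continuousAt
  have hDc : Continuous fun θ : ℝ => deriv G (exp (θ * I)) :=
    continuous_iff_continuousAt.2 fun θ =>
      ContinuousAt.comp (f := fun θ : ℝ => exp (θ * I))
        (((differentiableOn_deriv_G h) _ (hcirc θ)).differentiableAt
          ((ExtMap.isOpen_ext r).mem_nhds (hcirc θ))).continuousAt hcircle.continuousAt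
  let Φ : ℝ → ℂ := fun θ => G (exp (θ * I)) ^ (n + 1) / ((n : ℂ) + 1)
  let Φ' : ℝ → ℂ := fun θ => (exp (θ * I) * I) * (deriv G (exp (θ * I)) * G (exp (θ * I)) ^ n)
  have hn : ((n : ℂ) + 1) ≠ 0 := by exact_mod_cast Nat.succ_ne_zero n
  have hder : ∀ θ ∈ uIcc (0 : ℝ) (2 * π), HasDerivAt Φ (Φ' θ) θ := by
    intro θ _
    have h1 : HasDerivAt (fun θ : ℝ => exp (θ * I)) (exp (θ * I) * I) θ := by
      have h2 : HasDerivAt (fun θ : ℝ => ((θ : ℂ) * I)) I θ := by
        simpa using (Complex.ofRealCLM.hasDerivAt (x := θ)).mul_const I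
      simpa using h2.cexp
    have h3 : HasDerivAt (fun θ : ℝ => G (exp (θ * I)))
        (deriv G (exp (θ * I)) * (exp (θ * I) * I)) θ := by
      have := (differentiableAt_G h (hcirc θ)).hasDerivAt
      exact HasDerivAt.comp_of_eq (h₂ := G) (h := fun θ : ℝ => exp (θ * I)) θ this h1 rfl
    have h4 := (h3.pow (n + 1)).div_const ((n : ℂ) + 1)
    have h6 : Φ = fun x => ((fun θ : ℝ => G (exp (θ * I))) ^ (n + 1)) x / ((n : ℂ) + 1) := by
      funext x; simp [Φ]
    have h7 : Φ' θ = (((n + 1 : ℕ) : ℂ) * G (exp (θ * I)) ^ (n + 1 - 1) *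
        (deriv G (exp (θ * I)) * (exp (θ * I) * I)) / ((n : ℂ) + 1)) := by
      simp only [Φ', Nat.add_sub_cancel]
      push_cast
      field_simp
    rw [h6, h7]
    exact h4
  have hint : IntervalIntegrable Φ' volume 0 (2 * π) := by
    have : Continuous Φ' := by
      simp only [Φ']
      exact (hcircle.mul continuous_const).mul (hDc.mul (hGc.pow n))
    exact this.intervalIntegrable _ _
  have h5 := intervalIntegral.integral_eq_sub_of_hasDerivAt hder hint
  have h6 : Φ (2 * π) = Φ 0 := by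
    simp only [Φ]
    have : exp (((2 * π : ℝ) : ℂ) * I) = exp (((0 : ℝ) : ℂ) * I) := by
      push_cast; rw [Complex.exp_two_pi_mul_I]; simp
    rw [this]
  rw [h6, sub_self] at h5
  unfold mean
  have h7 : ∫ θ in (0 : ℝ)..(2 * π), exp (θ * I) * deriv G (exp (θ * I)) * G (exp (θ * I)) ^ n =
      I⁻¹ * ∫ θ in (0 : ℝ)..(2 * π), Φ' θ := by
    rw [← intervalIntegral.integral_const_mul]
    apply intervalIntegral.integral_congr
    intro θ _
    simp only [Φ']
    field_simp
  rw [h7, h5]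
  simp

/-- **Cauchy formula** on monomials. -/
lemma mean_pow_G_lk (h : ExtMap G r c e) (hs : ∀ t, 1 ≤ ‖t‖ → G t ∉ spectrum ℂ A) (b : E) (n : ℕ) :
    ∀ a : E, mean (fun t => G t ^ n * lk G A a b t) = ⟪b, (A ^ n) a⟫ := by
  obtain ⟨r', hr'1, hr'2, hr'3⟩ := exists_radius h hs
  have hr'0 : 0 < r' := lt_trans h.r_pos hr'1
  have hat : ∀ a b : E, AtInf (lk G A a b) r' ⟪b, a⟫ := fun a b => lk_atInf h hr'1.le hr'3 a b
  have hcirc : ∀ θ : ℝ, r' < ‖exp (θ * I)‖ := by
    intro θ; simpa [norm_exp_ofReal_mul_I] using hr'2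
  have hcircle : Continuous fun θ : ℝ => exp (θ * I) := by fun_prop
  have hGc : Continuous fun θ : ℝ => G (exp (θ * I)) :=
    continuous_iff_continuousAt.2 fun θ =>
      ContinuousAt.comp (f := fun θ : ℝ => exp (θ * I))
        (differentiableAt_G h (lt_trans hr'1 (hcirc θ))).continuousAt hcircle.continuousAt
  have hDc : Continuous fun θ : ℝ => deriv G (exp (θ * I)) :=
    continuous_iff_continuousAt.2 fun θ =>
      ContinuousAt.comp (f := fun θ : ℝ => exp (θ * I))
        (((differentiableOn_deriv_G h) _ (lt_trans hr'1 (hcirc θ))).differentiableAt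
          ((ExtMap.isOpen_ext r).mem_nhds (lt_trans hr'1 (hcirc θ)))).continuousAt
          hcircle.continuousAt
  induction n with
  | zero =>
    intro a
    simp only [pow_zero, one_mul, ContinuousLinearMap.one_apply]
    exact (hat a b).mean_eq hr'0 hr'2
  | succ n ih =>
    intro a
    have hstep : ∀ t : ℂ, ‖t‖ = 1 → G t ^ (n + 1) * lk G A a b t =
        t * deriv G t * G t ^ n * ⟪b, a⟫ + G t ^ n * lk G A (A a) b t := by
      intro t ht
      have hsp : G t ∉ spectrum ℂ A := hs t ht.ge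
      have h1 := mul_resolvent A hsp a
      have h2 : G t * ⟪b, resolvent A (G t) a⟫ = ⟪b, a⟫ + ⟪b, resolvent A (G t) (A a)⟫ := by
        have := congrArg (fun v => ⟪b, v⟫) h1
        simpa [inner_smul_right, inner_add_right] using this
      rw [lk_def, lk_def]
      calc G t ^ (n + 1) * (t * deriv G t * ⟪b, resolvent A (G t) a⟫)
          = t * deriv G t * G t ^ n * (G t * ⟪b, resolvent A (G t) a⟫) := by ring
        _ = _ := by rw [h2]; ring
    rw [mean_congr hstep]
    have hc1 : Continuous fun θ : ℝ =>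
        exp (θ * I) * deriv G (exp (θ * I)) * G (exp (θ * I)) ^ n * ⟪b, a⟫ :=
      ((hcircle.mul hDc).mul (hGc.pow n)).mul continuous_const
    have hc2 : Continuous fun θ : ℝ => G (exp (θ * I)) ^ n * lk G A (A a) b (exp (θ * I)) :=
      (hGc.pow n).mul ((hat (A a) b).continuous_circle hr'2)
    rw [mean_add hc1 hc2, ih (A a)]
    have h3 : mean (fun t => t * deriv G t * G t ^ n * ⟪b, a⟫) = 0 := by
      have : (fun t => t * deriv G t * G t ^ n * ⟪b, a⟫) =
          fun t => ⟪b, a⟫ * (t * deriv G t * G t ^ n) := by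
        funext t; ring
      rw [this, mean_const_mul, mean_tDG_pow h, mul_zero]
    rw [h3, zero_add, pow_succ]
    simp

/-- Continuity of the matrix elements along the unit circle. -/
lemma continuous_lk (h : ExtMap G r c e) (hs : ∀ t, 1 ≤ ‖t‖ → G t ∉ spectrum ℂ A) (a b : E) :
    Continuous fun θ : ℝ => lk G A a b (exp (θ * I)) := by
  obtain ⟨r', hr'1, hr'2, hr'3⟩ := exists_radius h hs
  exact (lk_atInf h hr'1.le hr'3 a b).continuous_circle hr'2

lemma continuous_G_circle (h : ExtMap G r c e) : Continuous fun θ : ℝ => G (exp (θ * I)) := by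
  have hcircle : Continuous fun θ : ℝ => exp (θ * I) := by fun_prop
  exact continuous_iff_continuousAt.2 fun θ =>
    ContinuousAt.comp (f := fun θ : ℝ => exp (θ * I))
      (differentiableAt_G h (by simpa [norm_exp_ofReal_mul_I] using h.r_lt)).continuousAt
      hcircle.continuousAt

/-- (R1) **Cauchy formula**: `q(A) = mean (q ∘ G • L)` in matrix-element form. -/
theorem mean_poly_lk (h : ExtMap G r c e) (hs : ∀ t, 1 ≤ ‖t‖ → G t ∉ spectrum ℂ A)
    (q : Polynomial ℂ) (a b : E) :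
    mean (fun t => q.eval (G t) * lk G A a b t) = ⟪b, Polynomial.aeval A q a⟫ := by
  have hcont : ∀ q : Polynomial ℂ,
      Continuous fun θ : ℝ => q.eval (G (exp (θ * I))) * lk G A a b (exp (θ * I)) := fun q =>
    (q.continuous.comp (continuous_G_circle h)).mul (continuous_lk h hs a b)
  induction q using Polynomial.induction_on' with
  | add p q hp hq =>
    have : (fun t => (p + q).eval (G t) * lk G A a b t) =
        fun t => p.eval (G t) * lk G A a b t + q.eval (G t) * lk G A a b t := by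
      funext t; rw [Polynomial.eval_add, add_mul]
    rw [this, mean_add (hcont p) (hcont q), hp, hq, map_add, ContinuousLinearMap.add_apply,
      inner_add_right]
  | monomial n z =>
    have : (fun t => (Polynomial.monomial n z).eval (G t) * lk G A a b t) =
        fun t => z * (G t ^ n * lk G A a b t) := by
      funext t; rw [Polynomial.eval_monomial]; ring
    rw [this, mean_const_mul, mean_pow_G_lk h hs b n a, Polynomial.aeval_monomial]
    simp [Algebra.algebraMap_eq_smul_one]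

/-- A tail of helper86's kernel file is analytic at infinity with limit `0`. -/
lemma IsTail.atInf {n : ℂ → ℂ} {r : ℝ} (hr0 : 0 < r) (hn : IsTail r n) : AtInf n r 0 := by
  obtain ⟨g, hg, hg0, hgn⟩ := hn
  have hgi : ∀ t : ℂ, r < ‖t‖ → ‖t⁻¹‖ < r⁻¹ := by
    intro t ht
    rw [norm_inv]
    exact (inv_lt_inv₀ (lt_trans hr0 ht) hr0).2 ht
  constructor
  · intro t ht
    have hU : IsOpen {t : ℂ | r < ‖t‖} := isOpen_lt continuous_const continuous_norm
    have ht0 : t ≠ 0 := by
      intro h0; simp only [mem_setOf_eq, h0, norm_zero] at ht; linarith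
    have h1 : DifferentiableAt ℂ g t⁻¹ :=
      (hg _ (by simpa using hgi t ht)).differentiableAt
        (isOpen_ball.mem_nhds (by simpa using hgi t ht))
    have h2 : DifferentiableAt ℂ (fun s : ℂ => g s⁻¹) t :=
      DifferentiableAt.comp (f := fun u : ℂ => u⁻¹) t h1 (differentiableAt_inv ht0)
    refine (h2.congr_of_eventuallyEq ?_).differentiableWithinAt
    filter_upwards [hU.mem_nhds ht] with s hs using hgn s hs
  · have hb0 : (0 : ℂ) ∈ ball (0 : ℂ) r⁻¹ := by simp [hr0]
    have hc0 : ContinuousAt g 0 :=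
      (hg 0 hb0).continuousWithinAt.continuousAt (isOpen_ball.mem_nhds hb0)
    have h1 : Tendsto (fun t : ℂ => g t⁻¹) (Bornology.cobounded ℂ) (𝓝 (g 0)) :=
      hc0.tendsto.comp tendsto_inv₀_cobounded
    rw [hg0] at h1
    refine h1.congr' ?_
    have h2 : ∀ᶠ t : ℂ in Bornology.cobounded ℂ, r + 1 < ‖t‖ :=
      tendsto_norm_cobounded_atTop.eventually (eventually_gt_atTop (r + 1))
    filter_upwards [h2] with t ht
    exact (hgn t (by linarith)).symm

/-- (R1') Fourier coefficients of the kernel are the Faber polynomials of `A`. -/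
theorem mean_pow_lk (h : ExtMap G r c e) (hs : ∀ t, 1 ≤ ‖t‖ → G t ∉ spectrum ℂ A) (j : ℕ)
    (a b : E) :
    mean (fun t => t ^ j * lk G A a b t) = ⟪b, Polynomial.aeval A (faber h j) a⟫ := by
  obtain ⟨r', hr'1, hr'2, hr'3⟩ := exists_radius h hs
  have hr'0 : 0 < r' := lt_trans h.r_pos hr'1
  have hl := lk_atInf h hr'1.le hr'3 a b
  have ht := ((IsTail.atInf h.r_pos (faberTail_isTail h j)).mono hr'1.le).mul hl
  have h1 : mean (fun t => faberTail h j t * lk G A a b t) = 0 := by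
    have := ht.mean_eq hr'0 hr'2
    rwa [zero_mul] at this
  have hpt : ∀ t : ℂ, ‖t‖ = 1 → t ^ j * lk G A a b t =
      (faber h j).eval (G t) * lk G A a b t - faberTail h j t * lk G A a b t := by
    intro t ht1
    rw [faber_eval h j t (by rw [ht1]; exact h.r_lt)]
    ring
  rw [mean_congr hpt, mean_sub, h1, sub_zero, mean_poly_lk h hs]
  · exact ((faber h j).continuous.comp (continuous_G_circle h)).mul (continuous_lk h hs a b)
  · exact ht.continuous_circle hr'2

/-- (R2) Positivity of the real part of the kernel on the circle, from the tangent inequality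
with respect to the numerical range. -/
theorem lk_self_re_nonneg
    (hs : ∀ t, 1 ≤ ‖t‖ → G t ∉ spectrum ℂ A)
    (hpos : ∀ t : ℂ, ‖t‖ = 1 → ∀ y : E, ‖y‖ = 1 →
      0 ≤ (t * deriv G t / (G t - ⟪y, A y⟫)).re)
    {t : ℂ} (ht : ‖t‖ = 1) (a : E) : 0 ≤ (lk G A a a t).re := by
  set z := G t with hz
  set y := resolvent A z a with hy
  have hsp : z ∉ spectrum ℂ A := hs t ht.ge
  have hay : z • y - A y = a := sub_resolvent_apply A hsp a
  rw [lk_def]
  by_cases hy0 : y = 0
  · simp [← hz, ← hy, hy0]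
  have hny : 0 < ‖y‖ := norm_pos_iff.2 hy0
  have hnyc : (‖y‖ : ℂ) ≠ 0 := by exact_mod_cast hny.ne'
  -- the unit vector
  set y' : E := ((‖y‖ : ℂ)⁻¹) • y with hy'
  have hy'n : ‖y'‖ = 1 := by
    rw [hy', norm_smul]
    simp [hny.ne']
  set w : ℂ := ⟪y', A y'⟫ with hw
  have hww : ⟪y, A y⟫ = (‖y‖ : ℂ) ^ 2 * w := by
    rw [hw, hy', map_smul, inner_smul_left, inner_smul_right]
    simp only [map_inv₀, Complex.conj_ofReal]
    field_simp
  have hin : ⟪a, y⟫ = (‖y‖ : ℂ) ^ 2 * conj (z - w) := by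
    rw [← hay, inner_sub_left, inner_smul_left, inner_self_eq_norm_sq_to_K]
    have h1 : ⟪A y, y⟫ = conj ⟪y, A y⟫ := (inner_conj_symm _ _).symm
    rw [h1, hww]
    simp only [map_mul, map_pow, Complex.conj_ofReal, map_sub]
    simp only [Complex.coe_algebraMap]
    ring
  rw [hin]
  have hp := hpos t ht y' hy'n
  rw [← hw, ← hz] at hp
  -- reduce to the sign of `re (x * conj u)`
  set x := t * deriv G t with hx
  set u := z - w with hu
  have hkey : 0 ≤ (x * conj u).re := by
    by_cases hu0 : u = 0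
    · simp [hu0]
    · have h1 : x / u = x * conj u / ((Complex.normSq u : ℝ) : ℂ) := by
        have hcu : conj u ≠ 0 := (map_ne_zero _).2 hu0
        rw [Complex.normSq_eq_conj_mul_self]
        field_simp
      rw [h1, Complex.div_ofReal_re] at hp
      have hn : 0 < Complex.normSq u := Complex.normSq_pos.2 hu0
      have h3 := mul_nonneg hp hn.le
      rwa [div_mul_cancel₀ _ hn.ne'] at h3
  have h2 : x * ((‖y‖ : ℂ) ^ 2 * conj u) = ((‖y‖ ^ 2 : ℝ) : ℂ) * (x * conj u) := by
    push_cast; ring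
  rw [h2, Complex.re_ofReal_mul]
  positivity

/-- (R3) Orthogonality: means of products. -/
theorem mean_lk_mul_lk (h : ExtMap G r c e) (hs : ∀ t, 1 ≤ ‖t‖ → G t ∉ spectrum ℂ A)
    (a b a' b' : E) :
    mean (fun t => lk G A a b t * lk G A a' b' t) = ⟪b, a⟫ * ⟪b', a'⟫ := by
  obtain ⟨r', hr'1, hr'2, hr'3⟩ := exists_radius h hs
  exact ((lk_atInf h hr'1.le hr'3 a b).mul (lk_atInf h hr'1.le hr'3 a' b')).mean_eq
    (lt_trans h.r_pos hr'1) hr'2

/-- (R3') Negative frequencies of the conjugate-free function `t⁻¹ ^ (n+1) * L` vanish. -/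
theorem mean_inv_pow_lk (h : ExtMap G r c e) (hs : ∀ t, 1 ≤ ‖t‖ → G t ∉ spectrum ℂ A) (n : ℕ)
    (a b : E) : mean (fun t => t⁻¹ ^ (n + 1) * lk G A a b t) = 0 := by
  obtain ⟨r', hr'1, hr'2, hr'3⟩ := exists_radius h hs
  obtain ⟨c', -, -, -, -, hneg, -⟩ :=
    (lk_atInf h hr'1.le hr'3 a b).exists_coeff (lt_trans h.r_pos hr'1) hr'2
  exact hneg n

/-- (R4) **Parseval** for the matrix elements of the kernel. -/
theorem hasSum_normSq_lk (h : ExtMap G r c e) (hs : ∀ t, 1 ≤ ‖t‖ → G t ∉ spectrum ℂ A)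
    (a b : E) :
    HasSum (fun j : ℕ => ((‖⟪b, Polynomial.aeval A (faber h j) a⟫‖ ^ 2 : ℝ) : ℂ))
      (mean (fun t => lk G A a b t * conj (lk G A a b t))) := by
  obtain ⟨r', hr'1, hr'2, hr'3⟩ := exists_radius h hs
  obtain ⟨c', -, -, -, hco, -, hp⟩ :=
    (lk_atInf h hr'1.le hr'3 a b).exists_coeff (lt_trans h.r_pos hr'1) hr'2
  refine hp.congr_fun ?_
  intro j
  rw [← hco j, mean_pow_lk h hs]

end Main

end Crest.Agent.Lib.Crouzeix.Res
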