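/- Row 132 (S0179), module MAIN (helper91): the matrix-valued chain of finding 679: singular vectors and
the instantiation with the kernel `L t = t G'(t) (G t - A)⁻¹`. -/
import Crest.Agent.Lib.Crouzeix.Chain
import Crest.Agent.Lib.Crouzeix.Res

set_option autoImplicit false

namespace Crest.Agent.Lib.Crouzeix

open Complex Metric Set Filter Topology MeasureTheory Real Polynomial Matrix
open scoped ComplexConjugate

local notation "S¹" => sphere (0 : ℂ) 1
local notation "⟪" x ", " y "⟫" => (inner ℂ x y : ℂ)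

/-- Singular vectors of an operator on a nontrivial finite-dimensional space. -/
theorem exists_singular {V : Type*} [NormedAddCommGroup V] [InnerProductSpace ℂ V]
    [FiniteDimensional ℂ V] [Nontrivial V] (T : V →L[ℂ] V) :
    ∃ x : V, ‖x‖ = 1 ∧ ‖T x‖ = ‖T‖ ∧ ∀ w, ⟪T x, T w⟫ = ((‖T‖ ^ 2 : ℝ) : ℂ) * ⟪x, w⟫ := by
  have : CompleteSpace V := FiniteDimensional.complete ℂ V
  obtain ⟨x, hx, hmax⟩ := (isCompact_sphere (0 : V) 1).exists_isMaxOn
    (NormedSpace.sphere_nonempty.2 zero_le_one) T.continuous.norm.continuousOn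
  have hx1 : ‖x‖ = 1 := by simpa using hx
  have hle : ‖T‖ ≤ ‖T x‖ := by
    refine T.opNorm_le_bound (norm_nonneg _) fun y => ?_
    by_cases hy : y = 0
    · simp [hy]
    have hy0 : ‖y‖ ≠ 0 := norm_ne_zero_iff.2 hy
    have hm : ((‖y‖⁻¹ : ℝ) : ℂ) • y ∈ sphere (0 : V) 1 := by
      simp [norm_smul, hy0]
    have h1 : ‖T (((‖y‖⁻¹ : ℝ) : ℂ) • y)‖ ≤ ‖T x‖ := hmax hm
    rw [map_smul, norm_smul, Complex.norm_real, norm_inv, norm_norm, inv_mul_le_iff₀ (by positivity)] at h1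
    linarith [mul_comm ‖y‖ ‖T x‖]
  have hge : ‖T x‖ ≤ ‖T‖ := by
    have := T.le_opNorm x
    rwa [hx1, mul_one] at this
  have hK : ‖T x‖ = ‖T‖ := le_antisymm hge hle
  refine ⟨x, hx1, hK, ?_⟩
  set K := ‖T‖ with hKdef
  set S := ContinuousLinearMap.adjoint T with hS
  have hSnorm : ‖S‖ = K := LinearIsometryEquiv.norm_map _ _
  have hin : ⟪S (T x), x⟫ = ⟪T x, T x⟫ := ContinuousLinearMap.adjoint_inner_left _ _ _
  have h3 : ‖S (T x)‖ ≤ K * K := by
    have := S.le_opNorm (T x)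
    rwa [hSnorm, hK] at this
  have h4 : ‖S (T x) - ((K ^ 2 : ℝ) : ℂ) • x‖ ^ 2 ≤ 0 := by
    rw [norm_sub_sq (𝕜 := ℂ), inner_smul_right, hin, inner_self_eq_norm_sq_to_K, norm_smul, hx1, hK]
    have hK0 : 0 ≤ K := norm_nonneg _
    have e1 : RCLike.re (((K ^ 2 : ℝ) : ℂ) * ((K : ℝ) : ℂ) ^ 2) = K ^ 4 := by
      have : (((K ^ 2 : ℝ) : ℂ) * ((K : ℝ) : ℂ) ^ 2) = ((K ^ 4 : ℝ) : ℂ) := by push_cast; ring
      rw [this]
      exact Complex.ofReal_re _
    have e2 : ‖((K ^ 2 : ℝ) : ℂ)‖ = K ^ 2 := by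
      rw [Complex.norm_real, Real.norm_of_nonneg (by positivity)]
    have e3 : ‖S (T x)‖ ^ 2 ≤ (K * K) ^ 2 := pow_le_pow_left₀ (norm_nonneg _) h3 2
    simp only [RCLike.ofReal_eq_complex_ofReal] at *
    rw [e1, e2]
    nlinarith
  have h5 : S (T x) = ((K ^ 2 : ℝ) : ℂ) • x := by
    have h6 : ‖S (T x) - ((K ^ 2 : ℝ) : ℂ) • x‖ = 0 := by
      have := sq_nonneg ‖S (T x) - ((K ^ 2 : ℝ) : ℂ) • x‖
      nlinarith [norm_nonneg (S (T x) - ((K ^ 2 : ℝ) : ℂ) • x)]
    exact sub_eq_zero.1 (norm_eq_zero.1 h6)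
  intro w
  rw [← ContinuousLinearMap.adjoint_inner_left, ← hS, h5, inner_smul_left]
  simp

section Wrapper

variable {E : Type*} [NormedAddCommGroup E] [InnerProductSpace ℂ E]
variable {ι : Type*} [Fintype ι]

/-- The operator of `act` on `ℓ²(ι, E)`. -/
noncomputable def actL (A : E →L[ℂ] E) (P : ι → ι → ℂ[X]) :
    PiLp 2 (fun _ : ι => E) →ₗ[ℂ] PiLp 2 (fun _ : ι => E) where
  toFun w := WithLp.toLp 2 (act A P (fun i => w i))
  map_add' a b := by
    ext i
    simp [act, Finset.sum_add_distrib]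
  map_smul' c a := by
    ext i
    simp [act, Finset.smul_sum]

theorem act_bound [DecidableEq ι] [FiniteDimensional ℂ E] {A : E →L[ℂ] E} {G : ℂ → ℂ}
    {L : ℂ → E →L[ℂ] E} {F : ℕ → ℂ[X]} (hD : CoreData A G L F) (P : ι → ι → ℂ[X]) (M : ℝ)
    (hM : ∀ t : ℂ, ‖t‖ = 1 → ‖Matrix.toEuclideanCLM (n := ι) (𝕜 := ℂ) (evalM P (G t))‖ ≤ M)
    (v : PiLp 2 (fun _ : ι => E)) :
    ‖(WithLp.toLp 2 (act A P (fun i => v i)) : PiLp 2 (fun _ : ι => E))‖ ≤ 2 * M * ‖v‖ := by
  have hM0 : 0 ≤ M := (norm_nonneg _).trans (hM 1 (by simp))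
  have hrhs : 0 ≤ 2 * M * ‖v‖ := by positivity
  rcases subsingleton_or_nontrivial (PiLp 2 (fun _ : ι => E)) with hsub | hnt
  · have : (WithLp.toLp 2 (act A P (fun i => v i)) : PiLp 2 (fun _ : ι => E)) = 0 :=
      Subsingleton.elim _ _
    rw [this, norm_zero]
    exact hrhs
  set T : PiLp 2 (fun _ : ι => E) →L[ℂ] PiLp 2 (fun _ : ι => E) :=
    LinearMap.toContinuousLinearMap (actL A P) with hT
  have hTa : ∀ w, T w = WithLp.toLp 2 (act A P (fun i => w i)) := fun w => rfl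
  suffices hTn : ‖T‖ ≤ 2 * M by
    rw [← hTa]
    exact (T.le_opNorm v).trans (mul_le_mul_of_nonneg_right hTn (norm_nonneg _))
  obtain ⟨x, hx1, hxK, hsing⟩ := exists_singular T
  by_cases hK : ‖T‖ = 0
  · rw [hK]
    positivity
  have hKpos : 0 < ‖T‖ := lt_of_le_of_ne (norm_nonneg _) (Ne.symm hK)
  set K := ‖T‖ with hKdef
  have hKc : (K : ℂ) ≠ 0 := by exact_mod_cast hK
  set y : PiLp 2 (fun _ : ι => E) := ((K : ℂ)⁻¹) • T x with hy
  have hy1 : ‖y‖ = 1 := by
    rw [hy, norm_smul, hxK, norm_inv, Complex.norm_real, Real.norm_of_nonneg hKpos.le,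
      inv_mul_cancel₀ hK]
  refine chain_bound hD P M hM0 hM (fun i => x i) (fun i => y i) K hKpos.le ?_ ?_ ?_ ?_
  · intro h
    have : x = 0 := by
      ext i
      exact congrFun h i
    rw [this, norm_zero] at hx1
    exact zero_ne_one hx1
  · intro h
    have : y = 0 := by
      ext i
      exact congrFun h i
    rw [this, norm_zero] at hy1
    exact zero_ne_one hy1
  · intro i
    have h1 : act A P (fun i => x i) i = (T x) i := rfl
    rw [h1, hy]
    have h2 : (((K : ℂ)⁻¹ • T x : PiLp 2 (fun _ : ι => E))) i = (K : ℂ)⁻¹ • (T x) i := rfl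
    rw [h2, smul_smul, mul_inv_cancel₀ hKc, one_smul]
  · intro w
    have hw := hsing (WithLp.toLp 2 w)
    have e1 : ∑ i, ⟪y i, act A P w i⟫ = ⟪y, T (WithLp.toLp 2 w)⟫ := by
      rw [PiLp.inner_apply]
      rfl
    have e2 : ∑ i, ⟪x i, w i⟫ = ⟪x, WithLp.toLp 2 w⟫ := by
      rw [PiLp.inner_apply]
    rw [e1, e2, hy, inner_smul_left, hw]
    simp only [map_inv₀, Complex.conj_ofReal]
    push_cast
    field_simp

end Wrapper

section Instance

variable {E : Type*} [NormedAddCommGroup E] [InnerProductSpace ℂ E] [CompleteSpace E]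
variable {A : E →L[ℂ] E} {G : ℂ → ℂ} {r : ℝ} {c : ℂ} {e : ℂ → ℂ}

theorem coreData_of (h : ExtMap G r c e) (hs : ∀ t, 1 ≤ ‖t‖ → G t ∉ spectrum ℂ A)
    (hpos : ∀ t : ℂ, ‖t‖ = 1 → ∀ y : E, ‖y‖ = 1 →
      0 ≤ (t * deriv G t / (G t - inner ℂ y (A y))).re) :
    CoreData A G (Res.Lop G A) (faber h) := by
  have hS : ∀ t : ℂ, t ∈ S¹ → ‖t‖ = 1 := fun t ht => by simpa using ht
  have contL : ∀ y z : E, ContinuousOn (fun t => ⟪y, Res.Lop G A t z⟫) S¹ := by
    intro y z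
    obtain ⟨r', hr'1, hr'2, hr'3⟩ := Res.exists_radius h hs
    have h1 := (Res.lk_differentiableOn h hr'1.le hr'3 z y).continuousOn
    refine h1.mono fun t ht => ?_
    have : ‖t‖ = 1 := hS t ht
    simp only [Set.mem_ofPred_eq, this]
    exact hr'2
  refine ⟨?_, contL, ?_, ?_, ?_, ?_, ?_⟩
  · refine h.diff.continuousOn.mono fun t ht => ?_
    have : ‖t‖ = 1 := hS t ht
    simp only [Set.mem_ofPred_eq, this]
    exact h.r_lt
  · intro q y z
    have := Res.mean_poly_lk h hs q z y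
    rw [Res.mean_eq_circleAverage] at this
    exact this.symm
  · intro t ht y
    exact Res.lk_self_re_nonneg hs hpos ht y
  · intro a b c' d
    have := Res.mean_lk_mul_lk h hs b a d c'
    rw [Res.mean_eq_circleAverage] at this
    exact this
  · intro a b
    have h0 : ⟪a, Polynomial.aeval A (faber h 0) b⟫ = ⟪a, b⟫ := by
      have h1 := Res.mean_pow_lk h hs 0 b a
      have h2 := Res.mean_poly_lk h hs 1 b a
      simp only [pow_zero, Polynomial.eval_one, map_one] at h1 h2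
      rw [← h1, h2]
      rfl
    have h1 := Res.hasSum_normSq_lk h hs b a
    have h2 : Res.mean (fun t => Res.lk G A b a t * conj (Res.lk G A b a t)) =
        ((circleAverage (fun t => ‖⟪a, Res.Lop G A t b⟫‖ ^ 2) 0 1 : ℝ) : ℂ) := by
      rw [Res.mean_eq_circleAverage]
      have c1 : ContinuousOn (fun t => ‖⟪a, Res.Lop G A t b⟫‖ ^ 2) S¹ := (contL a b).norm.pow 2
      have h3 := Complex.ofRealCLM.circleAverage_comp_comm (ci c1)
      have h4 : (Complex.ofRealCLM ∘ fun t => ‖⟪a, Res.Lop G A t b⟫‖ ^ 2) =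
          fun t => Res.lk G A b a t * conj (Res.lk G A b a t) := by
        funext t
        rw [Complex.mul_conj, Complex.normSq_eq_norm_sq]
        rfl
      rw [h4] at h3
      rw [h3]
      rfl
    rw [h2] at h1
    have h3 : HasSum (fun j : ℕ => ‖⟪a, Polynomial.aeval A (faber h j) b⟫‖ ^ 2)
        (circleAverage (fun t => ‖⟪a, Res.Lop G A t b⟫‖ ^ 2) 0 1) := by
      exact_mod_cast h1
    have h4 := (hasSum_nat_add_iff' 1).2 h3
    simpa [h0] using h4
  · intro a₀ n a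
    have := cmean_normSq_faber_le h a₀ a
    simpa only [Complex.normSq_eq_norm_sq] using this

end Instance

/-- **Main theorem** of finding 679: if `G` is an exterior map with the tangent inequalities, then
the matrix polynomial `P[A]` has norm at most twice the sup of `‖P‖` on the curve `G(S¹)`. -/
theorem crouzeix_core {E : Type*} [NormedAddCommGroup E] [InnerProductSpace ℂ E]
    [FiniteDimensional ℂ E] (A : E →L[ℂ] E) {G : ℂ → ℂ} {r : ℝ} {c : ℂ} {e : ℂ → ℂ}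
    (h : ExtMap G r c e) (hs : ∀ t, 1 ≤ ‖t‖ → G t ∉ spectrum ℂ A)
    (hpos : ∀ t : ℂ, ‖t‖ = 1 → ∀ y : E, ‖y‖ = 1 →
      0 ≤ (t * deriv G t / (G t - inner ℂ y (A y))).re)
    (m d : ℕ) (B : Fin (d + 1) → Matrix (Fin m) (Fin m) ℂ) (M : ℝ)
    (hM : ∀ t : ℂ, ‖t‖ = 1 →
      ‖Matrix.toEuclideanCLM (n := Fin m) (𝕜 := ℂ) (∑ k : Fin (d + 1), (G t) ^ (k : ℕ) • B k)‖ ≤ M)
    (v : PiLp 2 (fun _ : Fin m => E)) :
    ‖(WithLp.toLp 2 (fun i : Fin m => ∑ j : Fin m, ∑ k : Fin (d + 1), B k i j • (A ^ (k : ℕ)) (v j))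
        : PiLp 2 (fun _ : Fin m => E))‖ ≤ 2 * M * ‖v‖ := by
  have : CompleteSpace E := FiniteDimensional.complete ℂ E
  have hD := coreData_of h hs hpos
  let P : Fin m → Fin m → ℂ[X] := fun i j => ∑ k : Fin (d + 1), C (B k i j) * X ^ (k : ℕ)
  have hP : ∀ z, evalM P z = ∑ k : Fin (d + 1), z ^ (k : ℕ) • B k := by
    intro z
    ext i j
    rw [Matrix.sum_apply]
    simp only [evalM, P, Matrix.of_apply, Polynomial.eval_finsetSum, Polynomial.eval_mul,
      Polynomial.eval_C, Polynomial.eval_pow, Polynomial.eval_X, Matrix.smul_apply, smul_eq_mul]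
    exact Finset.sum_congr rfl fun k _ => mul_comm _ _
  have hact : act A P (fun i => v i) = fun i => ∑ j, ∑ k : Fin (d + 1), B k i j • (A ^ (k : ℕ)) (v j) := by
    funext i
    simp [act, P, Polynomial.C_mul', map_sum, _root_.sum_apply, _root_.smul_apply]
  have := act_bound hD P M (fun t ht => by rw [hP]; exact hM t ht) v
  rwa [hact] at this

end Crest.Agent.Lib.Crouzeix
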