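import Mathlib

/-!
Toeplitz–Hausdorff: the numerical range of a bounded operator on a complex inner product space
is convex.
-/

set_option autoImplicit false

open ComplexConjugate

namespace Crest.Agent.Lib.Crouzeix

variable {H : Type*} [NormedAddCommGroup H] [InnerProductSpace ℂ H]

local notation "⟪" x ", " y "⟫" => (inner ℂ x y : ℂ)

/-- The numerical range of a bounded operator. -/
def numRangeOp (A : H →L[ℂ] H) : Set ℂ := {z | ∃ x : H, ‖x‖ = 1 ∧ z = ⟪x, A x⟫}

/-- A phase rotating a complex number to the real axis. -/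
lemma exists_phase (γ : ℂ) : ∃ ω : ℂ, ‖ω‖ = 1 ∧ (ω * γ).im = 0 := by
  by_cases h : γ = 0
  · exact ⟨1, by simp, by simp [h]⟩
  · refine ⟨conj γ / (‖γ‖ : ℂ), ?_, ?_⟩
    · have : (‖γ‖ : ℂ) ≠ 0 := by simpa using h
      simp [norm_div, h]
    · have hne : (‖γ‖ : ℂ) ≠ 0 := by simpa using h
      have h1 : conj γ / (‖γ‖ : ℂ) * γ = ((‖γ‖ : ℝ) : ℂ) := by
        field_simp
        rw [mul_comm, Complex.mul_conj, Complex.normSq_eq_norm_sq]
        push_cast
        ring
      rw [h1, Complex.ofReal_im]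

/-- The core of Toeplitz–Hausdorff. -/
lemma exists_unit_inner_eq (B : H →L[ℂ] H) (x y : H) (hx : ‖x‖ = 1) (hy : ‖y‖ = 1)
    (h0 : ⟪x, B x⟫ = 0) (h1 : ⟪y, B y⟫ = 1) (t : ℝ) (ht : t ∈ Set.Icc (0 : ℝ) 1) :
    ∃ u : H, ‖u‖ = 1 ∧ ⟪u, B u⟫ = (t : ℂ) := by
  obtain ⟨ω, hω, hωim⟩ := exists_phase (⟪y, B x⟫ - conj ⟪x, B y⟫)
  set x' : H := ω • x with hx'
  have hωne : ω ≠ 0 := by
    intro h
    simp [h] at hω
  have hωω : conj ω * ω = 1 := by
    rw [mul_comm, Complex.mul_conj, Complex.normSq_eq_norm_sq, hω]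
    simp
  have hx'norm : ‖x'‖ = 1 := by
    rw [hx', norm_smul, hω, hx, one_mul]
  have h0' : ⟪x', B x'⟫ = 0 := by
    rw [hx', map_smul, inner_smul_left, inner_smul_right, h0]
    simp
  -- the off-diagonal term is real
  set r : ℂ := ⟪x', B y⟫ + ⟪y, B x'⟫ with hr
  have hrim : r.im = 0 := by
    have e1 : ⟪x', B y⟫ = conj ω * ⟪x, B y⟫ := by
      rw [hx', inner_smul_left]
    have e2 : ⟪y, B x'⟫ = ω * ⟪y, B x⟫ := by
      rw [hx', map_smul, inner_smul_right]
    have e3 : (conj ω * ⟪x, B y⟫).im = - (ω * conj ⟪x, B y⟫).im := by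
      rw [← Complex.conj_im (ω * conj ⟪x, B y⟫)]
      simp
    rw [hr, e1, e2, Complex.add_im, e3]
    have : (ω * (⟪y, B x⟫ - conj ⟪x, B y⟫)).im = (ω * ⟪y, B x⟫).im - (ω * conj ⟪x, B y⟫).im := by
      rw [mul_sub, Complex.sub_im]
    rw [this] at hωim
    linarith
  -- the path
  let w : ℝ → H := fun s => ((1 - s : ℝ) : ℂ) • x' + ((s : ℝ) : ℂ) • y
  have hwB : ∀ s : ℝ, ⟪w s, B (w s)⟫ = (((1 - s) * s * r.re + s ^ 2 : ℝ) : ℂ) := by
    intro s
    have hre : r = (r.re : ℂ) := by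
      apply Complex.ext <;> simp [hrim]
    have : ⟪w s, B (w s)⟫ = ((1 - s : ℝ) : ℂ) * ((1 - s : ℝ) : ℂ) * ⟪x', B x'⟫
        + ((1 - s : ℝ) : ℂ) * ((s : ℝ) : ℂ) * (⟪x', B y⟫ + ⟪y, B x'⟫)
        + ((s : ℝ) : ℂ) * ((s : ℝ) : ℂ) * ⟪y, B y⟫ := by
      simp only [w, map_add, map_smul, inner_add_left, inner_add_right, inner_smul_left,
        inner_smul_right, Complex.conj_ofReal]
      ring
    rw [this, h0', h1, ← hr, hre]
    push_cast
    simp only [Complex.ofReal_re]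
    ring
  -- w s is nonzero
  have hindep : ∀ c : ℂ, y ≠ c • x' := by
    intro c hc
    have : ⟪y, B y⟫ = conj c * c * ⟪x', B x'⟫ := by
      rw [hc, map_smul, inner_smul_left, inner_smul_right]
      ring
    rw [h0', h1] at this
    simp at this
  have hw0 : ∀ s ∈ Set.Icc (0 : ℝ) 1, w s ≠ 0 := by
    intro s hs h
    by_cases hs0 : s = 0
    · subst hs0
      have : x' = 0 := by simpa [w] using h
      rw [this] at hx'norm
      simp at hx'norm
    · have hsC : ((s : ℝ) : ℂ) ≠ 0 := by exact_mod_cast hs0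
      apply hindep (-(((1 - s : ℝ) : ℂ) / ((s : ℝ) : ℂ)))
      have h2 : ((s : ℝ) : ℂ) • y = -(((1 - s : ℝ) : ℂ) • x') := by
        have := h
        simp only [w] at this
        exact eq_neg_of_add_eq_zero_right this
      have h3 : y = ((s : ℝ) : ℂ)⁻¹ • (((s : ℝ) : ℂ) • y) := by
        rw [smul_smul, inv_mul_cancel₀ hsC, one_smul]
      rw [h3, h2, smul_neg, smul_smul, neg_smul]
      congr 2
      field_simp
  -- the real function
  let f : ℝ → ℝ := fun s => ((1 - s) * s * r.re + s ^ 2) / ‖w s‖ ^ 2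
  have hwc : Continuous w := by
    apply Continuous.add
    · exact (Complex.continuous_ofReal.comp (continuous_const.sub continuous_id)).smul continuous_const
    · exact (Complex.continuous_ofReal.comp continuous_id).smul continuous_const
  have hfc : ContinuousOn f (Set.Icc 0 1) := by
    apply ContinuousOn.div
    · fun_prop
    · exact (hwc.norm.pow 2).continuousOn
    · intro s hs
      exact pow_ne_zero 2 (norm_ne_zero_iff.mpr (hw0 s hs))
  have hf0 : f 0 = 0 := by simp [f]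
  have hf1 : f 1 = 1 := by
    have : w 1 = y := by simp [w]
    simp [f, this, hy]
  have hsub : Set.Icc (f 0) (f 1) ⊆ f '' Set.Icc 0 1 :=
    intermediate_value_Icc (by norm_num) hfc
  obtain ⟨s, hs, hfs⟩ := hsub (by rw [hf0, hf1]; exact ht)
  have hn : ‖w s‖ ≠ 0 := norm_ne_zero_iff.mpr (hw0 s hs)
  refine ⟨((‖w s‖ : ℂ))⁻¹ • w s, ?_, ?_⟩
  · rw [norm_smul]
    simp [hn]
  · rw [map_smul, inner_smul_left, inner_smul_right, hwB s]
    have hnC : (‖w s‖ : ℂ) ≠ 0 := by exact_mod_cast hn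
    rw [← hfs]
    simp only [f]
    push_cast
    simp only [map_inv₀, Complex.conj_ofReal]
    field_simp

/-- **Toeplitz–Hausdorff**: the numerical range is convex. -/
theorem numRangeOp_convex (A : H →L[ℂ] H) : Convex ℝ (numRangeOp A) := by
  rintro z1 ⟨x, hx, rfl⟩ z2 ⟨y, hy, rfl⟩ a b ha hb hab
  by_cases hz : ⟪x, A x⟫ = ⟪y, A y⟫
  · refine ⟨x, hx, ?_⟩
    rw [← hz]
    have : (a : ℂ) + (b : ℂ) = 1 := by exact_mod_cast hab
    simp only [Complex.real_smul]
    rw [← add_mul, this, one_mul]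
  · set z1 := ⟪x, A x⟫ with hz1
    set z2 := ⟪y, A y⟫ with hz2
    have hd : z2 - z1 ≠ 0 := sub_ne_zero.mpr (Ne.symm hz)
    let B : H →L[ℂ] H := (z2 - z1)⁻¹ • (A - z1 • ContinuousLinearMap.id ℂ H)
    have hB : ∀ u : H, ‖u‖ = 1 → ⟪u, B u⟫ = (z2 - z1)⁻¹ * (⟪u, A u⟫ - z1) := by
      intro u hu
      simp only [B, smul_apply, sub_apply,
        ContinuousLinearMap.id_apply, inner_smul_right, inner_sub_right]
      have : ⟪u, u⟫ = 1 := by
        rw [inner_self_eq_norm_sq_to_K, hu]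
        simp
      rw [this]
      ring
    have h0 : ⟪x, B x⟫ = 0 := by
      rw [hB x hx, ← hz1]
      simp
    have h1 : ⟪y, B y⟫ = 1 := by
      rw [hB y hy, ← hz2]
      field_simp
    have hb1 : b ∈ Set.Icc (0 : ℝ) 1 := ⟨hb, by linarith⟩
    obtain ⟨u, hu, hub⟩ := exists_unit_inner_eq B x y hx hy h0 h1 b hb1
    refine ⟨u, hu, ?_⟩
    rw [hB u hu] at hub
    have h3 : ⟪u, A u⟫ = z1 + (b : ℂ) * (z2 - z1) := by
      have : ⟪u, A u⟫ - z1 = (b : ℂ) * (z2 - z1) := by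
        rw [← hub]
        field_simp
      linear_combination this
    rw [h3]
    have ha' : (a : ℂ) = 1 - (b : ℂ) := by
      have : a = 1 - b := by linarith
      rw [this]
      push_cast
      ring
    simp only [Complex.real_smul]
    rw [ha']
    ring

end Crest.Agent.Lib.Crouzeix
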