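import Crest.Agent.Lib.Crouzeix.Level
import Crest.Agent.Lib.Crouzeix.NumRange
import Crest.Agent.Lib.Crouzeix.FDReduce
import Crest.Agent.Lib.Crouzeix.Main

/-!
# From the core estimate on a level curve to the finite-dimensional Crouzeix inequality
-/

set_option autoImplicit false

open Complex Metric Set Filter Topology

namespace Crest.Agent.Lib.Crouzeix

universe u

/-- The core estimate (statement). -/
def CoreStatement : Prop :=
  ∀ (E : Type u) [NormedAddCommGroup E] [InnerProductSpace ℂ E] [FiniteDimensional ℂ E]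
    (A : E →L[ℂ] E) (G e : ℂ → ℂ) (c : ℂ) (r : ℝ) (_ : ExtMap G r c e)
    (_ : ∀ t : ℂ, 1 ≤ ‖t‖ → G t ∉ numRangeOp A)
    (_ : ∀ (t w : ℂ), ‖t‖ = 1 → w ∈ numRangeOp A →
      0 ≤ (t * deriv G t * (starRingEnd ℂ) (G t - w)).re)
    (m d : ℕ) (B : Fin (d + 1) → Matrix (Fin m) (Fin m) ℂ) (M : ℝ)
    (_ : ∀ t : ℂ, ‖t‖ = 1 →
      ‖Matrix.toEuclideanCLM (n := Fin m) (𝕜 := ℂ) (∑ k : Fin (d + 1), (G t) ^ (k : ℕ) • B k)‖ ≤ M)
    (v : PiLp 2 (fun _ : Fin m => E)),
    ‖(WithLp.toLp 2 (fun i : Fin m => ∑ j : Fin m, ∑ k : Fin (d + 1), B k i j • (A ^ (k : ℕ)) (v j))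
        : PiLp 2 (fun _ : Fin m => E))‖ ≤ 2 * M * ‖v‖

theorem fd_of_core (hcore : CoreStatement.{u}) : FDCrouzeix.{u} := by
  intro E _ _ _ A m d B M hM v
  by_cases hE : Nontrivial E
  swap
  · rw [not_nontrivial_iff_subsingleton] at hE
    have hz : ∀ x : E, ‖x‖ = 0 := fun x => by rw [Subsingleton.elim x 0, norm_zero]
    have h0 : ∀ w : PiLp 2 (fun _ : Fin m => E), ‖w‖ = 0 := by
      intro w
      rw [PiLp.norm_eq_of_L2]
      simp [hz]
    rw [h0, h0]
    simp
  -- the numerical range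
  set W : Set ℂ := numRangeOp A with hW
  have hWconv : Convex ℝ W := numRangeOp_convex A
  have hWcompact : IsCompact W := by
    have : W = (fun x : E => inner ℂ x (A x)) '' sphere (0 : E) 1 := by
      ext z
      constructor
      · rintro ⟨x, hx, rfl⟩
        exact ⟨x, by simpa using hx, rfl⟩
      · rintro ⟨x, hx, rfl⟩
        exact ⟨x, by simpa using hx, rfl⟩
    rw [this]
    refine (isCompact_sphere _ _).image ?_
    fun_prop
  have hWne : W.Nonempty := by
    obtain ⟨x, hx⟩ := exists_norm_eq E (zero_le_one' ℝ)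
    exact ⟨_, x, hx, rfl⟩
  -- the polynomial
  let P : ℂ → (EuclideanSpace ℂ (Fin m) →L[ℂ] EuclideanSpace ℂ (Fin m)) := fun z =>
    Matrix.toEuclideanCLM (n := Fin m) (𝕜 := ℂ) (∑ k : Fin (d + 1), z ^ (k : ℕ) • B k)
  have hPcont : Continuous P := by
    have h1 : Continuous fun z : ℂ => (∑ k : Fin (d + 1), z ^ (k : ℕ) • B k) := by
      refine continuous_finsetSum _ fun k _ => ?_
      exact (continuous_pow _).smul continuous_const
    let L : Matrix (Fin m) (Fin m) ℂ →ₗ[ℂ]
        (EuclideanSpace ℂ (Fin m) →L[ℂ] EuclideanSpace ℂ (Fin m)) :=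
      (Matrix.toEuclideanCLM (n := Fin m) (𝕜 := ℂ)).toAlgEquiv.toLinearMap
    have hL : Continuous L := L.continuous_of_finiteDimensional
    exact hL.comp h1
  have hnv : 0 ≤ ‖v‖ := norm_nonneg v
  have hmain : ∀ δ : ℝ, 0 < δ →
      ‖(WithLp.toLp 2 (fun i : Fin m => ∑ j : Fin m, ∑ k : Fin (d + 1),
        B k i j • (A ^ (k : ℕ)) (v j)) : PiLp 2 (fun _ : Fin m => E))‖ ≤ 2 * (M + δ) * ‖v‖ := by
    intro δ hδ
    let O : Set ℂ := {z | ‖P z‖ < M + δ}
    have hOopen : IsOpen O := isOpen_lt hPcont.norm continuous_const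
    have hWO : W ⊆ O := by
      rintro _ ⟨x, hx, rfl⟩
      have := hM x hx
      show ‖P (inner ℂ x (A x))‖ < M + δ
      exact lt_of_le_of_lt this (by linarith)
    obtain ⟨ε, hε, hthick⟩ := hWcompact.exists_thickening_subset_open hOopen hWO
    have hε2 : 0 < ε / 2 := half_pos hε
    let K : Set ℂ := cthickening (ε / 2) W
    have hKcomp : IsCompact K := hWcompact.cthickening
    have hKconv : Convex ℝ K := hWconv.cthickening _
    have hKint : (interior K).Nonempty := by
      obtain ⟨x0, hx0⟩ := hWne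
      refine ⟨x0, ?_⟩
      have h1 : thickening (ε / 2) W ⊆ interior K :=
        isOpen_thickening.subset_interior_iff.mpr (thickening_subset_cthickening _ _)
      exact h1 (self_subset_thickening hε2 W hx0)
    have hKO : K ⊆ O := by
      refine subset_trans ?_ hthick
      exact cthickening_subset_thickening' hε (half_lt_self hε) W
    have hWK : W ⊆ K := self_subset_cthickening W
    obtain ⟨G, e, c, r, hext, hGU, hH1, hH2⟩ := exists_level_curve hKcomp hKconv hKint hOopen hKO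
    exact hcore E A G e c r hext (fun t ht hmem => hH1 t ht (hWK hmem))
      (fun t w ht hw => hH2 t w ht (hWK hw)) m d B (M + δ)
      (fun t ht => le_of_lt (hGU t ht)) v
  refine le_of_forall_pos_le_add fun δ0 hδ0 => ?_
  by_cases hv0 : ‖v‖ = 0
  · have := hmain 1 one_pos
    rw [hv0, mul_zero] at this
    rw [hv0, mul_zero]
    linarith
  · have hvpos : 0 < ‖v‖ := lt_of_le_of_ne hnv (Ne.symm hv0)
    have := hmain (δ0 / (2 * ‖v‖)) (by positivity)
    have h2 : 2 * (M + δ0 / (2 * ‖v‖)) * ‖v‖ = 2 * M * ‖v‖ + δ0 := by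
      field_simp
    rw [h2] at this
    exact this

/-- The spectrum lies in the numerical range (finite dimension). -/
theorem spectrum_subset_numRangeOp {E : Type*} [NormedAddCommGroup E] [InnerProductSpace ℂ E]
    [FiniteDimensional ℂ E] (A : E →L[ℂ] E) : spectrum ℂ A ⊆ numRangeOp A := by
  intro z hz
  have : CompleteSpace E := FiniteDimensional.complete ℂ E
  rw [spectrum.mem_iff, ContinuousLinearMap.isUnit_iff_bijective] at hz
  have hinj : ¬ Function.Injective (algebraMap ℂ (E →L[ℂ] E) z - A) := by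
    intro hi
    apply hz
    refine ⟨hi, ?_⟩
    have := (LinearMap.injective_iff_surjective
      (f := ((algebraMap ℂ (E →L[ℂ] E) z - A : E →L[ℂ] E) : E →ₗ[ℂ] E))).mp hi
    exact this
  rw [injective_iff_map_eq_zero] at hinj
  push Not at hinj
  obtain ⟨x, hx0, hxne⟩ := hinj
  have hxn : (‖x‖ : ℂ) ≠ 0 := by simpa using hxne
  have hAx : A x = z • x := by
    have h1 : z • x - A x = 0 := by simpa [Algebra.algebraMap_eq_smul_one] using hx0
    exact (sub_eq_zero.mp h1).symm
  refine ⟨(‖x‖ : ℂ)⁻¹ • x, ?_, ?_⟩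
  · rw [norm_smul, norm_inv, Complex.norm_real, norm_norm]
    exact inv_mul_cancel₀ (by simpa using hxne)
  · rw [map_smul, hAx, inner_smul_left, inner_smul_right, inner_smul_right,
      inner_self_eq_norm_sq_to_K]
    simp only [map_inv₀, Complex.conj_ofReal]
    push_cast
    field_simp
    rfl

/-- The core statement, from `crouzeix_core`. -/
theorem coreStatement : CoreStatement.{u} := by
  intro E _ _ _ A G e c r hext hH1 hH2 m d B M hM v
  refine crouzeix_core A hext (fun t ht hmem => hH1 t ht (spectrum_subset_numRangeOp A hmem)) ?_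
    m d B M hM v
  intro t ht y hy
  have h1 := hH2 t (inner ℂ y (A y)) ht ⟨y, hy, rfl⟩
  set n := t * deriv G t
  set w := G t - inner ℂ y (A y)
  have h3 : n / w = ((Complex.normSq w)⁻¹ : ℝ) * (n * (starRingEnd ℂ) w) := by
    rw [div_eq_mul_inv, Complex.inv_def]
    push_cast
    ring
  rw [h3, Complex.re_ofReal_mul]
  exact mul_nonneg (inv_nonneg.mpr (Complex.normSq_nonneg _)) h1

/-- **Crouzeix's inequality**, matrix valued, general Hilbert space. -/
theorem crouzeix_general {H : Type u} [NormedAddCommGroup H] [InnerProductSpace ℂ H] [CompleteSpace H]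
    (A : H →L[ℂ] H) (m d : ℕ) (B : Fin (d + 1) → Matrix (Fin m) (Fin m) ℂ) (M : ℝ)
    (hM : ∀ x : H, ‖x‖ = 1 →
      ‖Matrix.toEuclideanCLM (n := Fin m) (𝕜 := ℂ)
          (∑ k : Fin (d + 1), (inner ℂ x (A x)) ^ (k : ℕ) • B k)‖ ≤ M)
    (v : PiLp 2 (fun _ : Fin m => H)) :
    ‖(WithLp.toLp 2 (fun i : Fin m => ∑ j : Fin m, ∑ k : Fin (d + 1), B k i j • (A ^ (k : ℕ)) (v j))
        : PiLp 2 (fun _ : Fin m => H))‖ ≤ 2 * M * ‖v‖ :=
  general_of_fd (fd_of_core coreStatement) A m d B M hM v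

end Crest.Agent.Lib.Crouzeix
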