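import Mathlib

/-!
# An injective holomorphic function has nonvanishing derivative (helper95)
-/

set_option autoImplicit false

open Complex Metric Set Filter Topology

namespace Crest.Agent.Lib.Crouzeix

/-- An injective holomorphic function on an open set has nonvanishing derivative. -/
theorem deriv_ne_zero_of_injOn {U : Set ℂ} (hU : IsOpen U) {f : ℂ → ℂ}
    (hf : DifferentiableOn ℂ f U) (hinj : InjOn f U) {a : ℂ} (ha : a ∈ U) : deriv f a ≠ 0 := by
  intro h0
  have hAna : AnalyticOnNhd ℂ f U := hf.analyticOnNhd hU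
  have haA : AnalyticAt ℂ f a := hAna a ha
  -- the derivative is analytic at `a`, zeros isolated
  have hdA : AnalyticAt ℂ (deriv f) a := haA.deriv
  -- `f` is not locally constant, so the derivative does not vanish identically near `a`
  have hne : ∀ᶠ z in 𝓝[≠] a, deriv f z ≠ 0 := by
    rcases hdA.eventually_eq_zero_or_eventually_ne_zero with h | h
    · exfalso
      -- f is constant near a
      have hconst : ∀ᶠ z in 𝓝 a, f z = f a := by
        obtain ⟨ε, hε, hball⟩ := Metric.eventually_nhds_iff_ball.1 (h.and (hU.mem_nhds ha))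
        have hsub : ball a ε ⊆ U := fun z hz => (hball z hz).2
        have hd : DifferentiableOn ℂ f (ball a ε) := hf.mono hsub
        have : ∀ z ∈ ball a ε, f z = f a := by
          intro z hz
          have hconv : Convex ℝ (ball a ε) := convex_ball a ε
          refine hconv.is_const_of_fderivWithin_eq_zero (𝕜 := ℂ) hd ?_ hz (mem_ball_self hε)
          intro x hx
          have hx' : DifferentiableAt ℂ f x := hf.differentiableAt (hU.mem_nhds (hsub hx))
          rw [fderivWithin_eq_fderiv (isOpen_ball.uniqueDiffWithinAt hx) hx']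
          ext
          simp [(hball x hx).1]
        exact Metric.eventually_nhds_iff_ball.2 ⟨ε, hε, this⟩
      have hpun : ∀ᶠ z in 𝓝[≠] a, f z = f a ∧ z ∈ U ∧ z ≠ a :=
        ((hconst.and (hU.mem_nhds ha)).filter_mono nhdsWithin_le_nhds).and
          (eventually_mem_nhdsWithin)
          |>.mono (fun z hz => ⟨hz.1.1, hz.1.2, hz.2⟩)
      obtain ⟨z, hz1, hz2, hz3⟩ := hpun.exists
      exact hz3 (hinj hz2 ha hz1)
    · exact h
  -- choose a small ball on which the derivative vanishes only at a
  have hcombo : ∀ᶠ z in 𝓝[≠] a, deriv f z ≠ 0 ∧ z ∈ U :=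
    hne.and (nhdsWithin_le_nhds (hU.mem_nhds ha))
  obtain ⟨ε, hε, hball⟩ : ∃ ε > 0, ball a ε ⊆ U ∧ ∀ z ∈ ball a ε, z ≠ a → deriv f z ≠ 0 := by
    rw [eventually_nhdsWithin_iff] at hcombo
    obtain ⟨ε, hε, h⟩ := Metric.eventually_nhds_iff_ball.1 (hcombo.and (hU.mem_nhds ha))
    refine ⟨ε, hε, fun z hz => (h z hz).2, fun z hz hza => ((h z hz).1 hza).1⟩
  obtain ⟨hsub, hder⟩ := hball
  set V := ball a ε with hV
  have hVo : IsOpen V := isOpen_ball
  have hAV : AnalyticOnNhd ℂ f V := hAna.mono hsub
  have hopen : ∀ s ⊆ V, IsOpen s → IsOpen (f '' s) := by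
    rcases hAV.is_constant_or_isOpen (convex_ball a ε).isPreconnected with ⟨w, hw⟩ | h
    · exfalso
      -- two distinct points with the same value
      have h1 : a ∈ V := mem_ball_self hε
      have h2 : a + ((ε / 2 : ℝ) : ℂ) ∈ V := by
        simp only [hV, mem_ball, dist_eq_norm]
        simp only [add_sub_cancel_left, Complex.norm_real, Real.norm_eq_abs]
        rw [abs_of_pos (by positivity)]
        linarith
      have := hinj (hsub h1) (hsub h2) ((hw _ h1).trans (hw _ h2).symm)
      have h3 : ((ε / 2 : ℝ) : ℂ) = 0 := by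
        have := congrArg (fun z => z - a) this
        simpa using this.symm
      have : ε / 2 = 0 := by exact_mod_cast h3
      linarith
    · exact h
  -- the local inverse
  set y : ℂ → ℂ := Function.invFunOn f V with hy
  have hyL : ∀ z ∈ V, y (f z) = z := fun z hz =>
    (hinj.mono hsub).leftInvOn_invFunOn hz
  have hyR : ∀ b ∈ f '' V, y b ∈ V ∧ f (y b) = b := fun b hb =>
    ⟨Function.invFunOn_mem hb, Function.invFunOn_eq hb⟩
  have hWo : IsOpen (f '' V) := hopen V subset_rfl hVo
  have hbW : f a ∈ f '' V := ⟨a, mem_ball_self hε, rfl⟩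
  -- continuity of `y` on the open image
  have hyc : ∀ b ∈ f '' V, ContinuousAt y b := by
    intro b hb
    obtain ⟨hyV, hyb⟩ := hyR b hb
    rw [Metric.continuousAt_iff]
    intro δ hδ
    have hN : IsOpen (ball (y b) δ ∩ V) := isOpen_ball.inter hVo
    have himg : IsOpen (f '' (ball (y b) δ ∩ V)) := hopen _ inter_subset_right hN
    have hmem : b ∈ f '' (ball (y b) δ ∩ V) := ⟨y b, ⟨mem_ball_self hδ, hyV⟩, hyb⟩
    obtain ⟨η, hη, hηb⟩ := Metric.isOpen_iff.1 himg b hmem
    refine ⟨η, hη, fun x hx => ?_⟩
    obtain ⟨z, ⟨hz1, hz2⟩, hz3⟩ := hηb hx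
    rw [← hz3, hyL z hz2]
    exact hz1
  -- `y` is differentiable at points other than `f a`
  have hyd : ∀ b ∈ f '' V, b ≠ f a → DifferentiableAt ℂ y b := by
    intro b hb hba
    obtain ⟨hyV, hyb⟩ := hyR b hb
    have hne' : y b ≠ a := by
      intro hya
      apply hba
      rw [← hyb, hya]
    have hfd : HasDerivAt f (deriv f (y b)) (y b) :=
      (hf.differentiableAt (hU.mem_nhds (hsub hyV))).hasDerivAt
    have hlocal : ∀ᶠ w in 𝓝 b, f (y w) = w := by
      filter_upwards [hWo.mem_nhds hb] with w hw
      exact (hyR w hw).2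
    exact (HasDerivAt.of_local_left_inverse (hyc b hb) (by simpa [hyb] using hfd)
      (hder _ hyV hne') hlocal).differentiableAt
  have hyA : AnalyticAt ℂ y (f a) := by
    apply Complex.analyticAt_of_differentiable_on_punctured_nhds_of_continuousAt
    · filter_upwards [nhdsWithin_le_nhds (hWo.mem_nhds hbW), self_mem_nhdsWithin] with b hb hba
      exact hyd b hb hba
    · exact hyc _ hbW
  -- chain rule contradiction
  have hfd : HasDerivAt f (deriv f a) a :=
    (hf.differentiableAt (hU.mem_nhds ha)).hasDerivAt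
  have hcomp : HasDerivAt (y ∘ f) (deriv y (f a) * deriv f a) a :=
    HasDerivAt.comp a hyA.differentiableAt.hasDerivAt hfd
  have hid : HasDerivAt (y ∘ f) 1 a := by
    refine (hasDerivAt_id a).congr_of_eventuallyEq ?_
    filter_upwards [hVo.mem_nhds (mem_ball_self hε)] with z hz
    exact hyL z hz
  have := hcomp.unique hid
  rw [h0, mul_zero] at this
  exact zero_ne_one this

end Crest.Agent.Lib.Crouzeix
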