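import Crest.Agent.Lib.Crouzeix.KernelPos

set_option autoImplicit false

namespace Crest.Agent.Lib.Crouzeix

open Complex Metric Set Filter Topology MeasureTheory Real Polynomial
open scoped ComplexConjugate

section fubini

variable {G : ℂ → ℂ} {r : ℝ} {c : ℂ} {e : ℂ → ℂ}

/-- The measure on the parameter interval. -/
noncomputable abbrev muI : Measure ℝ := volume.restrict (Ioc 0 (2 * π))

theorem norm_circleMap (θ : ℝ) : ‖circleMap 0 1 θ‖ = 1 := by
  simp [circleMap]

theorem measurable_kerN_param (h : ExtMap G r c e) :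
    Measurable fun x : ℝ × ℝ => kerN G (circleMap 0 1 x.1) (circleMap 0 1 x.2) := by
  have hU : ∀ θ, circleMap 0 1 θ ∈ {t : ℂ | r < ‖t‖} := fun θ => by
    show r < ‖circleMap 0 1 θ‖
    rw [norm_circleMap]
    exact h.r_lt
  have hc : Continuous (circleMap 0 1) := continuous_circleMap 0 1
  have ha : Continuous fun θ => G (circleMap 0 1 θ) :=
    h.diff.continuousOn.comp_continuous hc hU
  have hb : Continuous fun θ => deriv G (circleMap 0 1 θ) :=
    (h.diff.deriv ExtMap.isOpen_ext).continuousOn.comp_continuous hc hU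
  have hm : Measurable fun x : ℝ × ℝ =>
      circleMap 0 1 x.2 * deriv G (circleMap 0 1 x.2) /
        (G (circleMap 0 1 x.2) - G (circleMap 0 1 x.1)) :=
    ((hc.measurable.comp measurable_snd).mul (hb.measurable.comp measurable_snd)).div
      ((ha.measurable.comp measurable_snd).sub (ha.measurable.comp measurable_fst))
  unfold kerN
  exact (Complex.measurable_re.comp hm).const_mul 2

/-- The function under the double integral. -/
noncomputable def dbl (G : ℂ → ℂ) (f : ℂ → ℝ) (x : ℝ × ℝ) : ℝ :=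
  f (circleMap 0 1 x.2) * kerN G (circleMap 0 1 x.1) (circleMap 0 1 x.2)

theorem integral_eq_circleAverage (f : ℂ → ℝ) :
    ∫ θ, f (circleMap 0 1 θ) ∂muI = 2 * π * circleAverage f 0 1 := by
  rw [circleAverage_def, smul_eq_mul, ← mul_assoc, mul_inv_cancel₀ two_pi_pos.ne', one_mul,
    intervalIntegral.integral_of_le two_pi_pos.le]

theorem integrableOn_of_circleIntegrable {f : ℂ → ℝ} (hf : CircleIntegrable f 0 1) :
    Integrable (fun θ => f (circleMap 0 1 θ)) muI :=
  (intervalIntegrable_iff_integrableOn_Ioc_of_le two_pi_pos.le).1 hf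

/-- Joint integrability on the torus. -/
theorem integrable_dbl (h : ExtMap G r c e) {f : ℂ → ℝ} (hf : ContinuousOn f (sphere 0 |1|))
    (hf0 : ∀ t, ‖t‖ = 1 → 0 ≤ f t) : Integrable (dbl G f) (muI.prod muI) := by
  have hc : Continuous (circleMap 0 1) := continuous_circleMap 0 1
  have hfθ : Continuous fun θ => f (circleMap 0 1 θ) :=
    hf.comp_continuous hc fun θ => by simp
  have hmeas : Measurable (dbl G f) :=
    (hfθ.measurable.comp measurable_snd).mul (measurable_kerN_param h)
  -- a bound for `f`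
  obtain ⟨C, hC⟩ := (isCompact_sphere (0 : ℂ) |1|).exists_bound_of_continuousOn hf
  rw [integrable_prod_iff hmeas.aestronglyMeasurable]
  refine ⟨?_, ?_⟩
  · refine Eventually.of_forall fun θ₀ => ?_
    exact integrableOn_of_circleIntegrable (f := fun t => f t * kerN G (circleMap 0 1 θ₀) t)
      (circleIntegrable_mul_kerN h hf (norm_circleMap θ₀))
  · refine Integrable.of_bound
      (hmeas.aestronglyMeasurable.norm.integral_prod_right') (2 * π * |C|) ?_
    refine Eventually.of_forall fun θ₀ => ?_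
    have h0 : ∀ θ, ‖dbl G f (θ₀, θ)‖ = f (circleMap 0 1 θ) * kerN G (circleMap 0 1 θ₀) (circleMap 0 1 θ) := by
      intro θ
      simp only [dbl]
      rw [Real.norm_of_nonneg]
      exact mul_nonneg (hf0 _ (norm_circleMap θ)) (kerN_nonneg h (norm_circleMap θ) (norm_circleMap θ₀))
    simp only [h0]
    have h1 := integral_eq_circleAverage (fun t => f t * kerN G (circleMap 0 1 θ₀) t)
    rw [h1]
    have hI1 := circleIntegrable_mul_kerN h hf (norm_circleMap θ₀)
    have hI2 := circleIntegrable_mul_kerN h (f := fun _ => |C|) continuousOn_const (norm_circleMap θ₀)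
    have hle : circleAverage (fun t => f t * kerN G (circleMap 0 1 θ₀) t) 0 1 ≤ |C| := by
      calc circleAverage (fun t => f t * kerN G (circleMap 0 1 θ₀) t) 0 1
          ≤ circleAverage (fun t => |C| * kerN G (circleMap 0 1 θ₀) t) 0 1 := by
            refine circleAverage_mono hI1 hI2 fun t ht => ?_
            have h3 := hC t ht
            rw [Real.norm_eq_abs] at h3
            have h4 : f t ≤ |C| := (le_abs_self _).trans (h3.trans (le_abs_self _))
            exact mul_le_mul_of_nonneg_right h4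
              (kerN_nonneg h (by simpa using ht) (norm_circleMap θ₀))
        _ = |C| := by
            have := circleAverage_fun_smul (a := |C|)
              (f := fun t => kerN G (circleMap 0 1 θ₀) t) (c := 0) (R := 1)
            simp only [smul_eq_mul] at this
            rw [this, av_kerN_t h (norm_circleMap θ₀), mul_one]
    have hnn : 0 ≤ circleAverage (fun t => f t * kerN G (circleMap 0 1 θ₀) t) 0 1 :=
      circleAverage_nonneg_of_nonneg fun t ht =>
        mul_nonneg (hf0 t (by simpa using ht)) (kerN_nonneg h (by simpa using ht) (norm_circleMap θ₀))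
    rw [Real.norm_of_nonneg (mul_nonneg two_pi_pos.le hnn)]
    exact mul_le_mul_of_nonneg_left hle two_pi_pos.le

/-- Fubini: the double mean of `f(t) N(t₀,t)` is the mean of `f`. -/
theorem av_av_kerN (h : ExtMap G r c e) {f : ℂ → ℝ} (hf : ContinuousOn f (sphere 0 |1|))
    (hf0 : ∀ t, ‖t‖ = 1 → 0 ≤ f t) :
    circleAverage (fun t₀ => circleAverage (fun t => f t * kerN G t₀ t) 0 1) 0 1 =
      circleAverage f 0 1 := by
  have hI := integrable_dbl h hf hf0
  have h1 : ∫ θ₀, ∫ θ, dbl G f (θ₀, θ) ∂muI ∂muI = ∫ θ, ∫ θ₀, dbl G f (θ₀, θ) ∂muI ∂muI :=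
    integral_integral_swap (f := fun θ₀ θ => dbl G f (θ₀, θ)) hI
  have h2 : ∀ θ₀, ∫ θ, dbl G f (θ₀, θ) ∂muI =
      2 * π * circleAverage (fun t => f t * kerN G (circleMap 0 1 θ₀) t) 0 1 := fun θ₀ =>
    integral_eq_circleAverage (fun t => f t * kerN G (circleMap 0 1 θ₀) t)
  have h3 : ∀ θ, ∫ θ₀, dbl G f (θ₀, θ) ∂muI = 2 * π * f (circleMap 0 1 θ) := by
    intro θ
    have e1 : ∫ θ₀, dbl G f (θ₀, θ) ∂muI =
        f (circleMap 0 1 θ) * ∫ θ₀, kerN G (circleMap 0 1 θ₀) (circleMap 0 1 θ) ∂muI := by
      simp only [dbl]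
      exact integral_const_mul _ _
    have e2 := integral_eq_circleAverage (fun t₀ => kerN G t₀ (circleMap 0 1 θ))
    rw [av_kerN_t0 h (norm_circleMap θ)] at e2
    rw [e1, e2]
    ring
  have h4 : ∫ θ₀, ∫ θ, dbl G f (θ₀, θ) ∂muI ∂muI =
      2 * π * (2 * π * circleAverage (fun t₀ => circleAverage (fun t => f t * kerN G t₀ t) 0 1) 0 1) := by
    simp only [h2]
    rw [integral_const_mul,
      integral_eq_circleAverage (fun t₀ => circleAverage (fun t => f t * kerN G t₀ t) 0 1)]
  have h5 : ∫ θ, ∫ θ₀, dbl G f (θ₀, θ) ∂muI ∂muI = 2 * π * (2 * π * circleAverage f 0 1) := by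
    simp only [h3]
    rw [integral_const_mul, integral_eq_circleAverage f]
  rw [h4, h5] at h1
  have hpi : (2 * π) ≠ 0 := two_pi_pos.ne'
  exact mul_left_cancel₀ hpi (mul_left_cancel₀ hpi h1)

/-- **`L²` contraction**: `mean |n|² ≤ mean |p|²`. -/
theorem tail_L2_le (h : ExtMap G r c e) (p q : ℂ[X]) (hp0 : p.eval 0 = 0) (a₀ : ℂ) {n : ℂ → ℂ}
    (hn : IsTail r n) (hq : ∀ t, r < ‖t‖ → q.eval (G t) = p.eval t + a₀ + n t) :
    circleAverage (fun t => Complex.normSq (n t)) 0 1 ≤
      circleAverage (fun t => Complex.normSq (p.eval t)) 0 1 := by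
  have hr := h.r_pos
  have hr1 := h.r_lt
  have hcp := contOn_sphere hr hr1 (poly_diff (r := r) p)
  have hc1 : ContinuousOn (fun t => Complex.normSq (p.eval t)) (sphere 0 |1|) :=
    Complex.continuous_normSq.comp_continuousOn hcp
  have hf0 : ∀ t : ℂ, ‖t‖ = 1 → 0 ≤ Complex.normSq (p.eval t) := fun t _ => Complex.normSq_nonneg _
  rw [← av_av_kerN h hc1 hf0]
  obtain ⟨ν, hν, hν0, hnν⟩ := hn
  have hn' : CircleIntegrable (fun t => Complex.normSq (n t)) 0 1 := by
    refine circleIntegrable_congr_off (t₀ := 0) (f₂ := fun t => Complex.normSq (ν t⁻¹))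
      (fun t ht _ => by rw [hnν t (by rw [ht]; exact hr1)]) ?_
    exact ContinuousOn.circleIntegrable'
      (Complex.continuous_normSq.comp_continuousOn (contOn_sphere_inv hr hr1 hν))
  have hA : CircleIntegrable
      (fun t₀ => circleAverage (fun t => Complex.normSq (p.eval t) * kerN G t₀ t) 0 1) 0 1 := by
    have hI := integrable_dbl h hc1 hf0
    have h1 := hI.integral_prod_left
    have h2 : (fun θ₀ => ∫ θ, dbl G (fun t => Complex.normSq (p.eval t)) (θ₀, θ) ∂muI) =
        fun θ₀ => (2 * π) * circleAverage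
          (fun t => Complex.normSq (p.eval t) * kerN G (circleMap 0 1 θ₀) t) 0 1 := by
      funext θ₀
      exact integral_eq_circleAverage (fun t => Complex.normSq (p.eval t) * kerN G (circleMap 0 1 θ₀) t)
    rw [h2] at h1
    have h3 : Integrable (fun θ₀ => circleAverage
        (fun t => Complex.normSq (p.eval t) * kerN G (circleMap 0 1 θ₀) t) 0 1) muI := by
      have := h1.const_mul (2 * π)⁻¹
      refine this.congr (Eventually.of_forall fun θ₀ => ?_)
      simp only
      rw [← mul_assoc, inv_mul_cancel₀ two_pi_pos.ne', one_mul]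
    exact (intervalIntegrable_iff_integrableOn_Ioc_of_le two_pi_pos.le).2 h3
  refine circleAverage_mono hn' hA fun t₀ ht₀ => ?_
  exact normSq_tail_le h p q hp0 a₀ ⟨ν, hν, hν0, hnν⟩ hq (by simpa using ht₀)

end fubini

end Crest.Agent.Lib.Crouzeix
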