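/- Row 132 (S0179-81), module FAB (helper86): the `L²` bound for polynomials in the Faber basis.
Files: KernelBase (ExtMap, Faber polynomials, removal of the pole), KernelMean (key identity),
KernelPos (kernel `kerN ≥ 0`, doubly stochastic, Cauchy-Schwarz), KernelFub (Fubini, `L²` contraction),
Kernel (final bound). -/
import Crest.Agent.Lib.Crouzeix.KernelFub

set_option autoImplicit false

namespace Crest.Agent.Lib.Crouzeix

open Complex Metric Set Filter Topology MeasureTheory Real Polynomial
open scoped ComplexConjugate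

section final

variable {G : ℂ → ℂ} {r : ℝ} {c : ℂ} {e : ℂ → ℂ}

/-- Orthonormality of the monomials. -/
theorem av_monomial_orth (hr : 0 < r) (hr1 : r < 1) (j k : ℕ) :
    circleAverage (fun t : ℂ => t ^ (j + 1) * conj (t ^ (k + 1))) 0 1 = if j = k then 1 else 0 := by
  have hcc : ∀ t : ℂ, t ∈ sphere (0 : ℂ) |1| → t * conj t = 1 := by
    intro t ht
    have h1 : ‖t‖ = 1 := by simpa using ht
    rw [Complex.mul_conj, Complex.normSq_eq_norm_sq, h1]
    simp
  rcases lt_trichotomy j k with hjk | hjk | hjk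
  · obtain ⟨d, rfl⟩ : ∃ d, k = j + d + 1 := ⟨k - j - 1, by omega⟩
    have hne : j ≠ j + d + 1 := by omega
    rw [if_neg hne]
    have h1 : circleAverage (fun t : ℂ => t ^ (j + 1) * conj (t ^ (j + d + 1 + 1))) 0 1 =
        circleAverage (fun t : ℂ => (t⁻¹) ^ (d + 1)) 0 1 := by
      refine circleAverage_congr_sphere fun t ht => ?_
      have h2 := hcc t ht
      have h3 : ‖t‖ = 1 := by simpa using ht
      rw [inv_eq_conj_of_norm h3, map_pow]
      calc t ^ (j + 1) * conj t ^ (j + d + 1 + 1)
          = (t * conj t) ^ (j + 1) * conj t ^ (d + 1) := by ring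
        _ = conj t ^ (d + 1) := by rw [h2]; ring
    rw [h1, circleAverage_inv_eq hr hr1 (g := fun w : ℂ => w ^ (d + 1)) (differentiableOn_id.pow _)]
    simp
  · subst hjk
    rw [if_pos rfl]
    have h1 : circleAverage (fun t : ℂ => t ^ (j + 1) * conj (t ^ (j + 1))) 0 1 =
        circleAverage (fun _ : ℂ => (1 : ℂ)) 0 1 := by
      refine circleAverage_congr_sphere fun t ht => ?_
      have h2 := hcc t ht
      rw [map_pow, ← mul_pow, h2, one_pow]
    rw [h1, circleAverage_const]
  · obtain ⟨d, rfl⟩ : ∃ d, j = k + d + 1 := ⟨j - k - 1, by omega⟩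
    have hne : k + d + 1 ≠ k := by omega
    rw [if_neg hne]
    have h1 : circleAverage (fun t : ℂ => t ^ (k + d + 1 + 1) * conj (t ^ (k + 1))) 0 1 =
        circleAverage (fun t : ℂ => t ^ (d + 1)) 0 1 := by
      refine circleAverage_congr_sphere fun t ht => ?_
      have h2 := hcc t ht
      rw [map_pow]
      calc t ^ (k + d + 1 + 1) * conj t ^ (k + 1)
          = (t * conj t) ^ (k + 1) * t ^ (d + 1) := by ring
        _ = t ^ (d + 1) := by rw [h2]; ring
    rw [h1, circleAverage_eq_center hr hr1 (g := fun w : ℂ => w ^ (d + 1)) (differentiableOn_id.pow _)]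
    simp

/-- Parseval for polynomials. -/
theorem av_normSq_sum (hr : 0 < r) (hr1 : r < 1) {m : ℕ} (a : Fin m → ℂ) :
    circleAverage (fun t : ℂ => Complex.normSq (∑ j, a j * t ^ ((j : ℕ) + 1))) 0 1 =
      ∑ j, Complex.normSq (a j) := by
  set F : ℂ → ℂ := fun t => ∑ j, ∑ k, (a j * conj (a k)) • (t ^ ((j : ℕ) + 1) * conj (t ^ ((k : ℕ) + 1)))
    with hF
  have hmon : ∀ j k : Fin m, CircleIntegrable
      (fun t : ℂ => (a j * conj (a k)) • (t ^ ((j : ℕ) + 1) * conj (t ^ ((k : ℕ) + 1)))) 0 1 := by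
    intro j k
    refine ContinuousOn.circleIntegrable' (Continuous.continuousOn ?_)
    fun_prop
  have hIk : ∀ j : Fin m, CircleIntegrable
      (fun t : ℂ => ∑ k, (a j * conj (a k)) • (t ^ ((j : ℕ) + 1) * conj (t ^ ((k : ℕ) + 1)))) 0 1 := by
    intro j
    exact (CircleIntegrable.sum Finset.univ (fun k _ => hmon j k)).congr_codiscreteWithin
      (Eventually.of_forall fun t => by simp)
  have hIF : CircleIntegrable F 0 1 :=
    (CircleIntegrable.sum Finset.univ (fun j _ => hIk j)).congr_codiscreteWithin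
      (Eventually.of_forall fun t => by simp [hF])
  have hAvF : circleAverage F 0 1 = ∑ j, ((Complex.normSq (a j) : ℝ) : ℂ) := by
    rw [hF, circleAverage_fun_sum (fun j _ => hIk j)]
    refine Finset.sum_congr rfl fun j _ => ?_
    rw [circleAverage_fun_sum (fun k _ => hmon j k)]
    simp only [circleAverage_fun_smul, av_monomial_orth hr hr1, Fin.val_inj]
    rw [Finset.sum_eq_single j]
    · simp [Complex.mul_conj]
    · intro k _ hk
      simp [Ne.symm hk]
    · simp
  have hpt : ∀ t : ℂ, Complex.normSq (∑ j, a j * t ^ ((j : ℕ) + 1)) = (F t).re := by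
    intro t
    have : F t = (∑ j, a j * t ^ ((j : ℕ) + 1)) * conj (∑ j, a j * t ^ ((j : ℕ) + 1)) := by
      rw [hF, map_sum, Finset.sum_mul_sum]
      refine Finset.sum_congr rfl fun j _ => Finset.sum_congr rfl fun k _ => ?_
      rw [map_mul, smul_eq_mul]
      ring
    rw [this, Complex.mul_conj]
    simp
  have h1 : (fun t : ℂ => Complex.normSq (∑ j, a j * t ^ ((j : ℕ) + 1))) = ⇑Complex.reCLM ∘ F := by
    funext t
    exact hpt t
  rw [h1, Complex.reCLM.circleAverage_comp_comm hIF, hAvF]
  simp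

/-- **The `L²` bound**: for `R = a₀ + ∑ a j F (j+1)`, the mean of `|R ∘ G|²` on the unit circle is at
most `|a₀|² + 2 ∑ |a j|²`. -/
theorem cmean_normSq_faber_le (h : ExtMap G r c e) (a₀ : ℂ) {m : ℕ} (a : Fin m → ℂ) :
    circleAverage (fun t => Complex.normSq (a₀ + ∑ j, a j * (faber h ((j : ℕ) + 1)).eval (G t))) 0 1 ≤
      Complex.normSq a₀ + 2 * ∑ j, Complex.normSq (a j) := by
  have hr := h.r_pos
  have hr1 := h.r_lt
  set p : ℂ[X] := ∑ j, C (a j) * X ^ ((j : ℕ) + 1) with hp
  set q : ℂ[X] := C a₀ + ∑ j, C (a j) * faber h ((j : ℕ) + 1) with hq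
  set n : ℂ → ℂ := fun t => ∑ j, a j * faberTail h ((j : ℕ) + 1) t with hn
  have hpe : ∀ t, p.eval t = ∑ j, a j * t ^ ((j : ℕ) + 1) := by
    intro t
    simp [hp, eval_finsetSum]
  have hp0 : p.eval 0 = 0 := by
    simp [hpe]
  -- the tail
  choose ν hν hν0 hνe using fun j : ℕ => faberTail_isTail h j
  set nu : ℂ → ℂ := fun w => ∑ j : Fin m, a j * ν ((j : ℕ) + 1) w with hnu
  have hnud : DifferentiableOn ℂ nu (ball 0 r⁻¹) := by
    have : nu = ∑ j : Fin m, fun w => a j * ν ((j : ℕ) + 1) w := by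
      funext w
      simp [hnu]
    rw [this]
    exact DifferentiableOn.sum fun j _ => (hν _).const_mul _
  have hnu0 : nu 0 = 0 := by
    simp [hnu, hν0]
  have hnnu : ∀ t, r < ‖t‖ → n t = nu t⁻¹ := by
    intro t ht
    simp only [hn, hnu, hνe _ t ht]
  have hnT : IsTail r n := ⟨nu, hnud, hnu0, hnnu⟩
  have hqe : ∀ t, r < ‖t‖ → q.eval (G t) = p.eval t + a₀ + n t := by
    intro t ht
    have h1 : q.eval (G t) = a₀ + ∑ j, a j * (t ^ ((j : ℕ) + 1) + faberTail h ((j : ℕ) + 1) t) := by
      simp only [hq, eval_add, eval_C, eval_finsetSum, eval_mul, faber_eval h _ t ht]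
    rw [h1, hpe]
    simp only [mul_add, Finset.sum_add_distrib, hn]
    ring
  have hL2 := tail_L2_le h p q hp0 a₀ hnT hqe
  have hcp := contOn_sphere hr hr1 (poly_diff (r := r) p)
  have hcn := contOn_sphere_inv hr hr1 hnud
  -- pass to `nu` on the circle
  have hL2' : circleAverage (fun t => Complex.normSq (nu t⁻¹)) 0 1 ≤
      circleAverage (fun t => Complex.normSq (p.eval t)) 0 1 := by
    have : circleAverage (fun t => Complex.normSq (nu t⁻¹)) 0 1 =
        circleAverage (fun t => Complex.normSq (n t)) 0 1 :=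
      circleAverage_congr_sphere fun t ht => by
        rw [hnnu t (lt_norm_of_sphere hr1 ht)]
    rw [this]
    exact hL2
  have hPars : circleAverage (fun t => Complex.normSq (p.eval t)) 0 1 = ∑ j, Complex.normSq (a j) := by
    simp only [hpe]
    exact av_normSq_sum hr hr1 a
  have hpt : circleAverage (fun t => Complex.normSq (a₀ + ∑ j, a j * (faber h ((j : ℕ) + 1)).eval (G t))) 0 1 =
      circleAverage (fun t => Complex.normSq a₀ + Complex.normSq (p.eval t) + Complex.normSq (nu t⁻¹) +
        2 * ((p.eval t * conj a₀).re) + 2 * ((nu t⁻¹ * conj a₀).re) +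
        2 * ((p.eval t * conj (nu t⁻¹)).re)) 0 1 := by
    refine circleAverage_congr_sphere fun t ht => ?_
    have htU := lt_norm_of_sphere hr1 ht
    have h1 : a₀ + ∑ j, a j * (faber h ((j : ℕ) + 1)).eval (G t) = a₀ + p.eval t + nu t⁻¹ := by
      have := hqe t htU
      rw [← hnnu t htU]
      simp only [hq, eval_add, eval_C, eval_finsetSum, eval_mul] at this
      rw [this]
      ring
    rw [h1]
    simp only [Complex.normSq_apply, mul_re, add_re, add_im, conj_re, conj_im]
    ring
  have hC1 : ContinuousOn (fun t => Complex.normSq (p.eval t)) (sphere 0 |1|) :=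
    Complex.continuous_normSq.comp_continuousOn hcp
  have hC2 : ContinuousOn (fun t => Complex.normSq (nu t⁻¹)) (sphere 0 |1|) :=
    Complex.continuous_normSq.comp_continuousOn hcn
  have hφ1 : DifferentiableOn ℂ (fun t => p.eval t * conj a₀) (ball 0 r⁻¹) :=
    (poly_diff p).mul (differentiableOn_const _)
  have hC3 : ContinuousOn (fun t => (2 : ℝ) * (p.eval t * conj a₀).re) (sphere 0 |1|) :=
    continuousOn_const.mul (Complex.continuous_re.comp_continuousOn (contOn_sphere hr hr1 hφ1))
  have hψ1 : DifferentiableOn ℂ (fun w => nu w * conj a₀) (ball 0 r⁻¹) :=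
    hnud.mul (differentiableOn_const _)
  have hC4 : ContinuousOn (fun t : ℂ => (2 : ℝ) * (nu t⁻¹ * conj a₀).re) (sphere 0 |1|) :=
    continuousOn_const.mul (Complex.continuous_re.comp_continuousOn (contOn_sphere_inv hr hr1 hψ1))
  have hC5' : ContinuousOn (fun t : ℂ => p.eval t * conj (nu t⁻¹)) (sphere 0 |1|) :=
    hcp.mul (Complex.continuous_conj.comp_continuousOn hcn)
  have hC5 : ContinuousOn (fun t : ℂ => (2 : ℝ) * (p.eval t * conj (nu t⁻¹)).re) (sphere 0 |1|) :=
    continuousOn_const.mul (Complex.continuous_re.comp_continuousOn hC5')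
  have two_av : ∀ f : ℂ → ℝ, circleAverage (fun t => (2 : ℝ) * f t) 0 1 = 2 * circleAverage f 0 1 := by
    intro f
    have := circleAverage_fun_smul (a := (2 : ℝ)) (f := f) (c := 0) (R := 1)
    simpa only [smul_eq_mul] using this
  have hE1 : circleAverage (fun t => (2 : ℝ) * (p.eval t * conj a₀).re) 0 1 = 0 := by
    rw [two_av]
    have h1 := Complex.reCLM.circleAverage_comp_comm (ContinuousOn.circleIntegrable' (contOn_sphere hr hr1 hφ1))
    have e3 : (⇑Complex.reCLM ∘ fun t => p.eval t * conj a₀) = fun t => (p.eval t * conj a₀).re := rfl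
    rw [e3, circleAverage_eq_center hr hr1 hφ1, hp0] at h1
    rw [h1]
    simp
  have hE2 : circleAverage (fun t : ℂ => (2 : ℝ) * (nu t⁻¹ * conj a₀).re) 0 1 = 0 := by
    rw [two_av]
    have h1 := Complex.reCLM.circleAverage_comp_comm (circleIntegrable_inv hr hr1 hψ1)
    have e3 : (⇑Complex.reCLM ∘ fun t : ℂ => nu t⁻¹ * conj a₀) = fun t : ℂ => (nu t⁻¹ * conj a₀).re := rfl
    rw [e3, circleAverage_inv_eq hr hr1 hψ1, hnu0] at h1
    rw [h1]
    simp
  have hE3 : circleAverage (fun t : ℂ => (2 : ℝ) * (p.eval t * conj (nu t⁻¹)).re) 0 1 = 0 := by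
    rw [two_av]
    have h1 := Complex.reCLM.circleAverage_comp_comm (ContinuousOn.circleIntegrable' hC5')
    have e3 : (⇑Complex.reCLM ∘ fun t : ℂ => p.eval t * conj (nu t⁻¹)) =
        fun t : ℂ => (p.eval t * conj (nu t⁻¹)).re := rfl
    rw [e3, av_mul_conj_inv hr hr1 (poly_diff p) hnud, hp0] at h1
    rw [h1]
    simp
  have hI1 : CircleIntegrable (fun t => Complex.normSq a₀ + Complex.normSq (p.eval t)) 0 1 :=
    ContinuousOn.circleIntegrable' (continuousOn_const.add hC1)
  have hI2 : CircleIntegrable (fun t => Complex.normSq a₀ + Complex.normSq (p.eval t) + Complex.normSq (nu t⁻¹)) 0 1 :=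
    ContinuousOn.circleIntegrable' ((continuousOn_const.add hC1).add hC2)
  have hI3 : CircleIntegrable (fun t => Complex.normSq a₀ + Complex.normSq (p.eval t) + Complex.normSq (nu t⁻¹) +
        2 * ((p.eval t * conj a₀).re)) 0 1 :=
    ContinuousOn.circleIntegrable' (((continuousOn_const.add hC1).add hC2).add hC3)
  have hI4 : CircleIntegrable (fun t => Complex.normSq a₀ + Complex.normSq (p.eval t) + Complex.normSq (nu t⁻¹) +
        2 * ((p.eval t * conj a₀).re) + 2 * ((nu t⁻¹ * conj a₀).re)) 0 1 :=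
    ContinuousOn.circleIntegrable' ((((continuousOn_const.add hC1).add hC2).add hC3).add hC4)
  rw [hpt, circleAverage_fun_add hI4 (ContinuousOn.circleIntegrable' hC5),
    circleAverage_fun_add hI3 (ContinuousOn.circleIntegrable' hC4),
    circleAverage_fun_add hI2 (ContinuousOn.circleIntegrable' hC3),
    circleAverage_fun_add hI1 (ContinuousOn.circleIntegrable' hC2),
    circleAverage_fun_add (f₁ := fun _ => Complex.normSq a₀) (circleIntegrable_const _ _ _)
      (ContinuousOn.circleIntegrable' hC1), hE1, hE2, hE3, circleAverage_const]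
  rw [hPars] at hL2' ⊢
  linarith

end final

end Crest.Agent.Lib.Crouzeix
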