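import Crest.Agent.Lib.Crouzeix.InjDeriv

set_option autoImplicit false

namespace Crest.Agent.Lib.Crouzeix

open Complex Metric Set Filter Topology MeasureTheory Real Polynomial

/-- The standing hypotheses on an exterior map: analytic and injective on `{r < ‖t‖}`, with
`G t = c t + e (1/t)`, and the tangent inequality on the unit circle. -/
structure ExtMap (G : ℂ → ℂ) (r : ℝ) (c : ℂ) (e : ℂ → ℂ) : Prop where
  r_pos : 0 < r
  r_lt : r < 1
  c_ne : c ≠ 0
  diff : DifferentiableOn ℂ G {t | r < ‖t‖}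
  inj : InjOn G {t | r < ‖t‖}
  e_diff : DifferentiableOn ℂ e (ball 0 r⁻¹)
  eq : ∀ t, r < ‖t‖ → G t = c * t + e t⁻¹
  tangent : ∀ t t₀ : ℂ, ‖t‖ = 1 → ‖t₀‖ = 1 → t ≠ t₀ → 0 ≤ (t * deriv G t / (G t - G t₀)).re

/-- A tail: analytic on `{r < ‖t‖}`, vanishing at infinity; explicitly a function of `1/t`. -/
def IsTail (r : ℝ) (n : ℂ → ℂ) : Prop :=
  ∃ g : ℂ → ℂ, DifferentiableOn ℂ g (ball 0 r⁻¹) ∧ g 0 = 0 ∧ ∀ t, r < ‖t‖ → n t = g t⁻¹

section basics

variable {r : ℝ}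

theorem mem_ball_inv_iff (hr : 0 < r) {t : ℂ} (ht : t ≠ 0) : t⁻¹ ∈ ball (0 : ℂ) r⁻¹ ↔ r < ‖t‖ := by
  have h : 0 < ‖t‖ := norm_pos_iff.2 ht
  rw [mem_ball_zero_iff, norm_inv, inv_lt_inv₀ h hr]

theorem inv_mem_ball (hr : 0 < r) {t : ℂ} (ht : r < ‖t‖) : t⁻¹ ∈ ball (0 : ℂ) r⁻¹ :=
  (mem_ball_inv_iff hr (norm_pos_iff.1 (hr.trans ht))).2 ht

theorem zero_mem_ball (hr : 0 < r) : (0 : ℂ) ∈ ball (0 : ℂ) r⁻¹ :=
  mem_ball_self (inv_pos.2 hr)

theorem closedBall_subset (hr : 0 < r) (hr1 : r < 1) : closedBall (0 : ℂ) 1 ⊆ ball (0 : ℂ) r⁻¹ :=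
  closedBall_subset_ball ((one_lt_inv₀ hr).2 hr1)

/-- Mean value property in the unit circle. -/
theorem circleAverage_eq_center (hr : 0 < r) (hr1 : r < 1) {E : Type*} [NormedAddCommGroup E]
    [NormedSpace ℂ E] [CompleteSpace E] {g : ℂ → E} (hg : DifferentiableOn ℂ g (ball 0 r⁻¹)) :
    circleAverage g 0 1 = g 0 := by
  have hd : DiffContOnCl ℂ g (ball 0 |1|) := by
    rw [abs_one]
    exact hg.diffContOnCl_ball (closedBall_subset hr hr1)
  exact hd.circleAverage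

/-- Mean value at infinity: the circle mean of a function of `1/t` analytic near `0` is its value at
infinity. -/
theorem circleAverage_inv_eq (hr : 0 < r) (hr1 : r < 1) {E : Type*} [NormedAddCommGroup E]
    [NormedSpace ℂ E] [CompleteSpace E] {g : ℂ → E} (hg : DifferentiableOn ℂ g (ball 0 r⁻¹)) :
    circleAverage (fun t => g t⁻¹) 0 1 = g 0 := by
  rw [circleAverage_zero_one_congr_inv, circleAverage_eq_center hr hr1 hg]

theorem mem_sphere_iff' {t : ℂ} : t ∈ sphere (0 : ℂ) |1| ↔ ‖t‖ = 1 := by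
  simp

theorem lt_norm_of_sphere (hr1 : r < 1) {t : ℂ} (ht : t ∈ sphere (0 : ℂ) |1|) : r < ‖t‖ := by
  rw [mem_sphere_iff'.1 ht]; exact hr1

/-- The mean of a tail vanishes. -/
theorem IsTail.circleAverage_eq_zero (hr : 0 < r) (hr1 : r < 1) {n : ℂ → ℂ} (hn : IsTail r n) :
    circleAverage n 0 1 = 0 := by
  obtain ⟨g, hg, hg0, hng⟩ := hn
  have h : circleAverage n 0 1 = circleAverage (fun t => g t⁻¹) 0 1 :=
    circleAverage_congr_sphere fun t ht => hng t (lt_norm_of_sphere hr1 ht)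
  rw [h, circleAverage_inv_eq hr hr1 hg, hg0]

end basics

section faber

variable {G : ℂ → ℂ} {r : ℝ} {c : ℂ} {e : ℂ → ℂ}

theorem ExtMap.isOpen_ext : IsOpen {t : ℂ | r < ‖t‖} :=
  isOpen_lt continuous_const continuous_norm

theorem ExtMap.ne_zero (h : ExtMap G r c e) {t : ℂ} (ht : r < ‖t‖) : t ≠ 0 :=
  norm_pos_iff.1 (h.r_pos.trans ht)

/-- `G` in the coordinate `w = 1/t`. -/
def hatG (c : ℂ) (e : ℂ → ℂ) (w : ℂ) : ℂ := c + w * e w

theorem hatG_diff (he : DifferentiableOn ℂ e (ball 0 r⁻¹)) :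
    DifferentiableOn ℂ (hatG c e) (ball 0 r⁻¹) :=
  (differentiableOn_const c).add (differentiableOn_id.mul he)

theorem ExtMap.G_eq_hat (h : ExtMap G r c e) {t : ℂ} (ht : r < ‖t‖) : G t = t * hatG c e t⁻¹ := by
  have h0 := h.ne_zero ht
  rw [h.eq t ht, hatG]
  field_simp

/-- dslope facts on the ball -/
theorem dslope_diff {f : ℂ → ℂ} (hf : DifferentiableOn ℂ f (ball 0 r⁻¹)) {a : ℂ}
    (ha : a ∈ ball (0 : ℂ) r⁻¹) : DifferentiableOn ℂ (dslope f a) (ball 0 r⁻¹) :=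
  (Complex.differentiableOn_dslope (isOpen_ball.mem_nhds ha)).2 hf

theorem eq_mul_dslope {f : ℂ → ℂ} {a : ℂ} (h : f a = 0) (w : ℂ) :
    f w = (w - a) * dslope f a w := by
  have := sub_smul_dslope f a w
  simpa [h] using this.symm

/-- Every function `t ^ j * g (1/t)` is a polynomial in `G` up to a tail. -/
theorem exists_poly_of_lau (h : ExtMap G r c e) (j : ℕ) :
    ∀ g : ℂ → ℂ, DifferentiableOn ℂ g (ball 0 r⁻¹) →
      ∃ (q : ℂ[X]) (n : ℂ → ℂ), IsTail r n ∧
        ∀ t, r < ‖t‖ → t ^ j * g t⁻¹ = q.eval (G t) + n t := by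
  induction j with
  | zero =>
    intro g hg
    refine ⟨C (g 0), fun t => g t⁻¹ - g 0, ⟨fun w => g w - g 0, hg.sub (differentiableOn_const _),
      by simp, fun t _ => rfl⟩, fun t _ => ?_⟩
    simp
  | succ j ih =>
    intro g hg
    have hz := zero_mem_ball h.r_pos
    set κ : ℂ := g 0 / c ^ (j + 1) with hκ
    set k : ℂ → ℂ := fun w => g w - κ * hatG c e w ^ (j + 1) with hk
    have hkd : DifferentiableOn ℂ k (ball 0 r⁻¹) :=
      hg.sub (((hatG_diff h.e_diff).pow (j + 1)).const_mul κ)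
    have hk0 : k 0 = 0 := by
      have hc := h.c_ne
      simp only [hk, hatG, zero_mul, add_zero, hκ]
      field_simp
      ring
    obtain ⟨q', n', hn', hq'⟩ := ih (dslope k 0) (dslope_diff hkd hz)
    refine ⟨q' + C κ * X ^ (j + 1), n', hn', fun t ht => ?_⟩
    have ht0 := h.ne_zero ht
    have h1 := eq_mul_dslope hk0 t⁻¹
    simp only [sub_zero] at h1
    have h2 : g t⁻¹ = k t⁻¹ + κ * hatG c e t⁻¹ ^ (j + 1) := by simp [hk]
    have h3 := hq' t ht
    simp only [eval_add, eval_mul, eval_C, eval_pow, eval_X]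
    have hG : G t ^ (j + 1) = t ^ (j + 1) * hatG c e t⁻¹ ^ (j + 1) := by
      rw [h.G_eq_hat ht, mul_pow]
    have h4 : t ^ (j + 1) * (t⁻¹ * dslope k 0 t⁻¹) = t ^ j * dslope k 0 t⁻¹ := by
      calc t ^ (j + 1) * (t⁻¹ * dslope k 0 t⁻¹) = t ^ j * (t * t⁻¹) * dslope k 0 t⁻¹ := by ring
        _ = t ^ j * dslope k 0 t⁻¹ := by rw [mul_inv_cancel₀ ht0, mul_one]
    rw [h2, h1, mul_add, h4, h3, hG]
    ring

/-- **Faber polynomials**: `F j (G t) = t ^ j + tail`. -/
theorem exists_faber (h : ExtMap G r c e) :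
    ∃ (F : ℕ → ℂ[X]) (n : ℕ → ℂ → ℂ), (∀ j, IsTail r (n j)) ∧
      ∀ j t, r < ‖t‖ → (F j).eval (G t) = t ^ j + n j t := by
  have key : ∀ j, ∃ (q : ℂ[X]) (n : ℂ → ℂ), IsTail r n ∧
      ∀ t, r < ‖t‖ → q.eval (G t) = t ^ j + n t := by
    intro j
    obtain ⟨q, n, ⟨g, hg, hg0, hng⟩, hq⟩ := exists_poly_of_lau h j (fun _ => 1) (differentiableOn_const _)
    refine ⟨q, fun t => - n t, ⟨fun w => - g w, hg.neg, by simp [hg0], fun t ht => by simp [hng t ht]⟩,
      fun t ht => ?_⟩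
    have := hq t ht
    simp only [mul_one] at this
    rw [this]; ring
  choose F n hn hF using key
  exact ⟨F, n, hn, hF⟩

/-- The Faber polynomials. -/
noncomputable def faber (h : ExtMap G r c e) (j : ℕ) : ℂ[X] :=
  (exists_faber h).choose j

/-- The tails of the Faber polynomials. -/
noncomputable def faberTail (h : ExtMap G r c e) (j : ℕ) : ℂ → ℂ :=
  (exists_faber h).choose_spec.choose j

theorem faberTail_isTail (h : ExtMap G r c e) (j : ℕ) : IsTail r (faberTail h j) :=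
  (exists_faber h).choose_spec.choose_spec.1 j

theorem faber_eval (h : ExtMap G r c e) (j : ℕ) (t : ℂ) (ht : r < ‖t‖) :
    (faber h j).eval (G t) = t ^ j + faberTail h j t :=
  (exists_faber h).choose_spec.choose_spec.2 j t ht

end faber

section kernel

variable {G : ℂ → ℂ} {r : ℝ} {c : ℂ} {e : ℂ → ℂ}

theorem ExtMap.deriv_eq (h : ExtMap G r c e) {t : ℂ} (ht : r < ‖t‖) :
    deriv G t = c - deriv e t⁻¹ * t⁻¹ ^ 2 := by
  have ht0 := h.ne_zero ht
  have hev : G =ᶠ[𝓝 t] fun s => c * s + e s⁻¹ := by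
    filter_upwards [ExtMap.isOpen_ext.mem_nhds ht] with s hs using h.eq s hs
  rw [hev.deriv_eq]
  have he : HasDerivAt e (deriv e t⁻¹) t⁻¹ :=
    (h.e_diff.differentiableAt (isOpen_ball.mem_nhds (inv_mem_ball h.r_pos ht))).hasDerivAt
  have h1 : HasDerivAt (fun s : ℂ => e s⁻¹) (deriv e t⁻¹ * (-(t ^ 2)⁻¹)) t :=
    he.comp t (hasDerivAt_inv ht0)
  have h2 : HasDerivAt (fun s : ℂ => c * s) c t := by
    simpa using (hasDerivAt_id t).const_mul c
  have h3 : HasDerivAt (fun s => c * s + e s⁻¹) (c + deriv e t⁻¹ * (-(t ^ 2)⁻¹)) t := h2.add h1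
  rw [h3.deriv, inv_pow]
  ring

theorem ExtMap.deriv_ne (h : ExtMap G r c e) {t : ℂ} (ht : r < ‖t‖) : deriv G t ≠ 0 :=
  deriv_ne_zero_of_injOn ExtMap.isOpen_ext h.diff h.inj ht

theorem ExtMap.deriv_e_diff (h : ExtMap G r c e) : DifferentiableOn ℂ (deriv e) (ball 0 r⁻¹) :=
  h.e_diff.deriv isOpen_ball

theorem hatG_hasDeriv (h : ExtMap G r c e) {w : ℂ} (hw : w ∈ ball (0 : ℂ) r⁻¹) :
    HasDerivAt (hatG c e) (e w + w * deriv e w) w := by
  have he : HasDerivAt e (deriv e w) w :=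
    (h.e_diff.differentiableAt (isOpen_ball.mem_nhds hw)).hasDerivAt
  have h1 : HasDerivAt (fun w => c + w * e w) (1 * e w + w * deriv e w) w :=
    ((hasDerivAt_id w).mul he).const_add c
  rw [one_mul] at h1
  exact h1

/-- Removing the pole in the variable `t`. -/
theorem exists_kernel_t (h : ExtMap G r c e) {t₀ : ℂ} (ht₀ : r < ‖t₀‖) :
    ∃ g : ℂ → ℂ, DifferentiableOn ℂ g (ball 0 r⁻¹) ∧ g 0 = 0 ∧
      ∀ t, r < ‖t‖ → t ≠ t₀ → t * deriv G t / (G t - G t₀) = t / (t - t₀) + g t⁻¹ := by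
  have hr := h.r_pos
  have ht₀0 := h.ne_zero ht₀
  set w₀ : ℂ := t₀⁻¹ with hw₀
  have hw₀B : w₀ ∈ ball (0 : ℂ) r⁻¹ := inv_mem_ball hr ht₀
  have hw₀0 : w₀ ≠ 0 := inv_ne_zero ht₀0
  have htw₀ : t₀ * w₀ = 1 := mul_inv_cancel₀ ht₀0
  set P : ℂ → ℂ := fun w => hatG c e w - w * G t₀ with hP
  have hPd : DifferentiableOn ℂ P (ball 0 r⁻¹) :=
    (hatG_diff h.e_diff).sub (differentiableOn_id.mul (differentiableOn_const _))
  have hPw₀ : P w₀ = 0 := by
    have := h.G_eq_hat ht₀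
    simp only [hP]
    rw [this, ← hw₀]
    linear_combination (-(hatG c e w₀)) * htw₀
  set P1 : ℂ → ℂ := dslope P w₀ with hP1
  have hP1d : DifferentiableOn ℂ P1 (ball 0 r⁻¹) := dslope_diff hPd hw₀B
  have hPfac : ∀ w, P w = (w - w₀) * P1 w := eq_mul_dslope hPw₀
  have hP1w₀ : P1 w₀ = e w₀ + w₀ * deriv e w₀ - G t₀ := by
    have h1 : HasDerivAt P (e w₀ + w₀ * deriv e w₀ - 1 * G t₀) w₀ :=
      (hatG_hasDeriv h hw₀B).sub ((hasDerivAt_id w₀).mul_const (G t₀))
    simp only [hP1, dslope_same, h1.deriv, one_mul]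
  set T : ℂ → ℂ := fun w => (c - w ^ 2 * deriv e w) * t₀ + P1 w with hT
  have hTd : DifferentiableOn ℂ T (ball 0 r⁻¹) :=
    (((differentiableOn_const c).sub ((differentiableOn_id.pow 2).mul h.deriv_e_diff)).mul
      (differentiableOn_const _)).add hP1d
  have hTw₀ : T w₀ = 0 := by
    simp only [hT, hP1w₀, h.eq t₀ ht₀, ← hw₀]
    have : w₀ ^ 2 * deriv e w₀ * t₀ = w₀ * deriv e w₀ := by
      calc w₀ ^ 2 * deriv e w₀ * t₀ = (t₀ * w₀) * (w₀ * deriv e w₀) := by ring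
        _ = w₀ * deriv e w₀ := by rw [htw₀, one_mul]
    linear_combination - this
  set T1 : ℂ → ℂ := dslope T w₀ with hT1
  have hT1d : DifferentiableOn ℂ T1 (ball 0 r⁻¹) := dslope_diff hTd hw₀B
  have hTfac : ∀ w, T w = (w - w₀) * T1 w := eq_mul_dslope hTw₀
  -- nonvanishing of `P1`
  have hP10 : P1 0 = - c * t₀ := by
    have h1 := hPfac 0
    simp only [hP, hatG, zero_mul, add_zero, sub_zero, zero_sub] at h1
    have : t₀ * (c) = t₀ * (-w₀ * P1 0) := by rw [← h1]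
    rw [show t₀ * (-w₀ * P1 0) = -(t₀ * w₀) * P1 0 by ring, htw₀] at this
    linear_combination this
  have hP1ne : ∀ w ∈ ball (0 : ℂ) r⁻¹, P1 w ≠ 0 := by
    intro w hw
    by_cases hw0 : w = 0
    · rw [hw0, hP10]
      exact mul_ne_zero (neg_ne_zero.2 h.c_ne) ht₀0
    by_cases hww : w = w₀
    · rw [hww, hP1w₀]
      have hd := h.deriv_ne ht₀
      rw [h.deriv_eq ht₀] at hd
      intro h0
      apply hd
      have e1 : e w₀ + w₀ * deriv e w₀ - (c * t₀ + e w₀) = 0 := by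
        rw [← h.eq t₀ ht₀]; exact h0
      rw [← hw₀]
      have e2 : w₀ * deriv e w₀ = c * t₀ := by linear_combination e1
      calc c - deriv e w₀ * w₀ ^ 2 = c - w₀ * (w₀ * deriv e w₀) := by ring
        _ = c - w₀ * (c * t₀) := by rw [e2]
        _ = c * (1 - t₀ * w₀) := by ring
        _ = 0 := by rw [htw₀]; ring
    · intro h0
      have h1 := hPfac w
      rw [h0, mul_zero] at h1
      have hwt : r < ‖w⁻¹‖ := by
        have := (mem_ball_inv_iff hr (inv_ne_zero hw0)).1 (by simpa using hw)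
        exact this
      have h2 := h.G_eq_hat hwt
      rw [inv_inv] at h2
      simp only [hP] at h1
      have h3 : G w⁻¹ = G t₀ := by
        rw [h2]
        field_simp
        linear_combination h1
      have h4 := h.inj hwt ht₀ h3
      apply hww
      rw [hw₀, ← h4, inv_inv]
  refine ⟨fun w => T1 w / (t₀ * P1 w), ?_, ?_, ?_⟩
  · exact hT1d.div ((differentiableOn_const _).mul hP1d) fun w hw =>
      mul_ne_zero ht₀0 (hP1ne w hw)
  · have h1 := hTfac 0
    have h2 : T 0 = 0 := by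
      simp only [hT, hP10]
      ring
    rw [h2] at h1
    have h3 : T1 0 = 0 := by
      have := mul_eq_zero.1 h1.symm
      rcases this with h | h
      · exact absurd (by simpa using h) hw₀0
      · exact h
    simp [h3]
  · intro t ht htt₀
    have ht0 := h.ne_zero ht
    set w : ℂ := t⁻¹ with hw
    have hwB : w ∈ ball (0 : ℂ) r⁻¹ := inv_mem_ball hr ht
    have hw0 : w ≠ 0 := inv_ne_zero ht0
    have htw : t * w = 1 := mul_inv_cancel₀ ht0
    have hww : w - w₀ ≠ 0 := by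
      intro h0
      apply htt₀
      have : t⁻¹ = t₀⁻¹ := by simpa [hw, hw₀] using sub_eq_zero.1 h0
      exact inv_injective this
    have hA : G t - G t₀ ≠ 0 := fun h0 => htt₀ (h.inj ht ht₀ (sub_eq_zero.1 h0))
    have hP1w := hP1ne w hwB
    have htt : t - t₀ ≠ 0 := sub_ne_zero.2 htt₀
    have hPw : w * (G t - G t₀) = (w - w₀) * P1 w := by
      rw [← hPfac w]
      simp only [hP]
      rw [h.G_eq_hat ht, ← hw]
      linear_combination (hatG c e w) * htw
    set Dk : ℂ := c - w ^ 2 * deriv e w with hDk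
    have hder : deriv G t = Dk := by
      rw [h.deriv_eq ht, ← hw, hDk]; ring
    have hTw : Dk * t₀ + P1 w = (w - w₀) * T1 w := hTfac w
    rw [hder]
    have e1 : t * Dk / (G t - G t₀) = Dk / ((w - w₀) * P1 w) := by
      rw [← hPw]
      field_simp
      linear_combination (Dk) * htw
    have e2 : t / (t - t₀) = - 1 / (t₀ * (w - w₀)) := by
      have ht₀w : t₀ * (w - w₀) ≠ 0 := mul_ne_zero ht₀0 hww
      rw [div_eq_div_iff htt ht₀w]
      have : t * (t₀ * (w - w₀)) = - (t - t₀) := by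
        calc t * (t₀ * (w - w₀)) = (t * w) * t₀ - (t₀ * w₀) * t := by ring
          _ = t₀ - t := by rw [htw, htw₀]; ring
          _ = - (t - t₀) := by ring
      rw [this]; ring
    have e3 : T1 w / (t₀ * P1 w) = Dk / ((w - w₀) * P1 w) + 1 / (t₀ * (w - w₀)) := by
      have : T1 w = (Dk * t₀ + P1 w) / (w - w₀) := by
        rw [hTw]; field_simp
      rw [this]
      field_simp
    beta_reduce
    rw [e1, e2, e3]
    ring

/-- Removing the pole in the variable `t₀`. -/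
theorem exists_kernel_t0 (h : ExtMap G r c e) {t : ℂ} (ht : r < ‖t‖) :
    ∃ k : ℂ → ℂ, DifferentiableOn ℂ k (ball 0 r⁻¹) ∧ k 0 = 0 ∧
      ∀ t₀, r < ‖t₀‖ → t₀ ≠ t → t * deriv G t / (G t - G t₀) = t / (t - t₀) + k t₀⁻¹ := by
  have hr := h.r_pos
  have ht0 := h.ne_zero ht
  set z₁ : ℂ := t⁻¹ with hz₁
  have hz₁B : z₁ ∈ ball (0 : ℂ) r⁻¹ := inv_mem_ball hr ht
  have hz₁0 : z₁ ≠ 0 := inv_ne_zero ht0
  have htz₁ : t * z₁ = 1 := mul_inv_cancel₀ ht0
  set a : ℂ := t * deriv G t with ha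
  have ha0 : a ≠ 0 := mul_ne_zero ht0 (h.deriv_ne ht)
  set R : ℂ → ℂ := fun z => z * G t - hatG c e z with hR
  have hRd : DifferentiableOn ℂ R (ball 0 r⁻¹) :=
    (differentiableOn_id.mul (differentiableOn_const _)).sub (hatG_diff h.e_diff)
  have hRz₁ : R z₁ = 0 := by
    simp only [hR]
    rw [h.G_eq_hat ht, ← hz₁]
    linear_combination (hatG c e z₁) * htz₁
  set R1 : ℂ → ℂ := dslope R z₁ with hR1
  have hR1d : DifferentiableOn ℂ R1 (ball 0 r⁻¹) := dslope_diff hRd hz₁B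
  have hRfac : ∀ z, R z = (z - z₁) * R1 z := eq_mul_dslope hRz₁
  have hR1z₁ : R1 z₁ = a := by
    have h1 : HasDerivAt R (1 * G t - (e z₁ + z₁ * deriv e z₁)) z₁ :=
      ((hasDerivAt_id z₁).mul_const (G t)).sub (hatG_hasDeriv h hz₁B)
    simp only [hR1, dslope_same, h1.deriv, one_mul]
    rw [ha, h.deriv_eq ht, h.eq t ht, ← hz₁]
    have : t * (deriv e z₁ * z₁ ^ 2) = z₁ * deriv e z₁ := by
      calc t * (deriv e z₁ * z₁ ^ 2) = (t * z₁) * (z₁ * deriv e z₁) := by ring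
        _ = z₁ * deriv e z₁ := by rw [htz₁, one_mul]
    linear_combination this
  set V : ℂ → ℂ := fun z => a - R1 z with hV
  have hVd : DifferentiableOn ℂ V (ball 0 r⁻¹) := (differentiableOn_const _).sub hR1d
  have hVz₁ : V z₁ = 0 := by simp [hV, hR1z₁]
  set S : ℂ → ℂ := dslope V z₁ with hS
  have hSd : DifferentiableOn ℂ S (ball 0 r⁻¹) := dslope_diff hVd hz₁B
  have hVfac : ∀ z, V z = (z - z₁) * S z := eq_mul_dslope hVz₁
  have hR1ne : ∀ z ∈ ball (0 : ℂ) r⁻¹, R1 z ≠ 0 := by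
    intro z hz
    by_cases hz0 : z = 0
    · intro h0
      have h1 := hRfac 0
      rw [hz0] at h0
      rw [h0, mul_zero] at h1
      simp [hR, hatG, h.c_ne] at h1
    by_cases hzz : z = z₁
    · rw [hzz, hR1z₁]; exact ha0
    · intro h0
      have h1 := hRfac z
      rw [h0, mul_zero] at h1
      have hzt : r < ‖z⁻¹‖ := (mem_ball_inv_iff hr (inv_ne_zero hz0)).1 (by simpa using hz)
      have h2 := h.G_eq_hat hzt
      rw [inv_inv] at h2
      simp only [hR] at h1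
      have h3 : G z⁻¹ = G t := by
        rw [h2]
        field_simp
        linear_combination - h1
      have h4 := h.inj hzt ht h3
      apply hzz
      rw [hz₁, ← h4, inv_inv]
  refine ⟨fun z => z * S z / R1 z, ?_, by simp, ?_⟩
  · exact (differentiableOn_id.mul hSd).div hR1d hR1ne
  · intro t₀ ht₀ htt₀
    have ht₀0 := h.ne_zero ht₀
    set z : ℂ := t₀⁻¹ with hz
    have hzB : z ∈ ball (0 : ℂ) r⁻¹ := inv_mem_ball hr ht₀
    have hz0 : z ≠ 0 := inv_ne_zero ht₀0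
    have ht₀z : t₀ * z = 1 := mul_inv_cancel₀ ht₀0
    have hzz : z - z₁ ≠ 0 := by
      intro h0
      apply htt₀
      have : t₀⁻¹ = t⁻¹ := by simpa [hz, hz₁] using sub_eq_zero.1 h0
      exact inv_injective this
    have hA : G t - G t₀ ≠ 0 := fun h0 => htt₀ (h.inj ht₀ ht (sub_eq_zero.1 h0).symm)
    have hR1z := hR1ne z hzB
    have htt : t - t₀ ≠ 0 := sub_ne_zero.2 (Ne.symm htt₀)
    have hRz : z * (G t - G t₀) = (z - z₁) * R1 z := by
      rw [← hRfac z]
      simp only [hR]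
      rw [h.G_eq_hat ht₀, ← hz]
      linear_combination (-(hatG c e z)) * ht₀z
    have e1 : t / (t - t₀) = z / (z - z₁) := by
      rw [div_eq_div_iff htt hzz]
      have : t * (z - z₁) = z * (t - t₀) := by
        calc t * (z - z₁) = t * z - t * z₁ := by ring
          _ = t * z - (t₀ * z) := by rw [htz₁, ht₀z]
          _ = z * (t - t₀) := by ring
      rw [this]
    have e2 : z * S z / R1 z = (a - R1 z) / (G t - G t₀) := by
      have h1 : a - R1 z = (z - z₁) * S z := hVfac z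
      rw [h1, div_eq_div_iff hR1z hA]
      calc z * S z * (G t - G t₀) = S z * (z * (G t - G t₀)) := by ring
        _ = S z * ((z - z₁) * R1 z) := by rw [hRz]
        _ = (z - z₁) * S z * R1 z := by ring
    beta_reduce
    rw [e1, e2]
    have e3 : z / (z - z₁) = R1 z / (G t - G t₀) := by
      rw [div_eq_div_iff hzz hA, hRz]
      ring
    rw [e3, ← add_div]
    ring_nf

end kernel

end Crest.Agent.Lib.Crouzeix
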