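import Crest.Agent.Lib.Crouzeix.KernelBase

set_option autoImplicit false

namespace Crest.Agent.Lib.Crouzeix

open Complex Metric Set Filter Topology MeasureTheory Real Polynomial
open scoped ComplexConjugate

section means

variable {r : ℝ}

/-- Means agree if the functions agree off one point of the circle. -/
theorem eventuallyEq_off {E : Type*} {f₁ f₂ : ℂ → E} {t₀ : ℂ}
    (h : ∀ t, ‖t‖ = 1 → t ≠ t₀ → f₁ t = f₂ t) :
    f₁ =ᶠ[codiscreteWithin (sphere (0 : ℂ) |1|)] f₂ := by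
  have hsub : ∀ x, {t | f₁ t = f₂ t} ∪ (sphere (0 : ℂ) |1|)ᶜ ∈ 𝓝[≠] x := by
    intro x
    have h1 : ({t₀}ᶜ : Set ℂ) ⊆ {t | f₁ t = f₂ t} ∪ (sphere (0 : ℂ) |1|)ᶜ := by
      intro t ht
      by_cases hs : ‖t‖ = 1
      · exact Or.inl (h t hs ht)
      · exact Or.inr (by simpa using hs)
    refine mem_of_superset ?_ h1
    by_cases hx : x = t₀
    · rw [hx]; exact self_mem_nhdsWithin
    · exact mem_nhdsWithin_of_mem_nhds (isOpen_compl_singleton.mem_nhds hx)
  exact mem_codiscreteWithin_iff_forall_mem_nhdsNE.2 fun x _ => hsub x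

theorem circleAverage_congr_off {E : Type*} [NormedAddCommGroup E] [NormedSpace ℝ E] {f₁ f₂ : ℂ → E}
    {t₀ : ℂ} (h : ∀ t, ‖t‖ = 1 → t ≠ t₀ → f₁ t = f₂ t) :
    circleAverage f₁ 0 1 = circleAverage f₂ 0 1 :=
  circleAverage_congr_codiscreteWithin (eventuallyEq_off h) one_ne_zero

theorem circleIntegrable_congr_off {E : Type*} [NormedAddCommGroup E] {f₁ f₂ : ℂ → E}
    {t₀ : ℂ} (h : ∀ t, ‖t‖ = 1 → t ≠ t₀ → f₁ t = f₂ t) (h2 : CircleIntegrable f₂ 0 1) :
    CircleIntegrable f₁ 0 1 :=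
  (circleIntegrable_congr_codiscreteWithin (eventuallyEq_off h)).2 h2

theorem contOn_sphere (hr : 0 < r) (hr1 : r < 1) {E : Type*} [NormedAddCommGroup E]
    [NormedSpace ℂ E] {g : ℂ → E} (hg : DifferentiableOn ℂ g (ball 0 r⁻¹)) :
    ContinuousOn g (sphere 0 |1|) :=
  hg.continuousOn.mono fun _ ht => closedBall_subset hr hr1 (sphere_subset_closedBall (by simpa using ht))

theorem contOn_sphere_inv (hr : 0 < r) (hr1 : r < 1) {E : Type*} [NormedAddCommGroup E]
    [NormedSpace ℂ E] {g : ℂ → E} (hg : DifferentiableOn ℂ g (ball 0 r⁻¹)) :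
    ContinuousOn (fun t : ℂ => g t⁻¹) (sphere 0 |1|) := by
  have h1 : MapsTo (fun t : ℂ => t⁻¹) (sphere 0 |1|) (ball 0 r⁻¹) := by
    intro t ht
    refine inv_mem_ball hr ?_
    exact lt_norm_of_sphere hr1 ht
  have h2 : ContinuousOn (fun t : ℂ => t⁻¹) (sphere 0 |1|) :=
    continuousOn_inv₀.mono fun t ht => by
      have : ‖t‖ = 1 := by simpa using ht
      rintro rfl
      simp at this
  exact hg.continuousOn.comp h2 h1

theorem circleIntegrable_ball (hr : 0 < r) (hr1 : r < 1) {E : Type*} [NormedAddCommGroup E]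
    [NormedSpace ℂ E] {g : ℂ → E} (hg : DifferentiableOn ℂ g (ball 0 r⁻¹)) :
    CircleIntegrable g 0 1 :=
  ContinuousOn.circleIntegrable' (contOn_sphere hr hr1 hg)

theorem circleIntegrable_inv (hr : 0 < r) (hr1 : r < 1) {E : Type*} [NormedAddCommGroup E]
    [NormedSpace ℂ E] {g : ℂ → E} (hg : DifferentiableOn ℂ g (ball 0 r⁻¹)) :
    CircleIntegrable (fun t : ℂ => g t⁻¹) 0 1 :=
  ContinuousOn.circleIntegrable' (contOn_sphere_inv hr hr1 hg)

theorem poly_diff (p : ℂ[X]) : DifferentiableOn ℂ (fun t => p.eval t) (ball 0 r⁻¹) :=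
  p.differentiable.differentiableOn

theorem inv_eq_conj_of_norm {t : ℂ} (ht : ‖t‖ = 1) : t⁻¹ = conj t :=
  Complex.inv_eq_conj ht

/-- The conjugate-reflected function. -/
theorem conj_reflect_diff {ψ : ℂ → ℂ} (hψ : DifferentiableOn ℂ ψ (ball 0 r⁻¹)) :
    DifferentiableOn ℂ (fun z => conj (ψ (conj z))) (ball 0 r⁻¹) := by
  intro z hz
  have hz' : conj z ∈ ball (0 : ℂ) r⁻¹ := by simpa using hz
  have h1 : DifferentiableAt ℂ ψ (conj z) := hψ.differentiableAt (isOpen_ball.mem_nhds hz')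
  have h2 := h1.conj_conj
  have h3 : DifferentiableAt ℂ (conj ∘ ψ ∘ conj) z := by
    simpa using h2
  exact h3.differentiableWithinAt

/-- Orthogonality of analytic functions inside and outside: `mean (φ(t) conj ψ(1/t)) = φ(0) conj ψ(0)`. -/
theorem av_mul_conj_inv (hr : 0 < r) (hr1 : r < 1) {φ ψ : ℂ → ℂ}
    (hφ : DifferentiableOn ℂ φ (ball 0 r⁻¹)) (hψ : DifferentiableOn ℂ ψ (ball 0 r⁻¹)) :
    circleAverage (fun t => φ t * conj (ψ t⁻¹)) 0 1 = φ 0 * conj (ψ 0) := by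
  have h1 : circleAverage (fun t => φ t * conj (ψ t⁻¹)) 0 1 =
      circleAverage (fun t => φ t * conj (ψ (conj t))) 0 1 :=
    circleAverage_congr_sphere fun t ht => by
      have : ‖t‖ = 1 := by simpa using ht
      simp only [inv_eq_conj_of_norm this]
  have h2 : DifferentiableOn ℂ (fun t => φ t * conj (ψ (conj t))) (ball 0 r⁻¹) :=
    hφ.mul (conj_reflect_diff hψ)
  rw [h1, circleAverage_eq_center hr hr1 h2]
  simp

theorem circleIntegrable_mul_conj_inv (hr : 0 < r) (hr1 : r < 1) {φ ψ : ℂ → ℂ}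
    (hφ : DifferentiableOn ℂ φ (ball 0 r⁻¹)) (hψ : DifferentiableOn ℂ ψ (ball 0 r⁻¹)) :
    CircleIntegrable (fun t => φ t * conj (ψ t⁻¹)) 0 1 :=
  ContinuousOn.circleIntegrable' ((contOn_sphere hr hr1 hφ).mul
    (Complex.continuous_conj.comp_continuousOn (contOn_sphere_inv hr hr1 hψ)))

end means

section tail

variable {G : ℂ → ℂ} {r : ℝ} {c : ℂ} {e : ℂ → ℂ}

/-- Closed curves: the mean of `s(G t) t G'(t)` vanishes. -/
theorem av_poly_deriv (h : ExtMap G r c e) (s : ℂ[X]) :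
    circleAverage (fun t => s.eval (G t) * (t * deriv G t)) 0 1 = 0 := by
  -- a primitive of `s`
  obtain ⟨S, hS⟩ : ∃ S : ℂ[X], derivative S = s := by
    induction s using Polynomial.induction_on' with
    | add p q hp hq =>
      obtain ⟨P, hP⟩ := hp
      obtain ⟨Q, hQ⟩ := hq
      exact ⟨P + Q, by simp [hP, hQ]⟩
    | monomial n a =>
      refine ⟨monomial (n + 1) (a / (n + 1)), ?_⟩
      rw [derivative_monomial]
      congr 1
      have : ((n : ℂ) + 1) ≠ 0 := by exact_mod_cast Nat.succ_ne_zero n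
      push_cast
      field_simp
  rw [circleAverage_eq_circleIntegral one_ne_zero]
  have h0 : (∮ z in C(0, 1), (z - 0)⁻¹ • (s.eval (G z) * (z * deriv G z))) =
      ∮ z in C(0, 1), s.eval (G z) * deriv G z := by
    refine circleIntegral.integral_congr zero_le_one fun z hz => ?_
    have hz1 : ‖z‖ = 1 := by simpa using hz
    have hz0 : z ≠ 0 := by
      rintro rfl
      simp at hz1
    simp only [sub_zero, smul_eq_mul]
    field_simp
  rw [h0]
  have h1 : (∮ z in C(0, 1), s.eval (G z) * deriv G z) = 0 := by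
    refine circleIntegral.integral_eq_zero_of_hasDerivWithinAt' (f := fun z => S.eval (G z))
      fun z hz => ?_
    have hz1 : ‖z‖ = 1 := by simpa using hz
    have hzU : r < ‖z‖ := by rw [hz1]; exact h.r_lt
    have hG : HasDerivAt G (deriv G z) z :=
      (h.diff.differentiableAt (ExtMap.isOpen_ext.mem_nhds hzU)).hasDerivAt
    have hSd : HasDerivAt (fun w => S.eval w) (s.eval (G z)) (G z) := by
      have := S.hasDerivAt (G z)
      rwa [hS] at this
    exact (hSd.comp z hG).hasDerivWithinAt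
  rw [h1]
  simp

/-- **Key identity**: `mean (p(t) g(1/t)) = n(t₀)` when `q ∘ G = p + a₀ + n`. -/
theorem tail_mean (h : ExtMap G r c e) (p q : ℂ[X]) (a₀ : ℂ) {n : ℂ → ℂ}
    (hn : IsTail r n) (hq : ∀ t, r < ‖t‖ → q.eval (G t) = p.eval t + a₀ + n t) {t₀ : ℂ}
    (ht₀ : ‖t₀‖ = 1) {g : ℂ → ℂ} (hg : DifferentiableOn ℂ g (ball 0 r⁻¹)) (hg0 : g 0 = 0)
    (hker : ∀ t, r < ‖t‖ → t ≠ t₀ → t * deriv G t / (G t - G t₀) = t / (t - t₀) + g t⁻¹) :
    circleAverage (fun t => p.eval t * g t⁻¹) 0 1 = n t₀ := by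
  have hr := h.r_pos
  have hr1 := h.r_lt
  obtain ⟨ν, hν, hν0, hnν⟩ := hn
  have ht₀U : r < ‖t₀‖ := by rw [ht₀]; exact hr1
  have ht₀0 : t₀ ≠ 0 := h.ne_zero ht₀U
  set w₀ : ℂ := t₀⁻¹ with hw₀
  have hw₀B : w₀ ∈ ball (0 : ℂ) r⁻¹ := inv_mem_ball hr ht₀U
  have hw₀0 : w₀ ≠ 0 := inv_ne_zero ht₀0
  have htw₀ : t₀ * w₀ = 1 := mul_inv_cancel₀ ht₀0
  have hn₀ : n t₀ = ν w₀ := hnν t₀ ht₀U
  set Q₀ : ℂ := q.eval (G t₀) with hQ₀
  -- divided differences
  obtain ⟨s, hs⟩ : (X - C (G t₀)) ∣ q - C (q.eval (G t₀)) := X_sub_C_dvd_sub_C_eval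
  have hs' : ∀ z, q.eval z - Q₀ = (z - G t₀) * s.eval z := by
    intro z
    have := congrArg (eval z) hs
    simpa using this
  obtain ⟨p1, hp1⟩ : (X - C t₀) ∣ p - C (p.eval t₀) := X_sub_C_dvd_sub_C_eval
  have hp1' : ∀ z, p.eval z - p.eval t₀ = (z - t₀) * p1.eval z := by
    intro z
    have := congrArg (eval z) hp1
    simpa using this
  have hνfac : ∀ w, ν w - ν w₀ = (w - w₀) * dslope ν w₀ w := by
    intro w
    have := sub_smul_dslope ν w₀ w
    simpa using this.symm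
  have hdν : DifferentiableOn ℂ (dslope ν w₀) (ball 0 r⁻¹) := dslope_diff hν hw₀B
  -- the splitting, off `t₀`
  have hsplit : ∀ t, ‖t‖ = 1 → t ≠ t₀ →
      s.eval (G t) * (t * deriv G t) =
        p1.eval t * t + (-w₀ * dslope ν w₀ t⁻¹) + p.eval t * g t⁻¹ +
          (a₀ + ν t⁻¹ - Q₀) * g t⁻¹ := by
    intro t ht htt₀
    have htU : r < ‖t‖ := by rw [ht]; exact hr1
    have ht0 := h.ne_zero htU
    have htt : t - t₀ ≠ 0 := sub_ne_zero.2 htt₀
    have hA : G t - G t₀ ≠ 0 := fun h0 => htt₀ (h.inj htU ht₀U (sub_eq_zero.1 h0))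
    have h1 : s.eval (G t) * (t * deriv G t) = (q.eval (G t) - Q₀) * (t * deriv G t / (G t - G t₀)) := by
      rw [hs' (G t)]
      field_simp
    have h2 : q.eval (G t) - Q₀ = (p.eval t - p.eval t₀) + (ν t⁻¹ - ν w₀) := by
      rw [hq t htU, hQ₀, hq t₀ ht₀U, hnν t htU, hnν t₀ ht₀U]
      ring
    have h3 : (p.eval t - p.eval t₀) * (t / (t - t₀)) = p1.eval t * t := by
      rw [hp1' t]
      field_simp
    have h4 : (ν t⁻¹ - ν w₀) * (t / (t - t₀)) = -w₀ * dslope ν w₀ t⁻¹ := by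
      rw [hνfac t⁻¹]
      have : (t⁻¹ - w₀) * t = - w₀ * (t - t₀) := by
        have e1 : t⁻¹ * t = 1 := inv_mul_cancel₀ ht0
        calc (t⁻¹ - w₀) * t = t⁻¹ * t - w₀ * t := by ring
          _ = t₀ * w₀ - w₀ * t := by rw [e1, htw₀]
          _ = - w₀ * (t - t₀) := by ring
      calc (t⁻¹ - w₀) * dslope ν w₀ t⁻¹ * (t / (t - t₀))
          = ((t⁻¹ - w₀) * t) * dslope ν w₀ t⁻¹ / (t - t₀) := by ring
        _ = -w₀ * dslope ν w₀ t⁻¹ := by
          rw [this]
          field_simp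
    have h5 : q.eval (G t) - Q₀ = p.eval t + (a₀ + ν t⁻¹ - Q₀) := by
      rw [hq t htU, hnν t htU]
      ring
    rw [h1, hker t htU htt₀, mul_add]
    nth_rewrite 1 [h2]
    rw [add_mul, h3, h4, h5, add_mul]
    ring
  -- means of the pieces
  have hI1 : CircleIntegrable (fun t => p1.eval t * t) 0 1 :=
    circleIntegrable_ball hr hr1 ((poly_diff p1).mul differentiableOn_id)
  have hI2 : CircleIntegrable (fun t : ℂ => -w₀ * dslope ν w₀ t⁻¹) 0 1 :=
    circleIntegrable_inv hr hr1 (g := fun w => -w₀ * dslope ν w₀ w) (hdν.const_mul _)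
  have hI3 : CircleIntegrable (fun t : ℂ => p.eval t * g t⁻¹) 0 1 :=
    ContinuousOn.circleIntegrable' ((contOn_sphere hr hr1 (poly_diff p)).mul
      (contOn_sphere_inv hr hr1 hg))
  have hdiff4 : DifferentiableOn ℂ (fun w => (a₀ + ν w - Q₀) * g w) (ball 0 r⁻¹) :=
    (((differentiableOn_const a₀).add hν).sub (differentiableOn_const Q₀)).mul hg
  have hI4 : CircleIntegrable (fun t : ℂ => (a₀ + ν t⁻¹ - Q₀) * g t⁻¹) 0 1 :=
    circleIntegrable_inv hr hr1 (g := fun w => (a₀ + ν w - Q₀) * g w) hdiff4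
  have hM1 : circleAverage (fun t => p1.eval t * t) 0 1 = 0 := by
    rw [circleAverage_eq_center hr hr1 (g := fun t => p1.eval t * t)
      ((poly_diff p1).mul differentiableOn_id)]
    simp
  have hM2 : circleAverage (fun t : ℂ => -w₀ * dslope ν w₀ t⁻¹) 0 1 = - ν w₀ := by
    rw [circleAverage_inv_eq hr hr1 (g := fun w => -w₀ * dslope ν w₀ w) (hdν.const_mul _)]
    have := hνfac 0
    rw [hν0] at this
    simp only [zero_sub] at this
    linear_combination - this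
  have hM4 : circleAverage (fun t : ℂ => (a₀ + ν t⁻¹ - Q₀) * g t⁻¹) 0 1 = 0 := by
    rw [circleAverage_inv_eq hr hr1 (g := fun w => (a₀ + ν w - Q₀) * g w) hdiff4, hg0, mul_zero]
  have hzero := av_poly_deriv h s
  have hI12 : CircleIntegrable (fun t : ℂ => p1.eval t * t + -w₀ * dslope ν w₀ t⁻¹) 0 1 :=
    hI1.add hI2
  have hI123 : CircleIntegrable
      (fun t : ℂ => p1.eval t * t + -w₀ * dslope ν w₀ t⁻¹ + p.eval t * g t⁻¹) 0 1 := hI12.add hI3
  rw [circleAverage_congr_off hsplit, circleAverage_fun_add hI123 hI4,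
    circleAverage_fun_add hI12 hI3, circleAverage_fun_add hI1 hI2, hM1, hM2, hM4] at hzero
  rw [hn₀]
  linear_combination hzero

end tail

end Crest.Agent.Lib.Crouzeix
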