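import Crest.Agent.Lib.Crouzeix.KernelMean

set_option autoImplicit false

namespace Crest.Agent.Lib.Crouzeix

open Complex Metric Set Filter Topology MeasureTheory Real Polynomial
open scoped ComplexConjugate

section ker

variable {G : ℂ → ℂ} {r : ℝ} {c : ℂ} {e : ℂ → ℂ}

/-- The doubly stochastic kernel. -/
noncomputable def kerN (G : ℂ → ℂ) (t₀ t : ℂ) : ℝ := 2 * (t * deriv G t / (G t - G t₀)).re

theorem kerN_nonneg (h : ExtMap G r c e) {t t₀ : ℂ} (ht : ‖t‖ = 1) (ht₀ : ‖t₀‖ = 1) :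
    0 ≤ kerN G t₀ t := by
  unfold kerN
  by_cases hne : t = t₀
  · subst hne
    simp
  · have := h.tangent t t₀ ht ht₀ hne
    positivity

theorem re_div_sub {t t₀ : ℂ} (ht : ‖t‖ = 1) (ht₀ : ‖t₀‖ = 1) (hne : t ≠ t₀) :
    (t / (t - t₀)).re = 1 / 2 := by
  have ht0 : t ≠ 0 := by
    rintro rfl
    simp at ht
  have ht₀0 : t₀ ≠ 0 := by
    rintro rfl
    simp at ht₀
  have hs : t - t₀ ≠ 0 := sub_ne_zero.2 hne
  have hs' : t₀ - t ≠ 0 := sub_ne_zero.2 hne.symm
  have h1 : conj (t / (t - t₀)) = t₀ / (t₀ - t) := by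
    rw [map_div₀, map_sub, ← inv_eq_conj_of_norm ht, ← inv_eq_conj_of_norm ht₀]
    field_simp
  have h2 := Complex.add_conj (t / (t - t₀))
  rw [h1] at h2
  have h3 : t / (t - t₀) + t₀ / (t₀ - t) = 1 := by
    have : t₀ - t = -(t - t₀) := by ring
    rw [this, div_neg, ← sub_eq_add_neg, ← sub_div, div_self hs]
  rw [h3] at h2
  have h4 : (2 * (t / (t - t₀)).re : ℝ) = 1 := by
    exact_mod_cast h2.symm
  linarith

theorem kerN_eq_of_kernel {t t₀ w : ℂ} (ht : ‖t‖ = 1) (ht₀ : ‖t₀‖ = 1) (hne : t ≠ t₀)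
    (hk : t * deriv G t / (G t - G t₀) = t / (t - t₀) + w) :
    kerN G t₀ t = 1 + 2 * w.re := by
  unfold kerN
  rw [hk, add_re, re_div_sub ht ht₀ hne]
  ring

/-- Mean of `1 + 2 re (g (1/t))`. -/
theorem av_one_add_re (hr : 0 < r) (hr1 : r < 1) {g : ℂ → ℂ}
    (hg : DifferentiableOn ℂ g (ball 0 r⁻¹)) (hg0 : g 0 = 0) :
    circleAverage (fun t => 1 + 2 * (g t⁻¹).re) 0 1 = 1 := by
  have hc := contOn_sphere_inv hr hr1 hg
  have hIr : ContinuousOn (fun t : ℂ => (g t⁻¹).re) (sphere 0 |1|) :=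
    Complex.continuous_re.comp_continuousOn hc
  have hav : circleAverage (fun t => (g t⁻¹).re) 0 1 = 0 := by
    have h1 := Complex.reCLM.circleAverage_comp_comm (circleIntegrable_inv hr hr1 hg)
    rw [circleAverage_inv_eq hr hr1 hg, hg0] at h1
    have e3 : (⇑Complex.reCLM ∘ fun t => g t⁻¹) = fun t => (g t⁻¹).re := rfl
    rw [e3] at h1
    simpa using h1
  have h2 : circleAverage (fun t => (2 : ℝ) * (g t⁻¹).re) 0 1 = 0 := by
    have : circleAverage (fun t => (2 : ℝ) • (g t⁻¹).re) 0 1 = (2 : ℝ) • circleAverage (fun t => (g t⁻¹).re) 0 1 :=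
      circleAverage_fun_smul
    simpa [hav] using this
  have hI : CircleIntegrable (fun t => (2 : ℝ) * (g t⁻¹).re) 0 1 :=
    ContinuousOn.circleIntegrable' (continuousOn_const.mul hIr)
  rw [circleAverage_fun_add (f₁ := fun _ => (1 : ℝ)) (circleIntegrable_const _ _ _) hI, h2,
    circleAverage_const]
  ring

theorem av_kerN_t (h : ExtMap G r c e) {t₀ : ℂ} (ht₀ : ‖t₀‖ = 1) :
    circleAverage (fun t => kerN G t₀ t) 0 1 = 1 := by
  have hr := h.r_pos
  have hr1 := h.r_lt
  have ht₀U : r < ‖t₀‖ := by rw [ht₀]; exact hr1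
  obtain ⟨g, hg, hg0, hker⟩ := exists_kernel_t h ht₀U
  have h1 : circleAverage (fun t => kerN G t₀ t) 0 1 =
      circleAverage (fun t => 1 + 2 * (g t⁻¹).re) 0 1 :=
    circleAverage_congr_off fun t ht hne =>
      kerN_eq_of_kernel ht ht₀ hne (hker t (by rw [ht]; exact hr1) hne)
  rw [h1, av_one_add_re hr hr1 hg hg0]

theorem av_kerN_t0 (h : ExtMap G r c e) {t : ℂ} (ht : ‖t‖ = 1) :
    circleAverage (fun t₀ => kerN G t₀ t) 0 1 = 1 := by
  have hr := h.r_pos
  have hr1 := h.r_lt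
  have htU : r < ‖t‖ := by rw [ht]; exact hr1
  obtain ⟨k, hk, hk0, hker⟩ := exists_kernel_t0 h htU
  have h1 : circleAverage (fun t₀ => kerN G t₀ t) 0 1 =
      circleAverage (fun t₀ => 1 + 2 * (k t₀⁻¹).re) 0 1 :=
    circleAverage_congr_off (t₀ := t) fun t₀ ht₀ hne =>
      kerN_eq_of_kernel ht ht₀ hne.symm (hker t₀ (by rw [ht₀]; exact hr1) hne)
  rw [h1, av_one_add_re hr hr1 hk hk0]

/-- `N` against a polynomial: `mean (p(t) N(t₀,t)) = n(t₀)`. -/
theorem tail_formula (h : ExtMap G r c e) (p q : ℂ[X]) (hp0 : p.eval 0 = 0) (a₀ : ℂ) {n : ℂ → ℂ}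
    (hn : IsTail r n) (hq : ∀ t, r < ‖t‖ → q.eval (G t) = p.eval t + a₀ + n t) {t₀ : ℂ}
    (ht₀ : ‖t₀‖ = 1) :
    circleAverage (fun t => p.eval t * (kerN G t₀ t : ℂ)) 0 1 = n t₀ := by
  have hr := h.r_pos
  have hr1 := h.r_lt
  have ht₀U : r < ‖t₀‖ := by rw [ht₀]; exact hr1
  obtain ⟨g, hg, hg0, hker⟩ := exists_kernel_t h ht₀U
  have hm := tail_mean h p q a₀ hn hq ht₀ hg hg0 hker
  have h1 : circleAverage (fun t => p.eval t * (kerN G t₀ t : ℂ)) 0 1 =
      circleAverage (fun t => p.eval t + p.eval t * g t⁻¹ + p.eval t * conj (g t⁻¹)) 0 1 := by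
    refine circleAverage_congr_off (t₀ := t₀) fun t ht hne => ?_
    rw [kerN_eq_of_kernel ht ht₀ hne (hker t (by rw [ht]; exact hr1) hne)]
    have h2 := Complex.add_conj (g t⁻¹)
    push_cast
    rw [show (2 : ℂ) * ((g t⁻¹).re : ℂ) = ((2 * (g t⁻¹).re : ℝ) : ℂ) by push_cast; ring, ← h2]
    ring
  have hcp := contOn_sphere hr hr1 (poly_diff (r := r) p)
  have hcg := contOn_sphere_inv hr hr1 hg
  have hI1 : CircleIntegrable (fun t => p.eval t) 0 1 := ContinuousOn.circleIntegrable' hcp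
  have hI2 : CircleIntegrable (fun t => p.eval t * g t⁻¹) 0 1 :=
    ContinuousOn.circleIntegrable' (hcp.mul hcg)
  have hI3 : CircleIntegrable (fun t => p.eval t * conj (g t⁻¹)) 0 1 :=
    circleIntegrable_mul_conj_inv hr hr1 (poly_diff p) hg
  have hI12 : CircleIntegrable (fun t => p.eval t + p.eval t * g t⁻¹) 0 1 := hI1.add hI2
  rw [h1, circleAverage_fun_add hI12 hI3, circleAverage_fun_add hI1 hI2, hm,
    av_mul_conj_inv hr hr1 (poly_diff p) hg, circleAverage_eq_center hr hr1 (poly_diff (r := r) p), hp0]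
  simp

/-- Integrability of a continuous function times the kernel. -/
theorem circleIntegrable_mul_kerN (h : ExtMap G r c e) {f : ℂ → ℝ}
    (hf : ContinuousOn f (sphere 0 |1|)) {t₀ : ℂ} (ht₀ : ‖t₀‖ = 1) :
    CircleIntegrable (fun t => f t * kerN G t₀ t) 0 1 := by
  have hr := h.r_pos
  have hr1 := h.r_lt
  have ht₀U : r < ‖t₀‖ := by rw [ht₀]; exact hr1
  obtain ⟨g, hg, hg0, hker⟩ := exists_kernel_t h ht₀U
  refine circleIntegrable_congr_off (t₀ := t₀) (f₂ := fun t => f t * (1 + 2 * (g t⁻¹).re))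
    (fun t ht hne => ?_) ?_
  · rw [kerN_eq_of_kernel ht ht₀ hne (hker t (by rw [ht]; exact hr1) hne)]
  · have hc := contOn_sphere_inv hr hr1 hg
    have hIr : ContinuousOn (fun t : ℂ => (g t⁻¹).re) (sphere 0 |1|) :=
      Complex.continuous_re.comp_continuousOn hc
    exact ContinuousOn.circleIntegrable' (hf.mul (continuousOn_const.add (continuousOn_const.mul hIr)))

/-- Pointwise (in `t₀`) Cauchy-Schwarz. -/
theorem normSq_tail_le (h : ExtMap G r c e) (p q : ℂ[X]) (hp0 : p.eval 0 = 0) (a₀ : ℂ) {n : ℂ → ℂ}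
    (hn : IsTail r n) (hq : ∀ t, r < ‖t‖ → q.eval (G t) = p.eval t + a₀ + n t) {t₀ : ℂ}
    (ht₀ : ‖t₀‖ = 1) :
    Complex.normSq (n t₀) ≤
      circleAverage (fun t => Complex.normSq (p.eval t) * kerN G t₀ t) 0 1 := by
  have hr := h.r_pos
  have hr1 := h.r_lt
  set l : ℂ := n t₀ with hl
  have hnn : 0 ≤ circleAverage (fun t => Complex.normSq (p.eval t - l) * kerN G t₀ t) 0 1 := by
    refine circleAverage_nonneg_of_nonneg fun t ht => ?_
    exact mul_nonneg (Complex.normSq_nonneg _) (kerN_nonneg h (by simpa using ht) ht₀)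
  have hcp := contOn_sphere hr hr1 (poly_diff (r := r) p)
  have hnsq : Continuous Complex.normSq := Complex.continuous_normSq
  have hc1 : ContinuousOn (fun t => Complex.normSq (p.eval t)) (sphere 0 |1|) :=
    hnsq.comp_continuousOn hcp
  have hI1 := circleIntegrable_mul_kerN h hc1 ht₀
  have hI2 : CircleIntegrable (fun t => kerN G t₀ t) 0 1 := by
    simpa using circleIntegrable_mul_kerN h (f := fun _ => 1) continuousOn_const ht₀
  -- the complex integrability
  have hIC : CircleIntegrable (fun t => p.eval t * (kerN G t₀ t : ℂ)) 0 1 := by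
    have ht₀U : r < ‖t₀‖ := by rw [ht₀]; exact hr1
    obtain ⟨g, hg, hg0, hker⟩ := exists_kernel_t h ht₀U
    refine circleIntegrable_congr_off (t₀ := t₀)
      (f₂ := fun t => p.eval t * ((1 + 2 * (g t⁻¹).re : ℝ) : ℂ)) (fun t ht hne => ?_) ?_
    · rw [kerN_eq_of_kernel ht ht₀ hne (hker t (by rw [ht]; exact hr1) hne)]
    · have hc := contOn_sphere_inv hr hr1 hg
      have hIr : ContinuousOn (fun t : ℂ => (g t⁻¹).re) (sphere 0 |1|) :=
        Complex.continuous_re.comp_continuousOn hc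
      have hIr' : ContinuousOn (fun t : ℂ => ((1 + 2 * (g t⁻¹).re : ℝ) : ℂ)) (sphere 0 |1|) :=
        Complex.continuous_ofReal.comp_continuousOn (continuousOn_const.add (continuousOn_const.mul hIr))
      exact ContinuousOn.circleIntegrable' (hcp.mul hIr')
  have hF := tail_formula h p q hp0 a₀ hn hq ht₀
  -- the middle term
  have hmid : circleAverage (fun t => ((p.eval t * conj l) * (kerN G t₀ t : ℂ)).re) 0 1 =
      Complex.normSq l := by
    have e1 : circleAverage (fun t => (p.eval t * conj l) * (kerN G t₀ t : ℂ)) 0 1 = l * conj l := by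
      have : (fun t => (p.eval t * conj l) * (kerN G t₀ t : ℂ)) =
          fun t => (conj l) • (p.eval t * (kerN G t₀ t : ℂ)) := by
        funext t
        rw [smul_eq_mul]
        ring
      rw [this, circleAverage_fun_smul, hF, smul_eq_mul, mul_comm, ← hl]
    have hI : CircleIntegrable (fun t => (p.eval t * conj l) * (kerN G t₀ t : ℂ)) 0 1 := by
      have : (fun t => (p.eval t * conj l) * (kerN G t₀ t : ℂ)) =
          fun t => (conj l) * (p.eval t * (kerN G t₀ t : ℂ)) := by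
        funext t
        ring
      rw [this]
      exact hIC.const_mul _
    have e2 := Complex.reCLM.circleAverage_comp_comm hI
    have e3 : (⇑Complex.reCLM ∘ fun t => (p.eval t * conj l) * (kerN G t₀ t : ℂ)) =
        fun t => ((p.eval t * conj l) * (kerN G t₀ t : ℂ)).re := rfl
    rw [e3] at e2
    rw [e2, e1]
    simp [Complex.mul_conj]
  -- expansion
  have hexp : (fun t => Complex.normSq (p.eval t - l) * kerN G t₀ t) =
      fun t => Complex.normSq (p.eval t) * kerN G t₀ t -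
        2 * ((p.eval t * conj l) * (kerN G t₀ t : ℂ)).re + Complex.normSq l * kerN G t₀ t := by
    funext t
    rw [Complex.normSq_sub, Complex.re_mul_ofReal]
    ring
  have hImid : CircleIntegrable (fun t => 2 * ((p.eval t * conj l) * (kerN G t₀ t : ℂ)).re) 0 1 := by
    have : (fun t => 2 * ((p.eval t * conj l) * (kerN G t₀ t : ℂ)).re) =
        fun t => (2 * (p.eval t * conj l).re) * kerN G t₀ t := by
      funext t
      rw [Complex.re_mul_ofReal]
      ring
    rw [this]
    refine circleIntegrable_mul_kerN h ?_ ht₀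
    exact continuousOn_const.mul (Complex.continuous_re.comp_continuousOn (hcp.mul continuousOn_const))
  have hI3 : CircleIntegrable (fun t => Complex.normSq l * kerN G t₀ t) 0 1 :=
    circleIntegrable_mul_kerN h continuousOn_const ht₀
  have hI4 : CircleIntegrable (fun t => Complex.normSq (p.eval t) * kerN G t₀ t -
      2 * ((p.eval t * conj l) * (kerN G t₀ t : ℂ)).re) 0 1 := hI1.sub hImid
  rw [hexp, circleAverage_fun_add hI4 hI3, circleAverage_fun_sub hI1 hImid] at hnn
  have e4 : circleAverage (fun t => 2 * ((p.eval t * conj l) * (kerN G t₀ t : ℂ)).re) 0 1 =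
      2 * Complex.normSq l := by
    have := circleAverage_fun_smul (a := (2 : ℝ))
      (f := fun t => ((p.eval t * conj l) * (kerN G t₀ t : ℂ)).re) (c := 0) (R := 1)
    simp only [smul_eq_mul] at this
    rw [this, hmid]
  have e5 : circleAverage (fun t => Complex.normSq l * kerN G t₀ t) 0 1 = Complex.normSq l := by
    have := circleAverage_fun_smul (a := Complex.normSq l) (f := fun t => kerN G t₀ t) (c := 0) (R := 1)
    simp only [smul_eq_mul] at this
    rw [this, av_kerN_t h ht₀, mul_one]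
  rw [e4, e5] at hnn
  linarith

end ker

end Crest.Agent.Lib.Crouzeix
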