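import Crest.Agent.Lib.Crouzeix.RiemannCore

/-!
# Exterior Riemann map of a compact convex set
-/

set_option autoImplicit false

open Complex Metric Set Filter Topology

namespace Crest.Agent.Lib.Crouzeix

/-- A biholomorphic inverse: an injective holomorphic map of a connected open set onto an open
set, not locally constant, has a holomorphic inverse. -/
lemma exists_holo_inverse {Y D : Set ℂ} (hYo : IsOpen Y) (hYc : IsPreconnected Y) (hDo : IsOpen D)
    {φ : ℂ → ℂ} (hd : DifferentiableOn ℂ φ Y) (hinj : InjOn φ Y) (himg : φ '' Y = D)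
    {a : ℂ} (ha : a ∈ Y) (hda : deriv φ a ≠ 0) :
    ∃ f : ℂ → ℂ, DifferentiableOn ℂ f D ∧ MapsTo f D Y ∧ (∀ w ∈ D, φ (f w) = w) ∧
      (∀ z ∈ Y, f (φ z) = z) := by
  classical
  have han : AnalyticOnNhd ℂ φ Y := hd.analyticOnNhd hYo
  have hφa' : AnalyticOnNhd ℂ (deriv φ) Y := han.deriv
  set f : ℂ → ℂ := Function.invFunOn φ Y with hf
  have hfY : MapsTo f D Y := by
    intro w hw
    rw [← himg] at hw
    exact Function.invFunOn_mem hw
  have hφf : ∀ w ∈ D, φ (f w) = w := by
    intro w hw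
    rw [← himg] at hw
    exact Function.invFunOn_eq hw
  have hfφ : ∀ z ∈ Y, f (φ z) = z := by
    intro z hz
    apply hinj (hfY (by rw [← himg]; exact mem_image_of_mem _ hz)) hz
    exact hφf _ (by rw [← himg]; exact mem_image_of_mem _ hz)
  -- open mapping
  have hopen : ∀ s ⊆ Y, IsOpen s → IsOpen (φ '' s) := by
    rcases han.is_constant_or_isOpen hYc with ⟨w, hw⟩ | h
    · exfalso
      have : φ =ᶠ[𝓝 a] fun _ => w := by
        filter_upwards [hYo.mem_nhds ha] with z hz using hw z hz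
      apply hda
      rw [this.deriv_eq]
      simp
    · exact h
  have hcont : ∀ w ∈ D, ContinuousAt f w := by
    intro w hw
    rw [Metric.continuousAt_iff']
    intro ε hε
    set s := ball (f w) ε ∩ Y with hs
    have hso : IsOpen s := isOpen_ball.inter hYo
    have himgo := hopen s inter_subset_right hso
    have hwmem : w ∈ φ '' s :=
      ⟨f w, ⟨mem_ball_self hε, hfY hw⟩, hφf w hw⟩
    filter_upwards [himgo.mem_nhds hwmem] with y hy
    obtain ⟨z, hz, rfl⟩ := hy
    rw [hfφ z hz.2]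
    exact hz.1
  have hgood : ∀ w ∈ D, deriv φ (f w) ≠ 0 → HasDerivAt f (deriv φ (f w))⁻¹ w := by
    intro w hw hne
    have h1 : HasDerivAt φ (deriv φ (f w)) (f w) :=
      (hd.differentiableAt (hYo.mem_nhds (hfY hw))).hasDerivAt
    refine HasDerivAt.of_local_left_inverse (hcont w hw) h1 hne ?_
    filter_upwards [hDo.mem_nhds hw] with y hy using hφf y hy
  refine ⟨f, ?_, hfY, hφf, hfφ⟩
  intro w hw
  by_cases hne : deriv φ (f w) = 0
  · -- removable singularity at the isolated critical value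
    have hiso : ∀ᶠ z in 𝓝[≠] (f w), deriv φ z ≠ 0 := by
      rcases (hφa' (f w) (hfY hw)).eventually_eq_zero_or_eventually_ne_zero with h | h
      · exfalso
        have h2 : EqOn (deriv φ) (fun _ => (0 : ℂ)) Y :=
          hφa'.eqOn_of_preconnected_of_eventuallyEq analyticOnNhd_const hYc (hfY hw) h
        exact hda (h2 ha)
      · exact h
    obtain ⟨ρ, hρ, hρne⟩ := Metric.mem_nhdsWithin_iff.mp hiso
    -- a neighbourhood of `w` in `D` mapped into `ball (f w) ρ`
    have hnbd : D ∩ f ⁻¹' ball (f w) ρ ∈ 𝓝 w :=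
      Filter.inter_mem (hDo.mem_nhds hw) ((hcont w hw).preimage_mem_nhds (ball_mem_nhds _ hρ))
    have hdiff : DifferentiableOn ℂ f ((D ∩ f ⁻¹' ball (f w) ρ) \ {w}) := by
      rintro y ⟨⟨hyD, hyb⟩, hyw⟩
      have hfy : f y ≠ f w := by
        intro h
        apply hyw
        rw [mem_singleton_iff, ← hφf y hyD, h, hφf w hw]
      have h1 : deriv φ (f y) ≠ 0 := hρne ⟨hyb, hfy⟩
      exact (hgood y hyD h1).differentiableAt.differentiableWithinAt
    have := (Complex.differentiableOn_compl_singleton_and_continuousAt_iff hnbd).mp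
      ⟨hdiff, hcont w hw⟩
    exact (this.differentiableAt hnbd).differentiableWithinAt
  · exact (hgood w hw hne).differentiableAt.differentiableWithinAt

/-- Exterior Riemann map of a compact convex set with nonempty interior: `G` is holomorphic and
injective on `{1 < ‖t‖}`, its image is the complement of `K`, and `G t = c * t + E (t⁻¹)` with `E`
holomorphic on the open unit disc and `c ≠ 0`. -/
theorem exists_exterior_map (K : Set ℂ) (hK : IsCompact K) (hc : Convex ℝ K)
    (hi : (interior K).Nonempty) :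
    ∃ (G E : ℂ → ℂ) (c : ℂ), c ≠ 0 ∧
      DifferentiableOn ℂ G {t : ℂ | 1 < ‖t‖} ∧
      InjOn G {t : ℂ | 1 < ‖t‖} ∧
      G '' {t : ℂ | 1 < ‖t‖} = Kᶜ ∧
      DifferentiableOn ℂ E (ball (0 : ℂ) 1) ∧
      ∀ t : ℂ, 1 < ‖t‖ → G t = c * t + E t⁻¹ := by
  classical
  obtain ⟨z0, hz0⟩ := hi
  obtain ⟨δ, hδ, hδK⟩ := Metric.nhds_basis_closedBall.mem_iff.mp (mem_interior_iff_mem_nhds.mp hz0)
  have hz0K : z0 ∈ K := interior_subset hz0
  obtain ⟨R, hR0, hRK⟩ : ∃ R : ℝ, 0 < R ∧ K ⊆ ball z0 R := by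
    obtain ⟨R, hR⟩ := hK.isBounded.subset_ball z0
    exact ⟨max R 1, by positivity, hR.trans (ball_subset_ball (le_max_left _ _))⟩
  set Y : Set ℂ := {w | w = 0 ∨ z0 + w⁻¹ ∉ K} with hY
  have h0 : (0 : ℂ) ∈ Y := Or.inl rfl
  have hYo : IsOpen Y := by
    rw [isOpen_iff_mem_nhds]
    intro w hw
    by_cases hw0 : w = 0
    · subst hw0
      have : ball (0 : ℂ) R⁻¹ ⊆ Y := by
        intro y hy
        by_cases hy0 : y = 0
        · exact Or.inl hy0
        · right
          intro hyK
          have h1 := mem_ball.mp (hRK hyK)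
          rw [dist_eq_norm, add_sub_cancel_left, norm_inv] at h1
          have h2 := mem_ball.mp hy
          rw [dist_zero_right] at h2
          have h3 : 0 < ‖y‖ := norm_pos_iff.mpr hy0
          have h5 : R⁻¹ < ‖y‖ := (inv_lt_comm₀ h3 hR0).mp h1
          linarith
      exact Filter.mem_of_superset (ball_mem_nhds _ (by positivity)) this
    · have hwK : z0 + w⁻¹ ∉ K := hw.resolve_left hw0
      have hcont : ContinuousAt (fun y : ℂ => z0 + y⁻¹) w :=
        continuousAt_const.add (continuousAt_inv₀ hw0)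
      have hopen : Kᶜ ∈ 𝓝 (z0 + w⁻¹) := hK.isClosed.isOpen_compl.mem_nhds hwK
      filter_upwards [hcont.preimage_mem_nhds hopen] with y hy
      exact Or.inr hy
  have hYb : Bornology.IsBounded Y := by
    refine (isBounded_ball (x := (0 : ℂ)) (r := δ⁻¹ + 1)).subset ?_
    intro w hw
    rw [mem_ball, dist_zero_right]
    by_cases hw0 : w = 0
    · subst hw0
      simp only [norm_zero]
      positivity
    · have hwK : z0 + w⁻¹ ∉ K := hw.resolve_left hw0
      have h1 : δ < ‖w⁻¹‖ := by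
        by_contra hcon
        push Not at hcon
        apply hwK
        apply hδK
        rw [mem_closedBall, dist_eq_norm, add_sub_cancel_left]
        exact hcon
      rw [norm_inv] at h1
      have h3 : 0 < ‖w‖ := norm_pos_iff.mpr hw0
      have h5 : ‖w‖ < δ⁻¹ := (lt_inv_comm₀ hδ h3).mp h1
      linarith
  have hst : StarConvex ℝ (0 : ℂ) Y := by
    intro w hw a b ha hb hab
    simp only [smul_zero, zero_add]
    by_cases hb0 : b = 0
    · left
      simp [hb0]
    by_cases hw0 : w = 0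
    · left
      simp [hw0]
    right
    have hbpos : 0 < b := lt_of_le_of_ne hb (Ne.symm hb0)
    intro hK'
    have hwK : z0 + w⁻¹ ∉ K := hw.resolve_left hw0
    apply hwK
    have hmem := hc hz0K hK' ha hb hab
    have hbc : (b : ℂ) ≠ 0 := by exact_mod_cast hb0
    have heq : a • z0 + b • (z0 + (b • w)⁻¹) = z0 + w⁻¹ := by
      have hsum : (a : ℂ) + b = 1 := by exact_mod_cast hab
      simp only [Complex.real_smul]
      field_simp
      linear_combination (z0 * w) * hsum
    rwa [heq] at hmem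
  obtain ⟨φ, hφ, himg, hd0⟩ := riemann_star hYo hYb h0 hst
  have hYs : IsSimplyConnected Y := by
    have := hst.contractibleSpace ⟨0, h0⟩
    exact SimplyConnectedSpace.ofContractible _
  have hYc : IsPreconnected Y := hYs.isPathConnected.isConnected.isPreconnected
  obtain ⟨f, hfd, hfY, hφf, hfφ⟩ := exists_holo_inverse hYo hYc isOpen_ball hφ.diff hφ.inj himg h0 hd0
  have hf0 : f 0 = 0 := by
    have := hfφ 0 h0
    rwa [hφ.zero] at this
  have hfne : ∀ s ∈ ball (0 : ℂ) 1, s ≠ 0 → f s ≠ 0 := by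
    intro s hs hs0 hfs
    apply hs0
    rw [← hφf s hs, hfs, hφ.zero]
  have hfHas : HasDerivAt f (deriv f 0) 0 :=
    (hfd.differentiableAt (isOpen_ball.mem_nhds (mem_ball_self one_pos))).hasDerivAt
  have hdf0 : deriv f 0 ≠ 0 := by
    intro hz
    have h1 : HasDerivAt φ (deriv φ 0) (f 0) := by
      rw [hf0]
      exact (hφ.diff.differentiableAt (hYo.mem_nhds h0)).hasDerivAt
    have h2 := h1.comp (0 : ℂ) hfHas
    have h3 : (φ ∘ f) =ᶠ[𝓝 0] id := by
      filter_upwards [isOpen_ball.mem_nhds (mem_ball_self (one_pos))] with s hs using hφf s hs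
    have h4 := (h2.congr_of_eventuallyEq h3.symm).unique (hasDerivAt_id (0 : ℂ))
    rw [hz, mul_zero] at h4
    exact zero_ne_one h4
  -- the function `k = f s / s`
  set k : ℂ → ℂ := dslope f 0 with hk
  have hball : ball (0 : ℂ) 1 ∈ 𝓝 (0 : ℂ) := ball_mem_nhds _ one_pos
  have hkd : DifferentiableOn ℂ k (ball (0 : ℂ) 1) :=
    (Complex.differentiableOn_dslope hball).mpr hfd
  have hkne : ∀ s ∈ ball (0 : ℂ) 1, k s ≠ 0 := by
    intro s hs
    by_cases hs0 : s = 0
    · subst hs0
      rw [hk, dslope_same]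
      exact hdf0
    · rw [hk, dslope_of_ne _ hs0, slope_def_field, hf0, sub_zero, sub_zero]
      exact div_ne_zero (hfne s hs hs0) hs0
  set kinv : ℂ → ℂ := fun s => (k s)⁻¹ with hkinv
  have hkinvd : DifferentiableOn ℂ kinv (ball (0 : ℂ) 1) := hkd.inv hkne
  set c : ℂ := (deriv f 0)⁻¹ with hc0
  have hk0 : k 0 = deriv f 0 := by rw [hk, dslope_same]
  set E : ℂ → ℂ := fun s => z0 + dslope kinv 0 s with hE
  have hEd : DifferentiableOn ℂ E (ball (0 : ℂ) 1) :=
    ((Complex.differentiableOn_dslope hball).mpr hkinvd).const_add z0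
  set G : ℂ → ℂ := fun t => z0 + (f t⁻¹)⁻¹ with hG
  have hinv_mem : ∀ t : ℂ, 1 < ‖t‖ → t⁻¹ ∈ ball (0 : ℂ) 1 := by
    intro t ht
    rw [mem_ball, dist_zero_right, norm_inv]
    exact inv_lt_one_of_one_lt₀ ht
  have ht_ne : ∀ t : ℂ, 1 < ‖t‖ → t ≠ 0 := by
    intro t ht h
    rw [h, norm_zero] at ht
    linarith
  have hinv_ne : ∀ t : ℂ, 1 < ‖t‖ → t⁻¹ ≠ 0 := fun t ht => inv_ne_zero (ht_ne t ht)
  refine ⟨G, E, c, inv_ne_zero hdf0, ?_, ?_, ?_, hEd, ?_⟩
  · -- differentiability
    intro t ht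
    have ht' : 1 < ‖t‖ := ht
    have hne : t ≠ 0 := ht_ne t ht'
    have h1 : DifferentiableAt ℂ (fun t : ℂ => t⁻¹) t := differentiableAt_inv hne
    have h2 : DifferentiableAt ℂ f t⁻¹ :=
      hfd.differentiableAt (isOpen_ball.mem_nhds (hinv_mem t ht'))
    have h3 : DifferentiableAt ℂ (fun t : ℂ => f t⁻¹) t := h2.comp t h1
    exact ((differentiableAt_const z0).add (h3.inv (hfne _ (hinv_mem t ht') (hinv_ne t ht')))).differentiableWithinAt
  · -- injectivity
    intro t ht t' ht' h
    have h1 : (f t⁻¹)⁻¹ = (f t'⁻¹)⁻¹ := add_left_cancel h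
    have h2 : f t⁻¹ = f t'⁻¹ := inv_injective h1
    have h3 : t⁻¹ = t'⁻¹ := by
      rw [← hφf _ (hinv_mem t ht), h2, hφf _ (hinv_mem t' ht')]
    exact inv_injective h3
  · -- image
    ext z
    constructor
    · rintro ⟨t, ht, rfl⟩
      have ht' : 1 < ‖t‖ := ht
      have hmem := hfY (hinv_mem t ht')
      exact hmem.resolve_left (hfne _ (hinv_mem t ht') (hinv_ne t ht'))
    · intro hz
      have hzK : z ∉ K := hz
      have hne : z - z0 ≠ 0 := by
        intro h
        apply hzK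
        rw [sub_eq_zero.mp h]
        exact hz0K
      set w : ℂ := (z - z0)⁻¹ with hw
      have hw0 : w ≠ 0 := inv_ne_zero hne
      have hwY : w ∈ Y := by
        right
        rw [hw, inv_inv, add_sub_cancel]
        exact hzK
      have hφw : ‖φ w‖ < 1 := by simpa using hφ.maps hwY
      have hφw0 : φ w ≠ 0 := by
        intro h
        apply hw0
        have := hφ.inj hwY h0 (h.trans hφ.zero.symm)
        exact this
      refine ⟨(φ w)⁻¹, ?_, ?_⟩
      · show 1 < ‖(φ w)⁻¹‖
        rw [norm_inv]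
        exact (one_lt_inv₀ (norm_pos_iff.mpr hφw0)).mpr hφw
      · show z0 + (f (φ w)⁻¹⁻¹)⁻¹ = z
        rw [inv_inv, hfφ w hwY, hw, inv_inv, add_sub_cancel]
  · -- expansion
    intro t ht
    have hne : t ≠ 0 := ht_ne t ht
    have hs : t⁻¹ ≠ 0 := inv_ne_zero hne
    show z0 + (f t⁻¹)⁻¹ = c * t + (z0 + dslope kinv 0 t⁻¹)
    have hfs : f t⁻¹ ≠ 0 := hfne _ (hinv_mem t ht) hs
    have hks : k t⁻¹ = f t⁻¹ * t := by
      rw [hk, dslope_of_ne _ hs, slope_def_field, hf0, sub_zero, sub_zero]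
      field_simp
    rw [dslope_of_ne _ hs, slope_def_field]
    simp only [sub_zero, hkinv, hk0, hks, hc0]
    have hd := hdf0
    field_simp
    ring

end Crest.Agent.Lib.Crouzeix
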