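import Crest.Agent.Lib.Crouzeix.InjDeriv
import Crest.Agent.Lib.Crouzeix.Riemann
import Crest.Agent.Lib.Crouzeix.Kernel

/-!
# Level curves of the exterior map of a compact convex set

`K` compact convex, `G` the exterior conformal map `{1 < ‖t‖} → Kᶜ`.  We prove the subordination
(Study type) estimate: convex combinations of `G(ζ x)`, `G(ζ y)`, `‖x‖ = ‖y‖ = S`, stay in the
level set of level `S ‖ζ‖`, and deduce the tangent inequalities at the level curves.
-/

set_option autoImplicit false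

open Complex Metric Set Filter Topology

namespace Crest.Agent.Lib.Crouzeix

/-- The data of an exterior map of `K`. -/
structure ExtData (K : Set ℂ) (G E : ℂ → ℂ) (c : ℂ) : Prop where
  compact : IsCompact K
  convex : Convex ℝ K
  c_ne : c ≠ 0
  diff : DifferentiableOn ℂ G {t : ℂ | 1 < ‖t‖}
  inj : InjOn G {t : ℂ | 1 < ‖t‖}
  image : G '' {t : ℂ | 1 < ‖t‖} = Kᶜ
  E_diff : DifferentiableOn ℂ E (ball (0 : ℂ) 1)
  eq : ∀ t : ℂ, 1 < ‖t‖ → G t = c * t + E t⁻¹

theorem isOpen_oneLtNorm : IsOpen {t : ℂ | 1 < ‖t‖} :=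
  isOpen_lt continuous_const continuous_norm

/-- The inverse map. -/
noncomputable def extInv (G : ℂ → ℂ) : ℂ → ℂ := Function.invFunOn G {t : ℂ | 1 < ‖t‖}

namespace ExtData

variable {K : Set ℂ} {G E : ℂ → ℂ} {c : ℂ}

theorem G_notMem (h : ExtData K G E c) {t : ℂ} (ht : 1 < ‖t‖) : G t ∉ K := by
  have : G t ∈ Kᶜ := h.image ▸ mem_image_of_mem G ht
  exact this

theorem inv_G (h : ExtData K G E c) {t : ℂ} (ht : 1 < ‖t‖) : extInv G (G t) = t :=
  h.inj (Function.invFunOn_mem ⟨t, ht, rfl⟩) ht (Function.invFunOn_eq ⟨t, ht, rfl⟩)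

theorem exists_of_notMem (h : ExtData K G E c) {z : ℂ} (hz : z ∉ K) :
    ∃ t : ℂ, 1 < ‖t‖ ∧ G t = z := by
  have : z ∈ G '' {t : ℂ | 1 < ‖t‖} := h.image ▸ hz
  obtain ⟨t, ht, rfl⟩ := this
  exact ⟨t, ht, rfl⟩

theorem one_lt_norm_inv (h : ExtData K G E c) {z : ℂ} (hz : z ∉ K) : 1 < ‖extInv G z‖ := by
  obtain ⟨t, ht, rfl⟩ := h.exists_of_notMem hz
  rwa [h.inv_G ht]

theorem G_inv (h : ExtData K G E c) {z : ℂ} (hz : z ∉ K) : G (extInv G z) = z := by
  obtain ⟨t, ht, rfl⟩ := h.exists_of_notMem hz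
  rw [h.inv_G ht]

theorem nhds_le (h : ExtData K G E c) {t : ℂ} (ht : 1 < ‖t‖) : 𝓝 (G t) ≤ map G (𝓝 t) := by
  have han : AnalyticOnNhd ℂ G {t : ℂ | 1 < ‖t‖} := h.diff.analyticOnNhd isOpen_oneLtNorm
  rcases (han t ht).eventually_constant_or_nhds_le_map_nhds with hc | hc
  · exfalso
    have hev : ∀ᶠ z in 𝓝 t, z ∈ {t : ℂ | 1 < ‖t‖} ∧ G z = G t :=
      (isOpen_oneLtNorm.eventually_mem ht).and hc
    obtain ⟨z, hz, hzt⟩ := ((hev.filter_mono (nhdsWithin_le_nhds (s := {t}ᶜ))).and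
      (eventually_mem_nhdsWithin (s := {t}ᶜ))).exists
    exact hzt (h.inj hz.1 ht hz.2)
  · exact hc

theorem isOpen_compl (h : ExtData K G E c) : IsOpen Kᶜ := h.compact.isClosed.isOpen_compl

theorem continuousAt_inv (h : ExtData K G E c) {z : ℂ} (hz : z ∉ K) :
    ContinuousAt (extInv G) z := by
  obtain ⟨t, ht, rfl⟩ := h.exists_of_notMem hz
  show Tendsto (extInv G) (𝓝 (G t)) (𝓝 (extInv G (G t)))
  rw [h.inv_G ht]
  intro N hN
  have h1 : N ∩ {t : ℂ | 1 < ‖t‖} ∈ 𝓝 t := inter_mem hN (isOpen_oneLtNorm.mem_nhds ht)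
  have h2 : G '' (N ∩ {t : ℂ | 1 < ‖t‖}) ∈ 𝓝 (G t) := h.nhds_le ht (image_mem_map h1)
  show extInv G ⁻¹' N ∈ 𝓝 (G t)
  refine mem_of_superset h2 ?_
  rintro _ ⟨s, hs, rfl⟩
  show extInv G (G s) ∈ N
  rw [h.inv_G hs.2]
  exact hs.1

theorem continuousOn_inv (h : ExtData K G E c) : ContinuousOn (extInv G) Kᶜ :=
  fun _ hz => (h.continuousAt_inv hz).continuousWithinAt

theorem deriv_ne (h : ExtData K G E c) {t : ℂ} (ht : 1 < ‖t‖) : deriv G t ≠ 0 :=
  deriv_ne_zero_of_injOn isOpen_oneLtNorm h.diff h.inj ht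

theorem differentiableAt_G (h : ExtData K G E c) {t : ℂ} (ht : 1 < ‖t‖) :
    DifferentiableAt ℂ G t := h.diff.differentiableAt (isOpen_oneLtNorm.mem_nhds ht)

theorem hasDerivAt_inv (h : ExtData K G E c) {t : ℂ} (ht : 1 < ‖t‖) :
    HasDerivAt (extInv G) (deriv G t)⁻¹ (G t) := by
  have hG : HasDerivAt G (deriv G t) (extInv G (G t)) := by
    rw [h.inv_G ht]
    exact (h.differentiableAt_G ht).hasDerivAt
  refine HasDerivAt.of_local_left_inverse (h.continuousAt_inv (h.G_notMem ht)) hG (h.deriv_ne ht) ?_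
  filter_upwards [h.isOpen_compl.mem_nhds (h.G_notMem ht)] with y hy using h.G_inv hy

theorem differentiableAt_inv (h : ExtData K G E c) {z : ℂ} (hz : z ∉ K) :
    DifferentiableAt ℂ (extInv G) z := by
  obtain ⟨t, ht, rfl⟩ := h.exists_of_notMem hz
  exact (h.hasDerivAt_inv ht).differentiableAt

/-- `E` is bounded on the disc of radius `1/2`. -/
theorem exists_growth (h : ExtData K G E c) :
    ∃ C0 : ℝ, 0 ≤ C0 ∧ ∀ t : ℂ, 2 ≤ ‖t‖ → ‖G t - c * t‖ ≤ C0 := by
  have hcb : IsCompact (closedBall (0 : ℂ) (1 / 2)) := isCompact_closedBall _ _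
  have hsub : closedBall (0 : ℂ) (1 / 2) ⊆ ball (0 : ℂ) 1 := by
    intro s hs
    simp only [mem_closedBall, dist_zero_right, mem_ball] at hs ⊢
    linarith
  obtain ⟨C, hC⟩ := (hcb.image_of_continuousOn
    (h.E_diff.continuousOn.mono hsub)).isBounded.exists_norm_le
  refine ⟨max C 0, le_max_right _ _, fun t ht => ?_⟩
  have ht1 : 1 < ‖t‖ := by linarith
  rw [h.eq t ht1]
  have h2 : t⁻¹ ∈ closedBall (0 : ℂ) (1 / 2) := by
    simp only [mem_closedBall, dist_zero_right, norm_inv]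
    rw [inv_eq_one_div]
    exact one_div_le_one_div_of_le (by norm_num) ht
  have h3 := hC (E t⁻¹) (mem_image_of_mem E h2)
  calc ‖c * t + E t⁻¹ - c * t‖ = ‖E t⁻¹‖ := by congr 1; ring
    _ ≤ C := h3
    _ ≤ max C 0 := le_max_left _ _

/-- Growth of the inverse map. -/
theorem exists_norm_inv_le (h : ExtData K G E c) :
    ∃ C0 : ℝ, 0 ≤ C0 ∧ ∀ z : ℂ, z ∉ K → ‖extInv G z‖ ≤ max 2 ((‖z‖ + C0) / ‖c‖) := by
  obtain ⟨C0, hC0, hg⟩ := h.exists_growth
  refine ⟨C0, hC0, fun z hz => ?_⟩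
  obtain ⟨t, ht, rfl⟩ := h.exists_of_notMem hz
  rw [h.inv_G ht]
  by_cases h2 : 2 ≤ ‖t‖
  · refine le_max_of_le_right ?_
    have hc : 0 < ‖c‖ := norm_pos_iff.mpr h.c_ne
    rw [le_div_iff₀ hc]
    have h3 := hg t h2
    have h4 : ‖c * t‖ ≤ ‖G t‖ + ‖G t - c * t‖ := by
      have := norm_sub_le (G t) (G t - c * t)
      simpa using this
    rw [norm_mul] at h4
    nlinarith [norm_nonneg t]
  · exact le_max_of_le_left (not_le.mp h2).le

/-- Points far away have a big preimage. -/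
theorem exists_far (h : ExtData K G E c) :
    ∃ R1 : ℝ, ∀ z : ℂ, R1 < ‖z‖ → z ∉ K ∧ 2 < ‖extInv G z‖ := by
  obtain ⟨C0, hC0, hg⟩ := h.exists_growth
  have hc : 0 < ‖c‖ := norm_pos_iff.mpr h.c_ne
  -- image of the circle of radius 2
  have hs2 : IsCompact (G '' sphere (0 : ℂ) 2) := by
    refine (isCompact_sphere _ _).image_of_continuousOn ?_
    refine h.diff.continuousOn.mono ?_
    intro t ht
    have : ‖t‖ = 2 := by simpa using ht
    show 1 < ‖t‖
    linarith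
  obtain ⟨R2, hR2⟩ := hs2.isBounded.exists_norm_le
  obtain ⟨R3, hR3⟩ := h.compact.isBounded.exists_norm_le
  set R : ℝ := max (max R2 R3) 0 with hRdef
  have hR0 : 0 ≤ R := le_max_right _ _
  refine ⟨R, fun z hzR => ?_⟩
  have hz : max R2 R3 < ‖z‖ := lt_of_le_of_lt (le_max_left _ _) hzR
  have hz2 : R2 < ‖z‖ := lt_of_le_of_lt (le_max_left _ _) hz
  have hz3 : R3 < ‖z‖ := lt_of_le_of_lt (le_max_right _ _) hz
  have hzK : z ∉ K := fun hk => absurd (hR3 z hk) (not_le.mpr hz3)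
  refine ⟨hzK, ?_⟩
  -- connectedness of {R < ‖z‖}
  · let O : Set ℂ := {w | R < ‖w‖}
    have hOpre : IsPreconnected O := by
      have hrange : O = (fun p : ℝ × ℝ => ((p.1 : ℂ) * Complex.exp (p.2 * Complex.I))) ''
          (Ioi R ×ˢ univ) := by
        ext w
        constructor
        · intro hw
          refine ⟨(‖w‖, Complex.arg w), ⟨hw, trivial⟩, ?_⟩
          exact Complex.norm_mul_exp_arg_mul_I w
        · rintro ⟨⟨ρ, θ⟩, ⟨hρ, -⟩, rfl⟩
          have hρ' : R < ρ := hρ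
          show R < ‖((ρ : ℂ) * Complex.exp (θ * Complex.I))‖
          rw [norm_mul, Complex.norm_exp_ofReal_mul_I, mul_one, Complex.norm_real,
            Real.norm_eq_abs, abs_of_pos (lt_of_le_of_lt hR0 hρ')]
          exact hρ'
      rw [hrange]
      refine ((convex_Ioi R).prod convex_univ).isPreconnected.image _ ?_
      fun_prop
    have hOK : O ⊆ Kᶜ := by
      intro w hw hk
      have h1 : R < ‖w‖ := hw
      have h2 : ‖w‖ ≤ R3 := hR3 w hk
      have h3 : R3 ≤ R := le_trans (le_max_right _ _) (le_max_left _ _)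
      linarith
    have hcont : ContinuousOn (fun w => ‖extInv G w‖) O :=
      (h.continuousOn_inv.mono hOK).norm
    -- a point of O with big preimage
    obtain ⟨T, hT2, hTbig⟩ : ∃ T : ℝ, 2 < T ∧ R + C0 < ‖c‖ * T := by
      refine ⟨max 3 ((R + C0 + 1) / ‖c‖), lt_of_lt_of_le (by norm_num) (le_max_left _ _), ?_⟩
      have : (R + C0 + 1) / ‖c‖ ≤ max 3 ((R + C0 + 1) / ‖c‖) := le_max_right _ _
      rw [div_le_iff₀ hc] at this
      nlinarith
    let t1 : ℂ := (T : ℂ)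
    have hnt1 : ‖t1‖ = T := by
      simp only [t1, Complex.norm_real, Real.norm_eq_abs]
      exact abs_of_pos (by linarith)
    have hGt1 : R < ‖G t1‖ := by
      have h3 := hg t1 (by rw [hnt1]; linarith)
      have h4 : ‖c * t1‖ ≤ ‖G t1‖ + ‖G t1 - c * t1‖ := by
        have := norm_sub_le (G t1) (G t1 - c * t1)
        simpa using this
      rw [norm_mul, hnt1] at h4
      linarith
    have ht1 : 1 < ‖t1‖ := by rw [hnt1]; linarith
    have hval1 : ‖extInv G (G t1)‖ = T := by rw [h.inv_G ht1, hnt1]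
    by_contra hle
    push Not at hle
    -- intermediate value
    have hiv := hOpre.intermediate_value (a := z) (b := G t1) hzR hGt1 hcont
    have h2mem : (2 : ℝ) ∈ Icc ‖extInv G z‖ ‖extInv G (G t1)‖ := by
      rw [hval1]
      exact ⟨hle, hT2.le⟩
    obtain ⟨w, hwO, hw2⟩ := hiv h2mem
    have hwK : w ∉ K := hOK hwO
    have hw3 : ‖extInv G w‖ = 2 := hw2
    have hmem : G (extInv G w) ∈ G '' sphere (0 : ℂ) 2 :=
      mem_image_of_mem G (by simpa using hw3)
    rw [h.G_inv hwK] at hmem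
    have h5 := hR2 w hmem
    have h6 : R < ‖w‖ := hwO
    have h7 : R2 ≤ R := le_trans (le_max_left _ _) (le_max_left _ _)
    linarith

/-- Closed superlevel sets: `G '' {a ≤ ‖t‖}` is closed for `a > 1`. -/
theorem isClosed_image_ge (h : ExtData K G E c) {a : ℝ} (ha : 1 < a) :
    IsClosed (G '' {t : ℂ | a ≤ ‖t‖}) := by
  obtain ⟨C0, hC0, hg⟩ := h.exists_growth
  have hc : 0 < ‖c‖ := norm_pos_iff.mpr h.c_ne
  rw [← isSeqClosed_iff_isClosed]
  intro z z0 hz hz0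
  choose t ht hGt using hz
  -- t is bounded
  have hb : Bornology.IsBounded (range z) := Metric.isBounded_range_of_tendsto z hz0
  obtain ⟨Z, hZ⟩ := hb.exists_norm_le
  have htb : ∀ n, ‖t n‖ ≤ max 2 ((Z + C0) / ‖c‖) := by
    intro n
    by_cases h2 : 2 ≤ ‖t n‖
    · refine le_max_of_le_right ?_
      rw [le_div_iff₀ hc]
      have h3 := hg (t n) h2
      have h4 : ‖c * t n‖ ≤ ‖G (t n)‖ + ‖G (t n) - c * t n‖ := by
        have := norm_sub_le (G (t n)) (G (t n) - c * t n)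
        simpa using this
      rw [norm_mul] at h4
      have h5 := hZ (z n) (mem_range_self n)
      rw [← hGt n] at h5
      nlinarith [norm_nonneg (t n)]
    · exact le_max_of_le_left (not_le.mp h2).le
  obtain ⟨T, hT, φ, hφ, hlim⟩ := (isCompact_closedBall (0 : ℂ) (max 2 ((Z + C0) / ‖c‖))).tendsto_subseq
    (x := t) (fun n => by simpa using htb n)
  have haT : a ≤ ‖T‖ := by
    have : Tendsto (fun n => ‖t (φ n)‖) atTop (𝓝 ‖T‖) := hlim.norm
    exact ge_of_tendsto' this (fun n => ht (φ n))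
  have hT1 : 1 < ‖T‖ := by linarith
  refine ⟨T, haT, ?_⟩
  have h1 : Tendsto (fun n => G (t (φ n))) atTop (𝓝 (G T)) :=
    (h.differentiableAt_G hT1).continuousAt.tendsto.comp hlim
  have h2 : Tendsto (fun n => G (t (φ n))) atTop (𝓝 z0) := by
    have : (fun n => G (t (φ n))) = z ∘ φ := by
      ext n
      exact hGt (φ n)
    rw [this]
    exact hz0.comp hφ.tendsto_atTop
  exact tendsto_nhds_unique h1 h2

/-- The map tends to `K` at the unit circle. -/
theorem boundary (h : ExtData K G E c) {ε : ℝ} (hε : 0 < ε) :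
    ∃ δ : ℝ, 0 < δ ∧ ∀ t : ℂ, 1 < ‖t‖ → ‖t‖ < 1 + δ → G t ∈ thickening ε K := by
  obtain ⟨R1, hR1⟩ := h.exists_far
  let T : Set ℂ := (thickening ε K)ᶜ ∩ closedBall 0 (max R1 0)
  have hTc : IsCompact T :=
    (isCompact_closedBall _ _).inter_left (isOpen_thickening.isClosed_compl)
  have hTK : T ⊆ Kᶜ := by
    intro z hz hk
    exact hz.1 (self_subset_thickening hε K hk)
  obtain ⟨a, ha1, ha⟩ := hTc.exists_forall_le' ((h.continuousOn_inv.mono hTK).norm)
    (a := (1 : ℝ)) (fun z hz => h.one_lt_norm_inv (hTK hz))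
  refine ⟨min (a - 1) 1, lt_min (by linarith) one_pos, fun t ht1 ht2 => ?_⟩
  by_contra hnot
  have hinv : extInv G (G t) = t := h.inv_G ht1
  by_cases hb : ‖G t‖ ≤ max R1 0
  · have hmem : G t ∈ T := ⟨hnot, by simpa using hb⟩
    have := ha _ hmem
    rw [hinv] at this
    have h3 : min (a - 1) 1 ≤ a - 1 := min_le_left _ _
    linarith
  · have hlt : R1 < ‖G t‖ := lt_of_le_of_lt (le_max_left _ _) (not_le.mp hb)
    have := (hR1 _ hlt).2
    rw [hinv] at this
    have h3 : min (a - 1) 1 ≤ 1 := min_le_right _ _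
    linarith

end ExtData

/-- Functions subordinate to the exterior map at level `S`. -/
structure Subord (K : Set ℂ) (c : ℂ) (S : ℝ) (F : ℂ → ℂ) : Prop where
  diff : DifferentiableOn ℂ F {ζ : ℂ | S⁻¹ < ‖ζ‖}
  near : ∀ ε : ℝ, 0 < ε → ∃ ρ : ℝ, S⁻¹ < ρ ∧ ∀ ζ : ℂ, S⁻¹ < ‖ζ‖ → ‖ζ‖ < ρ → F ζ ∈ thickening ε K
  growth : ∃ C : ℝ, ∀ ζ : ℂ, 2 * S⁻¹ ≤ ‖ζ‖ → ‖F ζ‖ ≤ ‖c‖ * S * ‖ζ‖ + C

namespace ExtData

variable {K : Set ℂ} {G E : ℂ → ℂ} {c : ℂ}

/-- The subordination estimate (Study type lemma). -/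
theorem norm_inv_comp_le (h : ExtData K G E c) {S : ℝ} (hS : 1 < S) {F : ℂ → ℂ}
    (hF : Subord K c S F) {ζ : ℂ} (hζ : S⁻¹ < ‖ζ‖) (hFζ : F ζ ∉ K) :
    ‖extInv G (F ζ)‖ ≤ S * ‖ζ‖ := by
  have hS0 : 0 < S := by linarith
  have hSinv : 0 < S⁻¹ := inv_pos.mpr hS0
  have hζ0 : 0 < ‖ζ‖ := lt_trans hSinv hζ
  have hc : 0 < ‖c‖ := norm_pos_iff.mpr h.c_ne
  by_contra hcon
  push Not at hcon
  set Y0 : ℝ := ‖extInv G (F ζ)‖ with hY0
  have hY1 : 1 < Y0 := h.one_lt_norm_inv hFζ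
  -- the small parameters
  set η : ℝ := (Y0 - S * ‖ζ‖) / (2 * ‖ζ‖) with hη
  have hηpos : 0 < η := div_pos (by linarith) (by positivity)
  set d : ℝ := min (η / S) ((Y0 - 1) / 2) with hd
  have hdpos : 0 < d := lt_min (div_pos hηpos hS0) (by linarith)
  have hdle1 : d ≤ η / S := min_le_left _ _
  have hdle2 : d ≤ (Y0 - 1) / 2 := min_le_right _ _
  have hdη : (1 + d) * S ≤ S + η := by
    have : d * S ≤ η := by
      have := mul_le_mul_of_nonneg_right hdle1 hS0.le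
      rwa [div_mul_cancel₀ _ hS0.ne'] at this
    nlinarith
  -- the sets
  let A : Set ℂ := G '' {t : ℂ | 1 + d ≤ ‖t‖}
  have hAclosed : IsClosed A := h.isClosed_image_ge (by linarith)
  let B : Set ℂ := Kᶜ ∩ (fun z => ‖extInv G z‖) ⁻¹' Ioi (1 + d)
  have hBopen : IsOpen B :=
    h.continuousOn_inv.norm.isOpen_inter_preimage h.isOpen_compl isOpen_Ioi
  have hBA : B ⊆ A := by
    rintro z ⟨hz1, hz2⟩
    refine ⟨extInv G z, ?_, h.G_inv hz1⟩
    have hz3 : 1 + d < ‖extInv G z‖ := hz2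
    exact hz3.le
  have hAK : A ⊆ Kᶜ := by
    rintro _ ⟨t, ht, rfl⟩
    have ht' : 1 + d ≤ ‖t‖ := ht
    exact h.G_notMem (by linarith)
  have hKA : K ⊆ Aᶜ := fun z hz hzA => hAK hzA hz
  obtain ⟨ε, hε, hthick⟩ := h.compact.exists_thickening_subset_open hAclosed.isOpen_compl hKA
  obtain ⟨ρ, hρ, hnear⟩ := hF.near ε hε
  obtain ⟨C, hC⟩ := hF.growth
  obtain ⟨C0, hC0, hinvle⟩ := h.exists_norm_inv_le
  -- big radius
  set L : ℝ := (|C| + C0) / ‖c‖ with hL
  have hL0 : 0 ≤ L := by positivity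
  set R : ℝ := max (max (‖ζ‖ + 1) (2 * S⁻¹ + 1)) (max (ρ + 1) (L / η + 1)) with hR
  have hR1 : ‖ζ‖ + 1 ≤ R := le_trans (le_max_left _ _) (le_max_left _ _)
  have hR2 : 2 * S⁻¹ + 1 ≤ R := le_trans (le_max_right _ _) (le_max_left _ _)
  have hR3 : ρ + 1 ≤ R := le_trans (le_max_left _ _) (le_max_right _ _)
  have hR4 : L / η + 1 ≤ R := le_trans (le_max_right _ _) (le_max_right _ _)
  have hRpos : 0 < R := by linarith
  -- the open set
  let N : Set ℂ := {w : ℂ | S⁻¹ < ‖w‖}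
  have hNopen : IsOpen N := isOpen_lt continuous_const continuous_norm
  let U : Set ℂ := (N ∩ {w : ℂ | ‖w‖ < R}) ∩ F ⁻¹' B
  have hUopen : IsOpen U :=
    (hF.diff.continuousOn.mono inter_subset_left).isOpen_inter_preimage
      (hNopen.inter (isOpen_lt continuous_norm continuous_const)) hBopen
  have hUbdd : Bornology.IsBounded U := by
    refine (isBounded_ball (x := (0 : ℂ)) (r := R)).subset ?_
    rintro w ⟨⟨-, hw⟩, -⟩
    simpa using hw
  let Ann : Set ℂ := {w : ℂ | ρ ≤ ‖w‖ ∧ ‖w‖ ≤ R}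
  have hAnnclosed : IsClosed Ann :=
    (isClosed_le continuous_const continuous_norm).inter
      (isClosed_le continuous_norm continuous_const)
  have hAnnN : Ann ⊆ N := fun w hw => lt_of_lt_of_le hρ hw.1
  let Y : Set ℂ := Ann ∩ F ⁻¹' A
  have hYclosed : IsClosed Y :=
    (hF.diff.continuousOn.mono hAnnN).preimage_isClosed_of_isClosed hAnnclosed hAclosed
  have hUY : U ⊆ Y := by
    rintro w ⟨⟨hw1, hw2⟩, hw3⟩
    have hFA : F w ∈ A := hBA hw3
    refine ⟨⟨?_, le_of_lt hw2⟩, hFA⟩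
    by_contra hlt
    push Not at hlt
    exact hthick (hnear w hw1 hlt) hFA
  have hclY : closure U ⊆ Y := closure_minimal hUY hYclosed
  let ψ : ℂ → ℂ := fun w => extInv G (F w) / w
  have hne : ∀ w ∈ N, w ≠ 0 := by
    intro w hw h0
    have hw' : S⁻¹ < ‖w‖ := hw
    rw [h0, norm_zero] at hw'
    linarith
  have hψd : DifferentiableOn ℂ ψ U := by
    intro w hw
    have hwN : w ∈ N := hw.1.1
    have hFd : DifferentiableAt ℂ F w := hF.diff.differentiableAt (hNopen.mem_nhds hwN)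
    have hFK : F w ∉ K := hw.2.1
    have h1 : DifferentiableAt ℂ (fun w => extInv G (F w)) w :=
      (h.differentiableAt_inv hFK).comp w hFd
    exact (h1.div differentiableAt_id (hne w hwN)).differentiableWithinAt
  have hψc : ContinuousOn ψ (closure U) := by
    intro w hw
    have hwY := hclY hw
    have hwN : w ∈ N := hAnnN hwY.1
    have hFd : DifferentiableAt ℂ F w := hF.diff.differentiableAt (hNopen.mem_nhds hwN)
    have hFK : F w ∉ K := hAK hwY.2
    have h1 : ContinuousAt (fun w => extInv G (F w)) w :=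
      ContinuousAt.comp (f := F) (h.continuousAt_inv hFK) hFd.continuousAt
    exact (h1.div continuousAt_id (hne w hwN)).continuousWithinAt
  have hdiffcont : DiffContOnCl ℂ ψ U := ⟨hψd, hψc⟩
  have hfront : ∀ w ∈ frontier U, ‖ψ w‖ ≤ S + η := by
    intro w hw
    have hwcl : w ∈ closure U := frontier_subset_closure hw
    have hwU : w ∉ U := by
      have := hw.2
      rwa [hUopen.interior_eq] at this
    have hwY := hclY hwcl
    have hwN : w ∈ N := hAnnN hwY.1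
    have hw0 : 0 < ‖w‖ := norm_pos_iff.mpr (hne w hwN)
    have hFK : F w ∉ K := hAK hwY.2
    have hψw : ‖ψ w‖ = ‖extInv G (F w)‖ / ‖w‖ := norm_div _ _
    by_cases hwR : ‖w‖ < R
    · -- F w ∉ B
      have hFB : F w ∉ B := fun hB => hwU ⟨⟨hwN, hwR⟩, hB⟩
      have hle : ‖extInv G (F w)‖ ≤ 1 + d := by
        by_contra hgt
        exact hFB ⟨hFK, not_le.mp hgt⟩
      rw [hψw]
      have h1 : ‖w‖⁻¹ ≤ S := by
        have h2 : S⁻¹ ≤ ‖w‖ := le_of_lt hwN
        rw [inv_le_comm₀ hw0 hS0]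
        exact h2
      have h3 : (1 + d) / ‖w‖ ≤ (1 + d) * S := by
        rw [div_eq_mul_inv]
        exact mul_le_mul_of_nonneg_left h1 (by linarith)
      calc ‖extInv G (F w)‖ / ‖w‖ ≤ (1 + d) / ‖w‖ := by gcongr
        _ ≤ (1 + d) * S := h3
        _ ≤ S + η := hdη
    · -- ‖w‖ = R
      have hwR' : ‖w‖ = R := le_antisymm hwY.1.2 (not_lt.mp hwR)
      rw [hψw, hwR']
      have hgw : ‖F w‖ ≤ ‖c‖ * S * R + C := by
        have := hC w (by rw [hwR']; linarith)
        rwa [hwR'] at this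
      rw [div_le_iff₀ hRpos]
      have hle := hinvle (F w) hFK
      refine le_trans hle (max_le ?_ ?_)
      · have : 2 * S⁻¹ ≤ R := by linarith
        have h2 : 2 ≤ S * R := by
          have := mul_le_mul_of_nonneg_left this hS0.le
          rwa [mul_comm S (2 * S⁻¹), mul_assoc, inv_mul_cancel₀ hS0.ne', mul_one] at this
        nlinarith
      · rw [div_le_iff₀ hc]
        have h5 : L / η ≤ R := by linarith
        rw [div_le_iff₀ hηpos] at h5
        have h6 : |C| + C0 = L * ‖c‖ := by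
          rw [hL]
          field_simp
        have h7 : C ≤ |C| := le_abs_self C
        have h8 : L * ‖c‖ ≤ R * η * ‖c‖ := mul_le_mul_of_nonneg_right h5 hc.le
        nlinarith
  have hζU : ζ ∈ U := by
    refine ⟨⟨hζ, (show ‖ζ‖ < R by linarith)⟩, hFζ, ?_⟩
    show 1 + d < ‖extInv G (F ζ)‖
    rw [← hY0]
    linarith
  have hfinal := Complex.norm_le_of_forall_mem_frontier_norm_le hUbdd hdiffcont hfront
    (subset_closure hζU)
  have h9 : ‖ψ ζ‖ = Y0 / ‖ζ‖ := norm_div _ _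
  rw [h9, div_le_iff₀ hζ0] at hfinal
  have h10 : η * ‖ζ‖ = (Y0 - S * ‖ζ‖) / 2 := by
    rw [hη]
    field_simp
  nlinarith

theorem subord_G_mul (h : ExtData K G E c) {x : ℂ} (hx : 1 < ‖x‖) :
    Subord K c ‖x‖ (fun ζ => G (ζ * x)) := by
  have hx0 : 0 < ‖x‖ := by linarith
  have hmul : ∀ ζ : ℂ, ‖x‖⁻¹ < ‖ζ‖ → 1 < ‖ζ * x‖ := by
    intro ζ hζ
    rw [norm_mul]
    rw [inv_lt_iff_one_lt_mul₀ hx0] at hζ
    linarith [mul_comm ‖x‖ ‖ζ‖]
  refine ⟨?_, ?_, ?_⟩
  · intro ζ hζ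
    have h1 : DifferentiableAt ℂ G (ζ * x) := h.differentiableAt_G (hmul ζ hζ)
    have h2 : DifferentiableAt ℂ (fun ζ : ℂ => ζ * x) ζ := differentiableAt_id.mul_const x
    exact (h1.comp ζ h2).differentiableWithinAt
  · intro ε hε
    obtain ⟨δ, hδ, hb⟩ := h.boundary hε
    refine ⟨(1 + δ) * ‖x‖⁻¹, ?_, ?_⟩
    · have : 0 < ‖x‖⁻¹ := inv_pos.mpr hx0
      nlinarith
    · intro ζ hζ hζ2
      refine hb _ (hmul ζ hζ) ?_
      rw [norm_mul]
      rw [← div_eq_mul_inv, lt_div_iff₀ hx0] at hζ2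
      exact hζ2
  · obtain ⟨C0, hC0, hg⟩ := h.exists_growth
    refine ⟨C0, fun ζ hζ => ?_⟩
    have h2 : 2 ≤ ‖ζ * x‖ := by
      rw [norm_mul]
      have := mul_le_mul_of_nonneg_right hζ hx0.le
      rwa [mul_assoc, inv_mul_cancel₀ hx0.ne', mul_one] at this
    have h3 := hg _ h2
    have h4 : ‖G (ζ * x)‖ ≤ ‖c * (ζ * x)‖ + ‖G (ζ * x) - c * (ζ * x)‖ := by
      have := norm_add_le (c * (ζ * x)) (G (ζ * x) - c * (ζ * x))
      simpa using this
    have h5 : ‖c * (ζ * x)‖ = ‖c‖ * ‖x‖ * ‖ζ‖ := by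
      rw [norm_mul, norm_mul]
      ring
    linarith

theorem subord_const (h : ExtData K G E c) {S : ℝ} (hS : 1 < S) {w : ℂ} (hw : w ∈ K) :
    Subord K c S (fun _ => w) := by
  have hS0 : 0 < S := by linarith
  refine ⟨differentiableOn_const w, ?_, ?_⟩
  · intro ε hε
    refine ⟨S⁻¹ + 1, by linarith, fun ζ _ _ => self_subset_thickening hε K hw⟩
  · refine ⟨‖w‖, fun ζ _ => ?_⟩
    have : 0 ≤ ‖c‖ * S * ‖ζ‖ := by positivity
    linarith

end ExtData

theorem Subord.convexComb {K : Set ℂ} (hconv : Convex ℝ K) {c : ℂ} {S : ℝ} (hS : 0 < S)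
    {F1 F2 : ℂ → ℂ} (h1 : Subord K c S F1) (h2 : Subord K c S F2) {lam : ℝ} (h0 : 0 ≤ lam)
    (h01 : lam ≤ 1) :
    Subord K c S (fun ζ => (1 - (lam : ℂ)) * F1 ζ + (lam : ℂ) * F2 ζ) := by
  refine ⟨?_, ?_, ?_⟩
  · exact ((differentiableOn_const _).mul h1.diff).add ((differentiableOn_const _).mul h2.diff)
  · intro ε hε
    obtain ⟨ρ1, hρ1, hn1⟩ := h1.near ε hε
    obtain ⟨ρ2, hρ2, hn2⟩ := h2.near ε hε
    refine ⟨min ρ1 ρ2, lt_min hρ1 hρ2, fun ζ hζ hζ2 => ?_⟩
    have h3 := hn1 ζ hζ (lt_of_lt_of_le hζ2 (min_le_left _ _))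
    have h4 := hn2 ζ hζ (lt_of_lt_of_le hζ2 (min_le_right _ _))
    have h5 := (hconv.thickening ε) h3 h4 (sub_nonneg.mpr h01) h0 (by ring)
    simpa [Complex.real_smul] using h5
  · obtain ⟨C1, hC1⟩ := h1.growth
    obtain ⟨C2, hC2⟩ := h2.growth
    refine ⟨(1 - lam) * C1 + lam * C2, fun ζ hζ => ?_⟩
    have h3 := hC1 ζ hζ
    have h4 := hC2 ζ hζ
    have h5 : ‖(1 - (lam : ℂ)) * F1 ζ‖ = (1 - lam) * ‖F1 ζ‖ := by
      rw [norm_mul]
      congr 1
      have : (1 - (lam : ℂ)) = ((1 - lam : ℝ) : ℂ) := by push_cast; ring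
      rw [this, Complex.norm_real, Real.norm_eq_abs, abs_of_nonneg (sub_nonneg.mpr h01)]
    have h6 : ‖(lam : ℂ) * F2 ζ‖ = lam * ‖F2 ζ‖ := by
      rw [norm_mul, Complex.norm_real, Real.norm_eq_abs, abs_of_nonneg h0]
    have h7 := norm_add_le ((1 - (lam : ℂ)) * F1 ζ) ((lam : ℂ) * F2 ζ)
    rw [h5, h6] at h7
    have h8 := mul_le_mul_of_nonneg_left h3 (sub_nonneg.mpr h01)
    have h9 := mul_le_mul_of_nonneg_left h4 h0
    nlinarith

namespace ExtData

variable {K : Set ℂ} {G E : ℂ → ℂ} {c : ℂ}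

/-- Tangent inequality: if `F2` is subordinate at level `‖x‖`, then the point `F2 1` lies on the
inner side of the tangent line to the level curve at `G x`. -/
theorem tangent_of_subord (h : ExtData K G E c) {x : ℂ} (hx : 1 < ‖x‖) {F2 : ℂ → ℂ}
    (hF2 : Subord K c ‖x‖ F2) :
    0 ≤ (x * deriv G x * (starRingEnd ℂ) (G x - F2 1)).re := by
  have hx0 : 0 < ‖x‖ := by linarith
  set w := F2 1 with hw
  set D := deriv G x with hD
  have hDne : D ≠ 0 := h.deriv_ne hx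
  set u : ℂ := (w - G x) * D⁻¹ with hu
  let γ : ℝ → ℂ := fun s => G x + (s : ℂ) * (w - G x)
  have hγ0 : γ 0 = G x := by simp [γ]
  have hγd : HasDerivAt γ (w - G x) 0 := by
    have h1 : HasDerivAt (fun s : ℝ => (s : ℂ)) 1 0 := Complex.ofRealCLM.hasDerivAt
    have h2 := (h1.mul_const (w - G x)).const_add (G x)
    rw [one_mul] at h2
    exact h2
  have hinvd : HasDerivAt (extInv G) D⁻¹ (γ 0) := by
    rw [hγ0]
    exact h.hasDerivAt_inv hx
  have hcomp : HasDerivAt (fun s : ℝ => extInv G (γ s)) ((w - G x) • D⁻¹) 0 :=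
    HasDerivAt.scomp (𝕜 := ℝ) (𝕜' := ℂ) (g₁ := extInv G) (h := γ) 0 hinvd hγd
  have hsq := hcomp.norm_sq
  have hat0 : extInv G (γ 0) = x := by rw [hγ0]; exact h.inv_G hx
  -- eventually F(1) is off K and the estimate applies
  have hev : ∀ᶠ s in 𝓝[>] (0 : ℝ), ‖extInv G (γ s)‖ ^ 2 ≤ ‖extInv G (γ 0)‖ ^ 2 := by
    have hnK : ∀ᶠ s in 𝓝 (0 : ℝ), γ s ∉ K := by
      have hc : ContinuousAt γ 0 := hγd.continuousAt
      have : Kᶜ ∈ 𝓝 (γ 0) := by
        rw [hγ0]
        exact h.isOpen_compl.mem_nhds (h.G_notMem hx)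
      exact hc this
    have hs1 : ∀ᶠ s in 𝓝[>] (0 : ℝ), s < 1 := by
      filter_upwards [Ioo_mem_nhdsGT (zero_lt_one' ℝ)] with s hs using hs.2
    filter_upwards [hnK.filter_mono nhdsWithin_le_nhds, hs1, self_mem_nhdsWithin] with s hs1 hs2 hs3
    have hs3' : 0 < s := hs3
    have hsub : Subord K c ‖x‖
        (fun ζ => (1 - (s : ℂ)) * G (ζ * x) + (s : ℂ) * F2 ζ) :=
      Subord.convexComb h.convex hx0 (h.subord_G_mul hx) hF2 hs3'.le hs2.le
    have hgamma : γ s = (1 - (s : ℂ)) * G ((1 : ℂ) * x) + (s : ℂ) * F2 1 := by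
      simp only [γ, one_mul, ← hw]
      ring
    have hone : ‖x‖⁻¹ < ‖(1 : ℂ)‖ := by
      rw [norm_one]
      exact inv_lt_one_of_one_lt₀ hx
    have hmain := h.norm_inv_comp_le hx hsub hone (by rw [← hgamma]; exact hs1)
    simp only [norm_one, mul_one] at hmain
    rw [← hgamma] at hmain
    rw [hat0]
    exact pow_le_pow_left₀ (norm_nonneg _) hmain 2
  have hslope := hsq.tendsto_slope_zero_right
  have hle : 2 * inner ℝ (extInv G (γ 0)) ((w - G x) • D⁻¹) ≤ 0 := by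
    refine le_of_tendsto hslope ?_
    filter_upwards [hev, self_mem_nhdsWithin] with s hs1 hs2
    have hs2' : 0 < s := hs2
    rw [zero_add, smul_eq_mul]
    exact mul_nonpos_of_nonneg_of_nonpos (inv_nonneg.mpr hs2'.le) (sub_nonpos.mpr hs1)
  rw [hat0, Complex.inner, mul_comm ((w - G x) • D⁻¹)] at hle
  -- algebra
  have hDn : 0 < Complex.normSq D := Complex.normSq_pos.mpr hDne
  have hkey : (starRingEnd ℂ x * ((w - G x) • D⁻¹)) =
      -((Complex.normSq D : ℂ)⁻¹ * (starRingEnd ℂ x * (starRingEnd ℂ D) * (G x - w))) := by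
    have hcD : (starRingEnd ℂ D) * D = (Complex.normSq D : ℂ) := by
      rw [mul_comm, Complex.mul_conj]
    have hne' : (Complex.normSq D : ℂ) ≠ 0 := by exact_mod_cast hDn.ne'
    have hcDne : (starRingEnd ℂ) D ≠ 0 := by
      simpa using hDne
    rw [smul_eq_mul, ← hcD]
    field_simp
    ring
  have hre : ((Complex.normSq D : ℂ)⁻¹ * (starRingEnd ℂ x * (starRingEnd ℂ D) * (G x - w))).re =
      (Complex.normSq D)⁻¹ * (starRingEnd ℂ x * (starRingEnd ℂ D) * (G x - w)).re := by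
    rw [← Complex.ofReal_inv, Complex.re_ofReal_mul]
  rw [hkey, Complex.neg_re, hre] at hle
  have hconj : (x * D * (starRingEnd ℂ) (G x - w)).re =
      (starRingEnd ℂ x * (starRingEnd ℂ D) * (G x - w)).re := by
    have : starRingEnd ℂ (x * D * (starRingEnd ℂ) (G x - w)) =
        starRingEnd ℂ x * (starRingEnd ℂ D) * (G x - w) := by
      simp
    rw [← this, Complex.conj_re]
  rw [hconj]
  have h11 : 0 < (Complex.normSq D)⁻¹ := inv_pos.mpr hDn
  by_contra hneg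
  push Not at hneg
  nlinarith

/-- Tangent inequality, points of `K`. -/
theorem tangent_K (h : ExtData K G E c) {x : ℂ} (hx : 1 < ‖x‖) {w : ℂ} (hw : w ∈ K) :
    0 ≤ (x * deriv G x * (starRingEnd ℂ) (G x - w)).re :=
  h.tangent_of_subord hx (h.subord_const hx hw)

/-- Tangent inequality, points of the same level curve. -/
theorem tangent_G (h : ExtData K G E c) {x y : ℂ} (hx : 1 < ‖x‖) (hy : ‖y‖ = ‖x‖) :
    0 ≤ (x * deriv G x * (starRingEnd ℂ) (G x - G y)).re := by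
  have hy1 : 1 < ‖y‖ := by rw [hy]; exact hx
  have := h.tangent_of_subord hx (hy ▸ h.subord_G_mul hy1)
  simpa using this

end ExtData

/-- Level curves of the exterior map of a compact convex set, packaged: given `K` and an open
neighbourhood `U`, there is an exterior map `G` of a level set, defined beyond the unit circle, with
`G (unit circle) ⊆ U`, `G t ∉ K` for `1 ≤ ‖t‖`, the tangent inequalities with respect to `K` and
with respect to points of the curve itself. -/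
theorem exists_level_curve {K U : Set ℂ} (hK : IsCompact K) (hc : Convex ℝ K)
    (hi : (interior K).Nonempty) (hU : IsOpen U) (hKU : K ⊆ U) :
    ∃ (G e : ℂ → ℂ) (c : ℂ) (r : ℝ), ExtMap G r c e ∧ (∀ t : ℂ, ‖t‖ = 1 → G t ∈ U) ∧
      (∀ t : ℂ, 1 ≤ ‖t‖ → G t ∉ K) ∧
      (∀ (t w : ℂ), ‖t‖ = 1 → w ∈ K → 0 ≤ (t * deriv G t * (starRingEnd ℂ) (G t - w)).re) := by
  obtain ⟨G0, E, c, hc0, hd, hinj, himg, hE, heq⟩ := exists_exterior_map K hK hc hi
  have h : ExtData K G0 E c := ⟨hK, hc, hc0, hd, hinj, himg, hE, heq⟩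
  obtain ⟨ε, hε, hthick⟩ := hK.exists_thickening_subset_open hU hKU
  obtain ⟨δ, hδ, hb⟩ := h.boundary hε
  set S : ℝ := 1 + δ / 2 with hS
  have hS1 : 1 < S := by rw [hS]; linarith
  have hS0 : 0 < S := by linarith
  have hSne : (S : ℂ) ≠ 0 := by exact_mod_cast hS0.ne'
  have hSinv : S⁻¹ < 1 := inv_lt_one_of_one_lt₀ hS1
  have hnorm : ∀ t : ℂ, ‖(S : ℂ) * t‖ = S * ‖t‖ := by
    intro t
    rw [norm_mul, Complex.norm_real, Real.norm_eq_abs, abs_of_pos hS0]
  have hmul : ∀ t : ℂ, S⁻¹ < ‖t‖ → 1 < ‖(S : ℂ) * t‖ := by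
    intro t ht
    rw [hnorm]
    rw [inv_lt_iff_one_lt_mul₀ hS0] at ht
    linarith [mul_comm ‖t‖ S]
  let G : ℂ → ℂ := fun t => G0 ((S : ℂ) * t)
  have hderiv : ∀ t : ℂ, S⁻¹ < ‖t‖ → deriv G t = (S : ℂ) * deriv G0 ((S : ℂ) * t) := by
    intro t ht
    have h1 : HasDerivAt G0 (deriv G0 ((S : ℂ) * t)) ((S : ℂ) * t) :=
      (h.differentiableAt_G (hmul t ht)).hasDerivAt
    have h2 : HasDerivAt (fun t : ℂ => (S : ℂ) * t) (S : ℂ) t := by
      simpa using (hasDerivAt_id t).const_mul (S : ℂ)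
    have h3 := h1.comp t h2
    rw [mul_comm] at h3
    exact h3.deriv
  have hone : ∀ t : ℂ, ‖t‖ = 1 → S⁻¹ < ‖t‖ := fun t ht => by rw [ht]; exact hSinv
  have hnS : ∀ t : ℂ, ‖t‖ = 1 → 1 < ‖(S : ℂ) * t‖ := fun t ht => hmul t (hone t ht)
  refine ⟨G, fun s => E (s * (S : ℂ)⁻¹), c * S, S⁻¹, ?_, ?_, ?_, ?_⟩
  · refine ⟨inv_pos.mpr hS0, hSinv, mul_ne_zero hc0 hSne, ?_, ?_, ?_, ?_, ?_⟩
    · intro t ht
      have h1 : DifferentiableAt ℂ G0 ((S : ℂ) * t) := h.differentiableAt_G (hmul t ht)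
      have h2 : DifferentiableAt ℂ (fun t : ℂ => (S : ℂ) * t) t :=
        (differentiableAt_const _).mul differentiableAt_id
      exact (h1.comp t h2).differentiableWithinAt
    · intro t ht t' ht' heqG
      have h1 := h.inj (hmul t ht) (hmul t' ht') heqG
      exact mul_left_cancel₀ hSne h1
    · rw [inv_inv]
      intro s hs
      have hs' : ‖s‖ < S := by simpa using hs
      have hmem : s * (S : ℂ)⁻¹ ∈ ball (0 : ℂ) 1 := by
        simp only [mem_ball, dist_zero_right, norm_mul, norm_inv, Complex.norm_real,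
          Real.norm_eq_abs, abs_of_pos hS0]
        rw [← div_eq_mul_inv, div_lt_one hS0]
        exact hs'
      have h1 : DifferentiableAt ℂ E (s * (S : ℂ)⁻¹) :=
        hE.differentiableAt (isOpen_ball.mem_nhds hmem)
      have h2 : DifferentiableAt ℂ (fun s : ℂ => s * (S : ℂ)⁻¹) s :=
        differentiableAt_id.mul (differentiableAt_const _)
      exact (h1.comp s h2).differentiableWithinAt
    · intro t ht
      have h1 := heq _ (hmul t ht)
      show G0 ((S : ℂ) * t) = c * S * t + E (t⁻¹ * (S : ℂ)⁻¹)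
      rw [h1, mul_inv, mul_assoc, mul_comm (S : ℂ)⁻¹]
    · intro t t0 ht ht0 hne
      have hGne : G t - G t0 ≠ 0 := by
        intro h0
        have h1 : G0 ((S : ℂ) * t) = G0 ((S : ℂ) * t0) := sub_eq_zero.mp h0
        exact hne (mul_left_cancel₀ hSne (h.inj (hnS t ht) (hnS t0 ht0) h1))
      have hy : ‖(S : ℂ) * t0‖ = ‖(S : ℂ) * t‖ := by rw [hnorm, hnorm, ht, ht0]
      have h1 := h.tangent_G (hnS t ht) hy
      have h2 : t * deriv G t = (S : ℂ) * t * deriv G0 ((S : ℂ) * t) := by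
        rw [hderiv t (hone t ht)]
        ring
      rw [h2]
      set n := (S : ℂ) * t * deriv G0 ((S : ℂ) * t) with hn
      set w := G t - G t0 with hw
      have h3 : n / w = ((Complex.normSq w)⁻¹ : ℝ) * (n * (starRingEnd ℂ) w) := by
        rw [div_eq_mul_inv, Complex.inv_def]
        push_cast
        ring
      rw [h3, Complex.re_ofReal_mul]
      refine mul_nonneg (inv_nonneg.mpr (Complex.normSq_nonneg _)) ?_
      exact h1
  · intro t ht
    apply hthick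
    apply hb _ (hnS t ht)
    rw [hnorm, ht, hS]
    linarith
  · intro t ht
    apply h.G_notMem
    rw [hnorm]
    nlinarith
  · intro t w ht hw
    have h1 := h.tangent_K (hnS t ht) hw
    have h2 : t * deriv G t = (S : ℂ) * t * deriv G0 ((S : ℂ) * t) := by
      rw [hderiv t (hone t ht)]
      ring
    rw [h2]
    exact h1

end Crest.Agent.Lib.Crouzeix
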