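import Crest.Agent.Lib.Crouzeix.Paulsen
import Crest.Prelude.Def_NumRangeMetric

/-!
# The metric problem for a matrix with `T^k → 0`.

Strict feasibility, attainment of the optimum, `1 ≤ κ²`, and `κ² ≤ C²` from `Paulsen.VN`.
-/

set_option autoImplicit false

open Matrix Filter Topology
open scoped ComplexOrder
open Crest.AnalysisR.NumRange

namespace Crest.Agent.Lib.Crouzeix.MetricOpt

open Crest.Agent.Lib.Crouzeix.Paulsen

variable {n : ℕ}

open scoped Matrix.Norms.L2Operator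

/-- A power of `T` is a strict contraction, if `T^k → 0`. -/
lemma exists_pow_norm_lt (T : Matrix (Fin n) (Fin n) ℂ)
    (hT : Tendsto (fun k : ℕ => T ^ k) atTop (𝓝 0)) :
    ∃ K : ℕ, 1 ≤ K ∧ ‖T ^ K‖ < 1 := by
  have h := tendsto_zero_iff_norm_tendsto_zero.1 hT
  have h2 := (h.eventually (gt_mem_nhds (show (0 : ℝ) < 1 by norm_num))).and
    (eventually_ge_atTop 1)
  obtain ⟨K, hK1, hK2⟩ := h2.exists
  exact ⟨K, hK2, hK1⟩

/-- `nsq (A u) ≤ ‖A‖² nsq u`. -/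
lemma nsq_mulVec_le (A : Matrix (Fin n) (Fin n) ℂ) (u : Fin n → ℂ) :
    nsq (A *ᵥ u) ≤ ‖A‖ ^ 2 * nsq u := by
  rw [nsq_eq_norm, nsq_eq_norm, ← mul_pow]
  have := Matrix.l2_opNorm_mulVec A (WithLp.toLp 2 u : EuclideanSpace ℂ (Fin n))
  gcongr
  simpa using this

lemma quad_conj_mul_self (A : Matrix (Fin n) (Fin n) ℂ) (u : Fin n → ℂ) :
    (star u ⬝ᵥ ((Aᴴ * A) *ᵥ u)).re = nsq (A *ᵥ u) := by
  have := nsq_conjTranspose_mulVec Aᴴ u
  rw [conjTranspose_conjTranspose] at this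
  exact this.symm

lemma posDef_of_quad {M : Matrix (Fin n) (Fin n) ℂ} (hM : M.IsHermitian)
    (h : ∀ u : Fin n → ℂ, u ≠ 0 → 0 < (star u ⬝ᵥ (M *ᵥ u)).re) : M.PosDef := by
  refine PosDef.of_dotProduct_mulVec_pos hM fun u hu => ?_
  have him : (star u ⬝ᵥ (M *ᵥ u)).im = 0 := hM.im_star_dotProduct_mulVec_self u
  rw [Complex.lt_def]
  exact ⟨h u hu, him.symm⟩

lemma nsq_pos {u : Fin n → ℂ} (hu : u ≠ 0) : 0 < nsq u := by
  rw [nsq_eq_sum]
  obtain ⟨i, hi⟩ := Function.ne_iff.1 hu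
  refine Finset.sum_pos' (fun _ _ => by positivity) ⟨i, Finset.mem_univ _, ?_⟩
  have : u i ≠ 0 := hi
  positivity

/-- The quadratic form of a matrix, real part. -/
noncomputable def qf (M : Matrix (Fin n) (Fin n) ℂ) (u : Fin n → ℂ) : ℝ :=
  (star u ⬝ᵥ (M *ᵥ u)).re

lemma qf_add (A B : Matrix (Fin n) (Fin n) ℂ) (u : Fin n → ℂ) : qf (A + B) u = qf A u + qf B u := by
  simp [qf, add_mulVec, dotProduct_add]

lemma qf_sub (A B : Matrix (Fin n) (Fin n) ℂ) (u : Fin n → ℂ) : qf (A - B) u = qf A u - qf B u := by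
  simp [qf, sub_mulVec, dotProduct_sub]

lemma qf_one (u : Fin n → ℂ) : qf (1 : Matrix (Fin n) (Fin n) ℂ) u = nsq u := by
  simp [qf, nsq]

lemma qf_smul (c : ℝ) (A : Matrix (Fin n) (Fin n) ℂ) (u : Fin n → ℂ) :
    qf (((c : ℝ) : ℂ) • A) u = c * qf A u := by
  simp [qf, smul_mulVec, dotProduct_smul]

lemma qf_sum {ι : Type*} (s : Finset ι) (A : ι → Matrix (Fin n) (Fin n) ℂ) (u : Fin n → ℂ) :
    qf (∑ i ∈ s, A i) u = ∑ i ∈ s, qf (A i) u := by
  classical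
  induction s using Finset.induction_on with
  | empty => simp [qf]
  | insert a s ha ih => rw [Finset.sum_insert ha, Finset.sum_insert ha, qf_add, ih]

lemma qf_conj (M T : Matrix (Fin n) (Fin n) ℂ) (u : Fin n → ℂ) :
    qf (Tᴴ * M * T) u = qf M (T *ᵥ u) := by
  unfold qf
  rw [star_mulVec, ← dotProduct_mulVec]
  simp only [mulVec_mulVec, Matrix.mul_assoc]

lemma qf_conj_self (T : Matrix (Fin n) (Fin n) ℂ) (u : Fin n → ℂ) :
    qf (Tᴴ * T) u = nsq (T *ᵥ u) := by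
  have := qf_conj 1 T u
  rwa [Matrix.mul_one, qf_one] at this

lemma qf_nonneg {M : Matrix (Fin n) (Fin n) ℂ} (hM : M.PosSemidef) (u : Fin n → ℂ) : 0 ≤ qf M u :=
  hM.re_dotProduct_nonneg u

lemma qf_le_norm (M : Matrix (Fin n) (Fin n) ℂ) (u : Fin n → ℂ) :
    qf M u ≤ (‖M‖ + 1) * nsq u := by
  set s : ℝ := ‖M‖ + 1 with hs
  have hs0 : 0 < s := by positivity
  have h := two_re_le (((Real.sqrt s : ℝ) : ℂ) • u) (((Real.sqrt s : ℝ)⁻¹ : ℝ) • (M *ᵥ u))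
  have e1 : nsq (((Real.sqrt s : ℝ) : ℂ) • u) = s * nsq u := by
    rw [nsq_smul, Complex.norm_real, Real.norm_of_nonneg (Real.sqrt_nonneg _),
      Real.sq_sqrt hs0.le]
  have e2 : nsq ((((Real.sqrt s : ℝ)⁻¹ : ℝ) : ℂ) • (M *ᵥ u)) = s⁻¹ * nsq (M *ᵥ u) := by
    rw [nsq_smul, Complex.norm_real, Real.norm_of_nonneg (inv_nonneg.2 (Real.sqrt_nonneg _)),
      inv_pow, Real.sq_sqrt hs0.le]
  have e3 : (star (((Real.sqrt s : ℝ) : ℂ) • u) ⬝ᵥ ((((Real.sqrt s : ℝ)⁻¹ : ℝ) : ℂ) • (M *ᵥ u))).re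
      = qf M u := by
    have hne : Real.sqrt s ≠ 0 := (Real.sqrt_pos.2 hs0).ne'
    simp only [star_smul, smul_dotProduct, dotProduct_smul, qf, smul_eq_mul]
    simp only [Complex.star_def, Complex.conj_ofReal]
    rw [← mul_assoc, ← Complex.ofReal_mul, inv_mul_cancel₀ hne]
    simp
  have h' : nsq (((((Real.sqrt s : ℝ)⁻¹ : ℝ) : ℂ)) • (M *ᵥ u))
      = nsq (((Real.sqrt s : ℝ)⁻¹ : ℝ) • (M *ᵥ u)) := by
    congr 1
  have e3' : (star (((Real.sqrt s : ℝ) : ℂ) • u) ⬝ᵥ (((Real.sqrt s : ℝ)⁻¹ : ℝ) • (M *ᵥ u))).re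
      = qf M u := by
    rw [← Complex.coe_smul]; exact e3
  rw [e3', e1, ← h', e2] at h
  have h2 := nsq_mulVec_le M u
  have h3 : s⁻¹ * nsq (M *ᵥ u) ≤ s * nsq u := by
    have hnn := nsq_nonneg u
    have h4 : ‖M‖ ^ 2 ≤ s ^ 2 := by rw [hs]; nlinarith [norm_nonneg M]
    calc s⁻¹ * nsq (M *ᵥ u) ≤ s⁻¹ * (s ^ 2 * nsq u) := by
          gcongr
          exact h2.trans (by gcongr)
      _ = s * nsq u := by field_simp
  linarith

/-- Strict feasibility from `T^k → 0`. -/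
theorem strictly_feasible (T : Matrix (Fin n) (Fin n) ℂ)
    (hT : Tendsto (fun k : ℕ => T ^ k) atTop (𝓝 0)) :
    ∃ (H : Matrix (Fin n) (Fin n) ℂ) (τ : ℝ), MetricStrictlyFeasible T H τ := by
  obtain ⟨K, hK1, hK⟩ := exists_pow_norm_lt T hT
  set S : Matrix (Fin n) (Fin n) ℂ := ∑ k ∈ Finset.range K, (T ^ k)ᴴ * T ^ k with hS
  have hSpsd : S.PosSemidef :=
    posSemidef_sum _ fun k _ => posSemidef_conjTranspose_mul_self (T ^ k)
  have hSH : S.IsHermitian := hSpsd.1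
  have hqS : ∀ u, qf S u = ∑ k ∈ Finset.range K, nsq ((T ^ k) *ᵥ u) := by
    intro u
    rw [hS, qf_sum]
    exact Finset.sum_congr rfl fun k _ => qf_conj_self _ _
  set H : Matrix (Fin n) (Fin n) ℂ := S + S with hH
  have hHH : H.IsHermitian := hSH.add hSH
  have hqH : ∀ u, qf H u = 2 * ∑ k ∈ Finset.range K, nsq ((T ^ k) *ᵥ u) := by
    intro u
    rw [hH, qf_add, hqS]; ring
  have hqge : ∀ u, nsq u ≤ ∑ k ∈ Finset.range K, nsq ((T ^ k) *ᵥ u) := by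
    intro u
    have := Finset.single_le_sum (f := fun k => nsq ((T ^ k) *ᵥ u)) (s := Finset.range K)
      (fun k _ => nsq_nonneg _) (Finset.mem_range.2 (by omega : 0 < K))
    simpa using this
  refine ⟨H, ‖H‖ + 2, ?_, ?_, ?_⟩
  · refine posDef_of_quad (hHH.sub isHermitian_one) fun u hu => ?_
    have h1 := nsq_pos hu
    change 0 < qf _ u
    rw [qf_sub, qf_one, hqH]
    linarith [hqge u]
  · have hcH : (((‖H‖ + 2 : ℝ) : ℂ) • (1 : Matrix (Fin n) (Fin n) ℂ)).IsHermitian := by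
      unfold IsHermitian
      rw [conjTranspose_smul, conjTranspose_one]
      simp
    refine posDef_of_quad (hcH.sub hHH) fun u hu => ?_
    have h1 := nsq_pos hu
    change 0 < qf _ u
    rw [qf_sub, qf_smul, qf_one]
    have := qf_le_norm H u
    nlinarith
  · have hc : (Tᴴ * H * T).IsHermitian := isHermitian_conjTranspose_mul_mul T hHH
    refine posDef_of_quad (hHH.sub hc) fun u hu => ?_
    have h1 := nsq_pos hu
    change 0 < qf _ u
    rw [qf_sub, qf_conj, hqH, hqH]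
    have htel : ∑ k ∈ Finset.range K, nsq ((T ^ k) *ᵥ u)
        - ∑ k ∈ Finset.range K, nsq ((T ^ k) *ᵥ (T *ᵥ u)) = nsq u - nsq ((T ^ K) *ᵥ u) := by
      have e : ∀ k, nsq ((T ^ k) *ᵥ (T *ᵥ u)) = nsq ((T ^ (k + 1)) *ᵥ u) := by
        intro k
        rw [mulVec_mulVec, pow_succ]
      simp only [e]
      rw [← Finset.sum_sub_distrib, Finset.sum_range_sub' (fun k => nsq ((T ^ k) *ᵥ u))]
      simp
    have h2 := nsq_mulVec_le (T ^ K) u
    have h3 : ‖T ^ K‖ ^ 2 < 1 := by nlinarith [norm_nonneg (T ^ K)]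
    nlinarith

lemma one_le_of_feasible (hn : 1 ≤ n) {T H : Matrix (Fin n) (Fin n) ℂ} {τ : ℝ}
    (h : MetricFeasible T H τ) : 1 ≤ τ := by
  classical
  obtain ⟨h1, h2, -⟩ := h
  let u : Fin n → ℂ := fun _ => 1
  have hu : u ≠ 0 := by
    intro h0
    have := congrFun h0 ⟨0, hn⟩
    simp [u] at this
  have hpos := nsq_pos hu
  have e1 := qf_nonneg h1 u
  have e2 := qf_nonneg h2 u
  rw [qf_sub, qf_one] at e1
  rw [qf_sub, qf_smul, qf_one] at e2
  have : nsq u ≤ τ * nsq u := by linarith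
  nlinarith

lemma box_of_feasible {T H : Matrix (Fin n) (Fin n) ℂ} {τ τ₀ : ℝ}
    (h : MetricFeasible T H τ) (hτ : τ ≤ τ₀) : H ∈ Box n τ₀ := by
  refine ⟨h.1, ?_⟩
  have h2 := h.2.1
  have h3 : (((τ₀ - τ : ℝ) : ℂ) • (1 : Matrix (Fin n) (Fin n) ℂ)).PosSemidef := by
    refine PosSemidef.smul PosSemidef.one ?_
    exact_mod_cast sub_nonneg.2 hτ
  have h4 := h2.add h3
  convert h4 using 1
  rw [Complex.ofReal_sub, sub_smul]
  abel

/-- Attainment of the optimum. -/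
theorem exists_optimal (hn : 1 ≤ n) (T H₀ : Matrix (Fin n) (Fin n) ℂ) (τ₀ : ℝ)
    (h₀ : MetricFeasible T H₀ τ₀) :
    ∃ (H : Matrix (Fin n) (Fin n) ℂ) (κ : ℝ), IsOptimalMetric T H κ ∧ 1 ≤ κ := by
  classical
  have hτ1 := one_le_of_feasible hn h₀
  let K : Set (Matrix (Fin n) (Fin n) ℂ × ℝ) := {q | MetricFeasible T q.1 q.2 ∧ q.2 ≤ τ₀}
  have hKsub : K ⊆ Box n τ₀ ×ˢ Set.Icc 1 τ₀ := by
    rintro ⟨H, τ⟩ ⟨hf, hτ⟩
    exact ⟨box_of_feasible hf hτ, one_le_of_feasible hn hf, hτ⟩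
  have hcomp : IsCompact (Box n τ₀ ×ˢ Set.Icc (1 : ℝ) τ₀) :=
    (isCompact_box (by linarith)).prod isCompact_Icc
  have hKcl : IsClosed K := by
    have c1 : Continuous fun q : Matrix (Fin n) (Fin n) ℂ × ℝ => q.1 - 1 :=
      continuous_fst.sub continuous_const
    have c2 : Continuous fun q : Matrix (Fin n) (Fin n) ℂ × ℝ =>
        ((q.2 : ℝ) : ℂ) • (1 : Matrix (Fin n) (Fin n) ℂ) - q.1 :=
      ((Complex.continuous_ofReal.comp continuous_snd).smul continuous_const).sub continuous_fst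
    have c3 : Continuous fun q : Matrix (Fin n) (Fin n) ℂ × ℝ =>
        q.1 - T.conjTranspose * q.1 * T :=
      continuous_fst.sub ((continuous_const.matrix_mul continuous_fst).matrix_mul continuous_const)
    exact ((isClosed_posSemidef.preimage c1).inter
      ((isClosed_posSemidef.preimage c2).inter (isClosed_posSemidef.preimage c3))).inter
      (isClosed_le continuous_snd continuous_const)
  have hKcomp : IsCompact K := hcomp.of_isClosed_subset hKcl hKsub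
  have hKne : K.Nonempty := ⟨(H₀, τ₀), h₀, le_rfl⟩
  obtain ⟨⟨H, κ⟩, hmem, hmin⟩ := hKcomp.exists_isMinOn hKne continuous_snd.continuousOn
  refine ⟨H, κ, ⟨hmem.1, ?_⟩, one_le_of_feasible hn hmem.1⟩
  intro H' τ' hf'
  by_cases hle : τ' ≤ τ₀
  · have : ((H', τ') : Matrix (Fin n) (Fin n) ℂ × ℝ) ∈ K := ⟨hf', hle⟩
    exact hmin this
  · have := hmem.2
    simp only at this
    linarith

/-- **The metric problem, from `T^k → 0` and `VN T 2 r`.** -/
theorem metric_of_VN (hn : 1 ≤ n) (T : Matrix (Fin n) (Fin n) ℂ)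
    (hT : Tendsto (fun k : ℕ => T ^ k) atTop (𝓝 0)) {r : ℝ} (hr0 : 0 ≤ r) (hr1 : r < 1)
    (hVN : VN T 2 r) :
    (∃ (H : Matrix (Fin n) (Fin n) ℂ) (τ : ℝ), MetricStrictlyFeasible T H τ) ∧
    ∃ (H : Matrix (Fin n) (Fin n) ℂ) (κsq : ℝ),
      IsOptimalMetric T H κsq ∧ 1 ≤ κsq ∧ κsq ≤ 4 := by
  refine ⟨strictly_feasible T hT, ?_⟩
  obtain ⟨H₁, hH₁, hH₁'⟩ := exists_metric T hT (C := 2) (by norm_num) hr0 hr1 hVN
  have hf : MetricFeasible T H₁ 4 := by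
    refine ⟨hH₁.1, ?_, hH₁'⟩
    have := hH₁.2
    convert this using 3
    norm_num
  obtain ⟨H, κ, hopt, h1⟩ := exists_optimal hn T H₁ 4 hf
  exact ⟨H, κ, hopt, h1, hopt.2 H₁ 4 hf⟩

/-- Gelfand: if all eigenvalues of `T` are in the open unit disc then `T^k → 0`. -/
theorem tendsto_pow_of_spectrum (T : Matrix (Fin n) (Fin n) ℂ)
    (h : ∀ μ ∈ spectrum ℂ T, ‖μ‖ < 1) : Tendsto (fun k : ℕ => T ^ k) atTop (𝓝 0) := by
  classical
  rcases Nat.eq_zero_or_pos n with rfl | hn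
  · refine tendsto_const_nhds.congr fun k => ?_
    exact Subsingleton.elim _ _
  haveI : Nonempty (Fin n) := ⟨⟨0, hn⟩⟩
  have hρ : spectralRadius ℂ T < ((1 : NNReal) : ENNReal) := by
    refine spectrum.spectralRadius_lt_of_forall_lt T fun z hz => ?_
    have := h z hz
    rw [← NNReal.coe_lt_coe]
    simpa using this
  obtain ⟨s, hs1, hs2⟩ := ENNReal.lt_iff_exists_nnreal_btwn.1 hρ
  have hgel := spectrum.pow_nnnorm_pow_one_div_tendsto_nhds_spectralRadius T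
  have hev := (hgel.eventually (gt_mem_nhds hs1)).and (eventually_ge_atTop 1)
  have hs2' : (s : ℝ) < 1 := by
    have : s < 1 := by exact_mod_cast hs2
    exact_mod_cast this
  have hlim : Tendsto (fun k : ℕ => (s : ℝ) ^ k) atTop (𝓝 0) :=
    tendsto_pow_atTop_nhds_zero_of_lt_one s.2 hs2'
  refine squeeze_zero_norm' ?_ hlim
  filter_upwards [hev] with k hk
  obtain ⟨hk1, hk2⟩ := hk
  have hk0 : k ≠ 0 := by omega
  have e : ((‖T ^ k‖₊ : NNReal) : ENNReal) = ((‖T ^ k‖₊ : ENNReal) ^ (1 / (k : ℝ))) ^ k := by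
    rw [← ENNReal.rpow_natCast, ← ENNReal.rpow_mul]
    have : (1 / (k : ℝ)) * (k : ℝ) = 1 := by
      field_simp
    rw [this, ENNReal.rpow_one]
  have h3 : ((‖T ^ k‖₊ : NNReal) : ENNReal) ≤ (s : ENNReal) ^ k := by
    rw [e]
    exact ENNReal.pow_le_pow_left hk1.le
  have h4 : ‖T ^ k‖₊ ≤ s ^ k := by exact_mod_cast h3
  have h5 : (‖T ^ k‖₊ : ℝ) ≤ ((s ^ k : NNReal) : ℝ) := by exact_mod_cast h4
  simpa using h5

/-- Every eigenvalue of `A` lies in the numerical range. -/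
lemma spectrum_subset_numRange (A : Matrix (Fin n) (Fin n) ℂ) : spectrum ℂ A ⊆ numRange A := by
  classical
  intro μ hμ
  have h1 : ¬ IsUnit (algebraMap ℂ (Matrix (Fin n) (Fin n) ℂ) μ - A) := hμ
  rw [Matrix.isUnit_iff_isUnit_det, isUnit_iff_ne_zero, not_not] at h1
  obtain ⟨v, hv, hv0⟩ := Matrix.exists_mulVec_eq_zero_iff.2 h1
  have hAv : A *ᵥ v = μ • v := by
    rw [sub_mulVec, sub_eq_zero] at hv0
    rw [← hv0, algebraMap_eq_diagonal]
    ext i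
    simp [mulVec_diagonal]
  have hx0 : (WithLp.toLp 2 v : EuclideanSpace ℂ (Fin n)) ≠ 0 := by
    intro h0
    apply hv
    simpa using h0
  set y : EuclideanSpace ℂ (Fin n) := WithLp.toLp 2 v with hy
  have hn0 : ‖y‖ ≠ 0 := norm_ne_zero_iff.2 hx0
  refine ⟨(‖y‖⁻¹ : ℂ) • y, ?_, ?_⟩
  · rw [norm_smul]
    simp [hn0]
  · have hA : (Matrix.toEuclideanLin A) y = μ • y := by
      change WithLp.toLp 2 (A *ᵥ v) = μ • WithLp.toLp 2 v
      rw [hAv]
      rfl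
    rw [map_smul, hA, inner_smul_left, inner_smul_right, inner_smul_right,
      inner_self_eq_norm_sq_to_K]
    have : ((‖y‖ : ℂ)) ≠ 0 := by exact_mod_cast hn0
    simp
    field_simp

/-- In the setting of `S0180`, `T = p(A)` has `T^k → 0`. -/
theorem tendsto_pow_aeval (A : Matrix (Fin n) (Fin n) ℂ) (hn : 1 ≤ n)
    (Ω : Set ℂ) (f : ℂ → ℂ) (hf₃ : f '' Ω = Metric.ball 0 1) (hA : numRange A ⊆ Ω)
    (p : Polynomial ℂ) (hp : AgreesOnSpectrum A f p) :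
    Tendsto (fun k : ℕ => (Polynomial.aeval A p) ^ k) atTop (𝓝 0) := by
  classical
  refine tendsto_pow_of_spectrum _ fun μ hμ => ?_
  haveI : Nonempty (Fin n) := ⟨⟨0, hn⟩⟩
  rw [spectrum.map_polynomial_aeval A p] at hμ
  obtain ⟨lam, hlam, rfl⟩ := hμ
  have h0 := hp lam hlam 0 (by omega)
  simp only [iteratedDeriv_zero] at h0
  change ‖Polynomial.eval lam p‖ < 1
  rw [h0]
  have hmem : f lam ∈ f '' Ω := ⟨lam, hA (spectrum_subset_numRange A hlam), rfl⟩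
  rw [hf₃] at hmem
  simpa using hmem

end Crest.Agent.Lib.Crouzeix.MetricOpt
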