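import Mathlib
import Crest.Agent.Lib.Crouzeix.InjDeriv

/-!
# Difference quotients in a Banach algebra; the factorisation `f(z) - T = (z - a) B(z)` (helper95)
-/

set_option autoImplicit false

open Complex Metric Set Filter Topology Real Bornology Polynomial

namespace Crest.Agent.Lib.Crouzeix.Poisson

variable {𝔸 : Type*} [NormedRing 𝔸] [NormedAlgebra ℂ 𝔸]

/-- The difference quotient `(q(z) - q(a)) / (z - a)`, a polynomial in `a`. -/
noncomputable def dq (a : 𝔸) (q : ℂ[X]) (z : ℂ) : 𝔸 := aeval a (q /ₘ (X - C z))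

theorem sub_mul_dq (a : 𝔸) (q : ℂ[X]) (z : ℂ) :
    (algebraMap ℂ 𝔸 z - a) * dq a q z = q.eval z • (1 : 𝔸) - aeval a q := by
  have h := Polynomial.modByMonic_add_div q (X - C z)
  rw [modByMonic_X_sub_C_eq_C_eval] at h
  have h2 := congrArg (aeval a) h
  simp only [map_add, map_mul, aeval_C, map_sub, aeval_X] at h2
  rw [dq, Algebra.smul_def, mul_one, ← h2]
  noncomm_ring

theorem differentiable_dq (a : 𝔸) (q : ℂ[X]) : Differentiable ℂ (dq a q) := by
  have h : dq a q = fun z => ∑ i ∈ Finset.range (q.natDegree + 1),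
      (∑ k ∈ Finset.Icc (i + 1) q.natDegree, z ^ (k - (i + 1)) * q.coeff k) • a ^ i := by
    funext z
    have hdeg : (q /ₘ (X - C z)).natDegree < q.natDegree + 1 := by
      rw [Polynomial.natDegree_divByMonic _ (monic_X_sub_C z)]
      omega
    rw [dq, Polynomial.aeval_eq_sum_range' hdeg]
    refine Finset.sum_congr rfl fun i _ => ?_
    rw [Polynomial.coeff_divByMonic_X_sub_C]
  rw [h]
  refine Differentiable.fun_sum fun i _ => ?_
  refine Differentiable.smul_const ?_ _
  refine Differentiable.fun_sum fun k _ => ?_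
  fun_prop

/-- The polynomial identity behind `B`. -/
theorem poly_identity (p χ : ℂ[X]) (z γ φ : ℂ) (hφ : φ = p.eval z + χ.eval z * γ) :
    (X - C z) * (p /ₘ (X - C z) + C γ * (χ /ₘ (X - C z))) + C φ = p + C γ * χ := by
  have h1 := Polynomial.modByMonic_add_div p (X - C z)
  have h2 := Polynomial.modByMonic_add_div χ (X - C z)
  rw [modByMonic_X_sub_C_eq_C_eval] at h1 h2
  rw [hφ]
  simp only [C_add, C_mul]
  linear_combination h1 + C γ * h2

variable [CompleteSpace 𝔸] [Nontrivial 𝔸]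

/-- `B(z)` is invertible for `z ∈ U` (uses that `f` is injective). -/
theorem isUnit_B {a : 𝔸} {χ p : ℂ[X]} {f g : ℂ → ℂ} {U : Set ℂ} (hU : IsOpen U)
    (hf : DifferentiableOn ℂ f U) (hfinj : InjOn f U) (hg : DifferentiableOn ℂ g U)
    (hfeq : ∀ z ∈ U, f z = p.eval z + χ.eval z * g z)
    (hspec : spectrum ℂ a ⊆ U) (hχ : ∀ μ ∈ spectrum ℂ a, χ.eval μ = 0) {z : ℂ} (hz : z ∈ U) :
    IsUnit (dq a p z + g z • dq a χ z) := by
  set r : ℂ[X] := p /ₘ (X - C z) + C (g z) * (χ /ₘ (X - C z)) with hrdef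
  have hr : aeval a r = dq a p z + g z • dq a χ z := by
    simp only [hrdef, dq, map_add, map_mul, aeval_C, Algebra.smul_def]
  rw [← hr]
  by_contra hnot
  have h0 : (0 : ℂ) ∈ spectrum ℂ (aeval a r) := by
    rw [spectrum.mem_iff]
    simpa using hnot
  rw [spectrum.map_polynomial_aeval_of_nonempty a r (spectrum.nonempty a)] at h0
  obtain ⟨μ, hμ, hrμ⟩ := h0
  have hrμ' : r.eval μ = 0 := hrμ
  have hpoly := poly_identity p χ z (g z) (f z) (hfeq z hz)
  have hpoly' : (X - C z) * r + C (f z) = p + C (g z) * χ := hpoly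
  have hev := congrArg (Polynomial.eval μ) hpoly'
  simp only [eval_add, eval_mul, eval_sub, eval_X, eval_C, hrμ', mul_zero, zero_add, hχ μ hμ,
    add_zero] at hev
  have hμU := hspec hμ
  have hfμ : f μ = p.eval μ := by
    rw [hfeq μ hμU, hχ μ hμ, zero_mul, add_zero]
  by_cases hμz : μ = z
  · subst hμz
    -- derivative at the eigenvalue
    have hd := congrArg (fun P => Polynomial.eval μ (Polynomial.derivative P)) hpoly'
    simp only [derivative_add, derivative_mul, derivative_sub, derivative_X, derivative_C, eval_add,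
      eval_mul, eval_sub, eval_X, eval_C, sub_self, zero_mul, add_zero, sub_zero,
      one_mul, zero_add, hrμ'] at hd
    -- derivative of `f`
    have hgat : HasDerivAt g (deriv g μ) μ :=
      (hg.differentiableAt (hU.mem_nhds hμU)).hasDerivAt
    have hfd : HasDerivAt (fun y => p.eval y + χ.eval y * g y)
        (p.derivative.eval μ + (χ.derivative.eval μ * g μ + χ.eval μ * deriv g μ)) μ :=
      (p.hasDerivAt μ).add ((χ.hasDerivAt μ).mul hgat)
    have hfev : f =ᶠ[𝓝 μ] fun y => p.eval y + χ.eval y * g y := by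
      filter_upwards [hU.mem_nhds hμU] with y hy
      exact hfeq y hy
    have hdf : deriv f μ = p.derivative.eval μ + (χ.derivative.eval μ * g μ + χ.eval μ * deriv g μ) :=
      (hfd.congr_of_eventuallyEq hfev).deriv
    have hne := Crest.Agent.Lib.Crouzeix.deriv_ne_zero_of_injOn hU hf hfinj hμU
    apply hne
    rw [hdf, hχ μ hμ]
    linear_combination -hd
  · apply hμz
    apply hfinj hμU hz
    rw [hfμ, ← hev]

omit [CompleteSpace 𝔸] [Nontrivial 𝔸] in
/-- The basic relation: `z R(f z) = R(f z) a + B(z)⁻¹`. -/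
theorem smul_resolvent_rel {a T : 𝔸} {χ p : ℂ[X]} {φ γ z : ℂ}
    (hT : T = aeval a p) (hχa : aeval a χ = 0) (hφ : φ = p.eval z + χ.eval z * γ)
    (hB : IsUnit (dq a p z + γ • dq a χ z)) (hz : z ∉ spectrum ℂ a) :
    z • resolvent T φ = resolvent T φ * a + Ring.inverse (dq a p z + γ • dq a χ z) := by
  set B := dq a p z + γ • dq a χ z with hBdef
  have hza : IsUnit (algebraMap ℂ 𝔸 z - a) := by
    rwa [spectrum.notMem_iff] at hz
  have hfac : algebraMap ℂ 𝔸 φ - T = (algebraMap ℂ 𝔸 z - a) * B := by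
    rw [hBdef, mul_add, sub_mul_dq, mul_smul_comm, sub_mul_dq, hχa, hT, hφ]
    rw [Algebra.algebraMap_eq_smul_one]
    simp only [sub_zero, smul_smul, add_smul]
    rw [mul_comm γ]
    abel
  obtain ⟨u, hu⟩ := hza
  obtain ⟨v, hv⟩ := hB
  have hres : resolvent T φ = (↑v⁻¹ : 𝔸) * (↑u⁻¹ : 𝔸) := by
    rw [resolvent, hfac, ← hu, ← hv, ← Units.val_mul, Ring.inverse_unit, mul_inv_rev,
      Units.val_mul]
  have hmul : resolvent T φ * (algebraMap ℂ 𝔸 z - a) = (↑v⁻¹ : 𝔸) := by
    rw [hres, ← hu, mul_assoc, Units.inv_mul, mul_one]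
  rw [← hv, Ring.inverse_unit]
  rw [← hmul, mul_sub, Algebra.algebraMap_eq_smul_one, mul_smul_comm, mul_one]
  abel

/-- `Ring.inverse` is holomorphic along a holomorphic family of units. -/
theorem differentiableOn_inverse {B : ℂ → 𝔸} {U : Set ℂ} (hU : IsOpen U)
    (hB : DifferentiableOn ℂ B U) (hunit : ∀ z ∈ U, IsUnit (B z)) :
    DifferentiableOn ℂ (fun z => Ring.inverse (B z)) U := by
  intro z hz
  obtain ⟨u, hu⟩ := hunit z hz
  have h1 : DifferentiableAt ℂ (Ring.inverse : 𝔸 → 𝔸) (B z) := by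
    rw [← hu]
    exact differentiableAt_inverse u.isUnit
  exact (h1.comp z (hB.differentiableAt (hU.mem_nhds hz))).differentiableWithinAt

end Crest.Agent.Lib.Crouzeix.Poisson
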