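import Mathlib

/-!
# Circle means: limit at infinity, exact forms (helper95)

General lemmas about `Real.circleAverage f 0 1` used for the Poisson density of S0181.
-/

set_option autoImplicit false

open Complex Metric Set Filter Topology Real MeasureTheory Bornology

namespace Crest.Agent.Lib.Crouzeix.Poisson

variable {X : Type*} [NormedAddCommGroup X] [NormedSpace ℂ X]

/-- Reflection: the mean of `f ∘ inv` over the unit circle is the mean of `f`. -/
theorem circleAverage_comp_inv (f : ℂ → X) :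
    circleAverage (fun t => f t⁻¹) 0 1 = circleAverage f 0 1 := by
  unfold circleAverage
  congr 1
  have h1 : ∀ θ : ℝ, f (circleMap 0 1 θ)⁻¹ = (fun θ => f (circleMap 0 1 θ)) (-θ) := by
    intro θ
    simp [circleMap_zero_inv]
  simp_rw [h1]
  rw [intervalIntegral.integral_comp_neg (fun θ => f (circleMap 0 1 θ))]
  have hper : (fun θ => f (circleMap 0 1 θ)).Periodic (2 * π) :=
    fun x => by simp [periodic_circleMap 0 1 x]
  have := hper.intervalIntegral_add_eq (-(2 * π)) 0
  simpa using this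

variable [CompleteSpace X]

/-- The mean over the unit circle of a function holomorphic outside the disc with a limit at
infinity is that limit. -/
theorem circleAverage_eq_limit {f : ℂ → X} {a : X}
    (hc : ContinuousOn f {t : ℂ | 1 ≤ ‖t‖}) (hd : ∀ t : ℂ, 1 < ‖t‖ → DifferentiableAt ℂ f t)
    (hlim : Tendsto f (cobounded ℂ) (𝓝 a)) : circleAverage f 0 1 = a := by
  classical
  set g : ℂ → X := fun η => if η = 0 then a else f η⁻¹ with hg
  have hgeq : ∀ η : ℂ, η ≠ 0 → g η = f η⁻¹ := fun η hη => by simp [hg, hη]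
  have hg0 : g 0 = a := by simp [hg]
  have hcont : ContinuousOn g (closedBall 0 |(1 : ℝ)|) := by
    intro η hη
    by_cases h0 : η = 0
    · subst h0
      apply ContinuousAt.continuousWithinAt
      rw [ContinuousAt, hg0]
      rw [← nhdsNE_sup_pure, tendsto_sup]
      constructor
      · have h1 : Tendsto (fun η => f η⁻¹) (𝓝[≠] 0) (𝓝 a) :=
          hlim.comp tendsto_inv₀_nhdsNE_zero
        refine h1.congr' ?_
        filter_upwards [self_mem_nhdsWithin] with z hz
        exact (hgeq z hz).symm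
      · rw [tendsto_pure_left]
        intro s hs
        rw [hg0]
        exact mem_of_mem_nhds hs
    · have hη' : ‖η‖ ≤ 1 := by simpa using hη
      have hpos : 0 < ‖η‖ := norm_pos_iff.2 h0
      have hinv : η⁻¹ ∈ {t : ℂ | 1 ≤ ‖t‖} := by
        simp only [mem_ofPred_eq, norm_inv]
        exact (one_le_inv₀ hpos).2 hη'
      have hcw : ContinuousWithinAt f {t : ℂ | 1 ≤ ‖t‖} η⁻¹ := hc _ hinv
      have hinvc : ContinuousWithinAt (fun z : ℂ => z⁻¹) (closedBall 0 |(1 : ℝ)| \ {0}) η :=
        (continuousAt_inv₀ h0).continuousWithinAt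
      have hmaps : MapsTo (fun z : ℂ => z⁻¹) (closedBall 0 |(1 : ℝ)| \ {0}) {t : ℂ | 1 ≤ ‖t‖} := by
        intro z hz
        have h1 : ‖z‖ ≤ 1 := by simpa using hz.1
        have h2 : z ≠ 0 := by simpa using hz.2
        simp only [mem_ofPred_eq, norm_inv]
        exact (one_le_inv₀ (norm_pos_iff.2 h2)).2 h1
      have hcomp : ContinuousWithinAt (fun z : ℂ => f z⁻¹) (closedBall 0 |(1 : ℝ)| \ {0}) η :=
        ContinuousWithinAt.comp (t := {t : ℂ | 1 ≤ ‖t‖}) hcw hinvc hmaps
      have hmem : closedBall 0 |(1 : ℝ)| \ {0} ∈ 𝓝[closedBall 0 |(1 : ℝ)|] η := by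
        have : ({0} : Set ℂ)ᶜ ∈ 𝓝 η := isOpen_compl_singleton.mem_nhds h0
        filter_upwards [self_mem_nhdsWithin, nhdsWithin_le_nhds this] with z hz1 hz2
        exact ⟨hz1, hz2⟩
      have hcomp' : ContinuousWithinAt (fun z : ℂ => f z⁻¹) (closedBall 0 |(1 : ℝ)|) η :=
        hcomp.mono_of_mem_nhdsWithin hmem
      refine hcomp'.congr_of_eventuallyEq ?_ (hgeq η h0)
      have : ({0} : Set ℂ)ᶜ ∈ 𝓝 η := isOpen_compl_singleton.mem_nhds h0
      filter_upwards [nhdsWithin_le_nhds this] with z hz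
      exact hgeq z hz
  have hdiff : ∀ z ∈ ball (0 : ℂ) |(1 : ℝ)| \ ({0} : Set ℂ), DifferentiableAt ℂ g z := by
    intro z hz
    have h1 : ‖z‖ < 1 := by simpa using hz.1
    have h2 : z ≠ 0 := by simpa using hz.2
    have h3 : 1 < ‖z⁻¹‖ := by
      rw [norm_inv]
      exact (one_lt_inv₀ (norm_pos_iff.2 h2)).2 h1
    have h4 : DifferentiableAt ℂ (fun w : ℂ => f w⁻¹) z :=
      DifferentiableAt.comp z (hd _ h3) (differentiableAt_inv h2)
    refine h4.congr_of_eventuallyEq ?_
    have : ({0} : Set ℂ)ᶜ ∈ 𝓝 z := isOpen_compl_singleton.mem_nhds h2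
    filter_upwards [this] with w hw
    exact hgeq w hw
  have hmean := circleAverage_of_differentiable_on_off_countable (countable_singleton (0 : ℂ))
    hcont hdiff
  rw [hg0] at hmean
  rw [← hmean, ← circleAverage_comp_inv f]
  apply circleAverage_congr_sphere
  intro z hz
  have hz1 : ‖z‖ = 1 := by simpa using hz
  have hz0 : z ≠ 0 := by
    intro h
    simp [h] at hz1
  exact (hgeq z hz0).symm

/-- Exact forms have zero mean on the unit circle. -/
theorem circleAverage_smul_deriv_eq_zero {F F' : ℂ → X}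
    (h : ∀ t : ℂ, ‖t‖ = 1 → HasDerivAt F (F' t) t)
    (hc : ContinuousOn F' (sphere 0 1)) :
    circleAverage (fun t => t • F' t) 0 1 = 0 := by
  have hmem : ∀ θ : ℝ, circleMap 0 1 θ ∈ sphere (0 : ℂ) 1 := fun θ =>
    circleMap_mem_sphere 0 zero_le_one θ
  have hnorm : ∀ θ : ℝ, ‖circleMap 0 1 θ‖ = 1 := fun θ => by simpa using hmem θ
  have hder : ∀ θ : ℝ, HasDerivAt (fun θ : ℝ => F (circleMap 0 1 θ))
      ((circleMap 0 1 θ * I) • F' (circleMap 0 1 θ)) θ := by
    intro θ
    have h1 : HasDerivAt (circleMap 0 1) (circleMap 0 1 θ * I) θ := by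
      simpa [circleMap_sub_center] using hasDerivAt_circleMap (0 : ℂ) 1 θ
    exact (h _ (hnorm θ)).scomp θ h1
  have hcont : Continuous fun θ : ℝ => (circleMap 0 1 θ * I) • F' (circleMap 0 1 θ) := by
    have h1 : Continuous fun θ : ℝ => F' (circleMap 0 1 θ) :=
      hc.comp_continuous (continuous_circleMap 0 1) hmem
    exact ((continuous_circleMap 0 1).mul continuous_const).smul h1
  have hint := intervalIntegral.integral_eq_sub_of_hasDerivAt (a := 0) (b := 2 * π)
    (fun θ _ => hder θ) (hcont.intervalIntegrable _ _)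
  have hper : F (circleMap 0 1 (2 * π)) = F (circleMap 0 1 0) := by
    congr 1
    simpa using periodic_circleMap 0 1 0
  rw [hper, sub_self] at hint
  have hI : ∫ θ in (0 : ℝ)..2 * π, (circleMap 0 1 θ * I) • F' (circleMap 0 1 θ)
      = I • ∫ θ in (0 : ℝ)..2 * π, (circleMap 0 1 θ) • F' (circleMap 0 1 θ) := by
    rw [← intervalIntegral.integral_smul]
    congr 1
    ext θ
    rw [smul_smul, mul_comm]
  rw [hI] at hint
  have h0 : ∫ θ in (0 : ℝ)..2 * π, (circleMap 0 1 θ) • F' (circleMap 0 1 θ) = 0 := by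
    have := (smul_eq_zero.1 hint)
    rcases this with h | h
    · exact absurd h I_ne_zero
    · exact h
  unfold circleAverage
  rw [h0, smul_zero]

end Crest.Agent.Lib.Crouzeix.Poisson
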