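import Mathlib
import Crest.Agent.Lib.Crouzeix.PCalc1

/-!
# Cauchy's theorem on a closed curve inside a compact convex set (helper95)
-/

set_option autoImplicit false

open Complex Metric Set Filter Topology Real Bornology

namespace Crest.Agent.Lib.Crouzeix.Poisson

variable {X : Type*} [NormedAddCommGroup X] [NormedSpace ℂ X] [CompleteSpace X]

/-- Continuity on the sphere of `deriv g`, for `g` holomorphic near the sphere. -/
theorem continuousOn_deriv_sphere {D : Set ℂ} (hD : IsOpen D) (hsD : sphere (0 : ℂ) 1 ⊆ D)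
    {g : ℂ → ℂ} (hg : DifferentiableOn ℂ g D) : ContinuousOn (deriv g) (sphere (0 : ℂ) 1) :=
  (hg.deriv hD).continuousOn.mono hsD

/-- **Cauchy's theorem** on the closed curve `g` (holomorphic near the unit circle) inside a
compact convex set `K`, for `b` holomorphic near `K`. -/
theorem circleAverage_cauchy {K W D : Set ℂ} (hK : IsCompact K) (hKc : Convex ℝ K)
    (hW : IsOpen W) (hKW : K ⊆ W) {b : ℂ → X} (hb : DifferentiableOn ℂ b W)
    (hD : IsOpen D) (hsD : sphere (0 : ℂ) 1 ⊆ D) {g : ℂ → ℂ} (hg : DifferentiableOn ℂ g D)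
    (hgK : ∀ t : ℂ, ‖t‖ = 1 → g t ∈ K) :
    circleAverage (fun t => (t * deriv g t) • b (g t)) 0 1 = 0 := by
  obtain ⟨δ, hδ, hδW⟩ := hK.exists_thickening_subset_open hW hKW
  have hconv : Convex ℝ (thickening δ K) := hKc.thickening δ
  have hopen : IsOpen (thickening δ K) := isOpen_thickening
  obtain ⟨F, hF⟩ := hconv.exists_forall_hasDerivWithinAt (𝕜 := ℂ) (hb.mono hδW)
  have hKth : K ⊆ thickening δ K := self_subset_thickening hδ K
  have hF' : ∀ z ∈ thickening δ K, HasDerivAt F (b z) z := fun z hz =>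
    (hF z hz).hasDerivAt (hopen.mem_nhds hz)
  have hsph : ∀ t : ℂ, ‖t‖ = 1 → t ∈ D := fun t ht => hsD (by simpa using ht)
  have hgat : ∀ t : ℂ, ‖t‖ = 1 → HasDerivAt g (deriv g t) t := fun t ht =>
    (hg.differentiableAt (hD.mem_nhds (hsph t ht))).hasDerivAt
  have hder : ∀ t : ℂ, ‖t‖ = 1 → HasDerivAt (fun t => F (g t)) (deriv g t • b (g t)) t := by
    intro t ht
    exact (hF' _ (hKth (hgK t ht))).scomp t (hgat t ht)
  have hcont : ContinuousOn (fun t => deriv g t • b (g t)) (sphere (0 : ℂ) 1) := by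
    refine (continuousOn_deriv_sphere hD hsD hg).smul ?_
    have h1 : ContinuousOn g (sphere (0 : ℂ) 1) := hg.continuousOn.mono hsD
    refine hb.continuousOn.comp h1 ?_
    intro t ht
    exact hδW (hKth (hgK t (by simpa using ht)))
  have := circleAverage_smul_deriv_eq_zero hder hcont
  simpa only [smul_smul] using this

end Crest.Agent.Lib.Crouzeix.Poisson
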