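import Mathlib
import Crest.Prelude.Def_NumRangeMetric

/-!
# Division of holomorphic functions by characteristic polynomials (helper95)
-/

set_option autoImplicit false

open Complex Metric Set Filter Topology Real Bornology Polynomial

namespace Crest.Agent.Lib.Crouzeix.Poisson

/-- Division by a product of linear factors, counted with multiplicity. -/
theorem exists_div_multiset {W : Set ℂ} (hW : IsOpen W) (s : Multiset ℂ) :
    ∀ (D : ℂ → ℂ), DifferentiableOn ℂ D W → (∀ μ ∈ s, μ ∈ W) →
      (∀ μ ∈ s, ((s.count μ : ℕ) : ℕ∞) ≤ analyticOrderAt D μ) →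
      ∃ g : ℂ → ℂ, DifferentiableOn ℂ g W ∧
        ∀ z ∈ W, D z = (s.map (fun μ => z - μ)).prod * g z := by
  induction s using Multiset.induction_on with
  | empty =>
    intro D hD _ _
    exact ⟨D, hD, by simp⟩
  | cons μ s ih =>
    intro D hD hsW hord
    have hμW : μ ∈ W := hsW μ (by simp)
    have hnh : W ∈ 𝓝 μ := hW.mem_nhds hμW
    have hDan : AnalyticAt ℂ D μ := hD.analyticAt hnh
    have hD0 : D μ = 0 := by
      have h1 := hord μ (by simp)
      have h2 : analyticOrderAt D μ ≠ 0 := by
        intro h0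
        rw [h0] at h1
        simp at h1
      exact (hDan.analyticOrderAt_ne_zero).1 h2
    set D1 : ℂ → ℂ := dslope D μ with hD1def
    have hD1 : DifferentiableOn ℂ D1 W := (Complex.differentiableOn_dslope hnh).2 hD
    have hDeq : ∀ z, D z = (z - μ) * D1 z := by
      intro z
      have := sub_smul_dslope D μ z
      simpa [hD0] using this.symm
    obtain ⟨g, hg, hgeq⟩ := ih D1 hD1 (fun ν hν => hsW ν (by simp [hν])) (by
      intro ν hν
      have hνW := hsW ν (by simp [hν])
      have hord' := hord ν (by simp [hν])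
      have hD1an : AnalyticAt ℂ D1 ν := hD1.analyticAt (hW.mem_nhds hνW)
      have hfun : D = (fun z => z - μ) * D1 := by
        funext z
        simp [hDeq z]
      have hidan : AnalyticAt ℂ (fun z : ℂ => z - μ) ν := by fun_prop
      have hordmul : analyticOrderAt D ν
          = analyticOrderAt (fun z : ℂ => z - μ) ν + analyticOrderAt D1 ν := by
        rw [hfun]
        exact analyticOrderAt_mul hidan hD1an
      rw [hordmul] at hord'
      by_cases hνμ : ν = μ
      · subst hνμ
        have h1 : analyticOrderAt (fun z : ℂ => z - ν) ν = 1 := analyticOrderAt_id_sub_const_self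
        rw [h1, Multiset.count_cons_self] at hord'
        have h2 : ((s.count ν + 1 : ℕ) : ℕ∞) = (s.count ν : ℕ∞) + 1 := by push_cast; rfl
        rw [h2, add_comm] at hord'
        exact (ENat.add_le_add_iff_left (by simp)).1 hord'
      · have h1 : analyticOrderAt (fun z : ℂ => z - μ) ν = 0 :=
          analyticOrderAt_id_sub_const_of_ne hνμ
        rw [h1, zero_add, Multiset.count_cons_of_ne hνμ] at hord'
        exact hord')
    refine ⟨g, hg, fun z hz => ?_⟩
    rw [hDeq z, hgeq z hz]
    simp [mul_assoc]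

/-- Division by the characteristic polynomial of a matrix. -/
theorem exists_div_charpoly {n : ℕ} (A : Matrix (Fin n) (Fin n) ℂ) {W : Set ℂ} (hW : IsOpen W)
    (hAW : spectrum ℂ A ⊆ W) {D : ℂ → ℂ} (hD : DifferentiableOn ℂ D W)
    (hvan : ∀ μ ∈ spectrum ℂ A, ∀ j < n, iteratedDeriv j D μ = 0) :
    ∃ g : ℂ → ℂ, DifferentiableOn ℂ g W ∧ ∀ z ∈ W, D z = A.charpoly.eval z * g z := by
  have hmonic : A.charpoly.Monic := A.charpoly_monic
  have hsplits : A.charpoly.Splits := IsAlgClosed.splits _
  have hroot : ∀ μ ∈ A.charpoly.roots, μ ∈ spectrum ℂ A := by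
    intro μ hμ
    have h1 : A.charpoly.IsRoot μ := (Polynomial.mem_roots hmonic.ne_zero).1 hμ
    rw [Matrix.mem_spectrum_iff_isRoot_charpoly]
    exact h1
  obtain ⟨g, hg, hgeq⟩ := exists_div_multiset hW A.charpoly.roots D hD
    (fun μ hμ => hAW (hroot μ hμ)) (by
      intro μ hμ
      have hμs := hroot μ hμ
      have hDan : AnalyticAt ℂ D μ := hD.analyticAt (hW.mem_nhds (hAW hμs))
      have h1 : ((n : ℕ) : ℕ∞) ≤ analyticOrderAt D μ :=
        (natCast_le_analyticOrderAt_iff_iteratedDeriv_eq_zero hDan).2 (hvan μ hμs)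
      refine le_trans ?_ h1
      have h2 : A.charpoly.roots.count μ ≤ n := by
        calc A.charpoly.roots.count μ ≤ Multiset.card A.charpoly.roots := Multiset.count_le_card _ _
          _ ≤ A.charpoly.natDegree := Polynomial.card_roots' _
          _ = n := by simpa using A.charpoly_natDegree_eq_dim
      exact_mod_cast h2)
  refine ⟨g, hg, fun z hz => ?_⟩
  rw [hgeq z hz, hsplits.eval_eq_prod_roots_of_monic hmonic z]

open Crest.AnalysisR.NumRange in
/-- A function agreeing with a polynomial on the spectrum (to order `n`) is that polynomial plus a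
multiple of the characteristic polynomial. -/
theorem exists_eq_add_charpoly_mul {n : ℕ} (A : Matrix (Fin n) (Fin n) ℂ) {W : Set ℂ}
    (hW : IsOpen W) (hAW : spectrum ℂ A ⊆ W) {v : ℂ → ℂ} (hv : DifferentiableOn ℂ v W)
    {q : ℂ[X]} (hq : AgreesOnSpectrum A v q) :
    ∃ g : ℂ → ℂ, DifferentiableOn ℂ g W ∧
      ∀ z ∈ W, v z = q.eval z + A.charpoly.eval z * g z := by
  have hqd : Differentiable ℂ (fun z => q.eval z) := q.differentiable
  obtain ⟨g, hg, hgeq⟩ := exists_div_charpoly A (D := fun z => v z - q.eval z) hW hAW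
    (hv.sub hqd.differentiableOn) (by
      intro μ hμ j hj
      have h1 : ContDiffAt ℂ j v μ :=
        (hv.analyticAt (hW.mem_nhds (hAW hμ))).contDiffAt
      have h2 : ContDiffAt ℂ j (fun z => q.eval z) μ := (hqd.analyticAt μ).contDiffAt
      have h3 := iteratedDeriv_sub (x := μ) (n := j) h1 h2
      have h3' : iteratedDeriv j (fun z => v z - q.eval z) μ
          = iteratedDeriv j v μ - iteratedDeriv j (fun z => q.eval z) μ := h3
      rw [h3', hq μ hμ j hj, sub_self])
  refine ⟨g, hg, fun z hz => ?_⟩
  have := hgeq z hz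
  linear_combination this

end Crest.Agent.Lib.Crouzeix.Poisson
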