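import Mathlib
import Crest.Agent.Lib.Crouzeix.InjDeriv

/-!
# Structure at infinity of the exterior map in the hypotheses of S0181 (helper95)
-/

set_option autoImplicit false

open Complex Metric Set Filter Topology Real Bornology

namespace Crest.Agent.Lib.Crouzeix.Poisson

/-- Position of the boundary curve. -/
theorem curve_frontier {Ω : Set ℂ} (hΩo : IsOpen Ω) {G : ℂ → ℂ} {r : ℝ} (hr₂ : r < 1)
    (hG₁ : DifferentiableOn ℂ G {t : ℂ | r < ‖t‖}) (hG₂ : Set.InjOn G {t : ℂ | r < ‖t‖})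
    (hG₃ : G '' {t : ℂ | 1 < ‖t‖} = (closure Ω)ᶜ) (t : ℂ) (ht : ‖t‖ = 1) :
    G t ∈ closure Ω ∧ G t ∉ Ω := by
  have hdom : ∀ s : ℂ, 1 ≤ ‖s‖ → r < ‖s‖ := fun s hs => lt_of_lt_of_le hr₂ hs
  have hopen : IsOpen {t : ℂ | r < ‖t‖} := isOpen_lt continuous_const continuous_norm
  constructor
  · by_contra hcl
    have h1 : G t ∈ (closure Ω)ᶜ := hcl
    rw [← hG₃] at h1
    obtain ⟨t', ht', heq⟩ := h1
    have ht'1 : 1 < ‖t'‖ := ht'
    have := hG₂ (hdom t' ht'1.le) (hdom t ht.ge) heq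
    rw [this, ht] at ht'1
    exact lt_irrefl _ ht'1
  · intro hmem
    have hcont : ContinuousAt G t :=
      (hG₁.differentiableAt (hopen.mem_nhds (hdom t ht.ge))).continuousAt
    have hev : ∀ᶠ s in 𝓝 t, G s ∈ Ω := hcont.eventually (hΩo.mem_nhds hmem)
    obtain ⟨ε, hε, hball⟩ := Metric.eventually_nhds_iff_ball.1 hev
    set s : ℂ := t + ((ε / 2 : ℝ) : ℂ) * t with hs
    have hs1 : s ∈ ball t ε := by
      simp only [mem_ball, dist_eq_norm, hs, add_sub_cancel_left, norm_mul, ht, mul_one,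
        Complex.norm_real, Real.norm_eq_abs]
      rw [abs_of_pos (by positivity)]
      linarith
    have hs2 : 1 < ‖s‖ := by
      have : s = ((1 + ε / 2 : ℝ) : ℂ) * t := by
        simp only [hs]
        push_cast
        ring
      rw [this, norm_mul, ht, mul_one, Complex.norm_real, Real.norm_eq_abs,
        abs_of_pos (by positivity)]
      linarith
    have h1 : G s ∈ G '' {t : ℂ | 1 < ‖t‖} := ⟨s, hs2, rfl⟩
    rw [hG₃] at h1
    exact h1 (subset_closure (hball s hs1))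

/-- Laurent structure at infinity. -/
theorem exterior_structure {Ω : Set ℂ} (hΩo : IsOpen Ω) (hΩb : IsBounded Ω) (hΩne : Ω.Nonempty)
    {G : ℂ → ℂ} {r : ℝ} (hr₁ : 0 < r) (hr₂ : r < 1)
    (hG₁ : DifferentiableOn ℂ G {t : ℂ | r < ‖t‖}) (hG₂ : Set.InjOn G {t : ℂ | r < ‖t‖})
    (hG₃ : G '' {t : ℂ | 1 < ‖t‖} = (closure Ω)ᶜ) :
    ∃ (c : ℂ) (e : ℂ → ℂ), c ≠ 0 ∧ DifferentiableOn ℂ e (ball 0 r⁻¹) ∧
      ∀ t : ℂ, r < ‖t‖ → G t = c * t + e t⁻¹ := by
  classical
  obtain ⟨z0, hz0⟩ := hΩne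
  obtain ⟨d, hd, hball⟩ := Metric.isOpen_iff.1 hΩo z0 hz0
  have hopen : IsOpen {t : ℂ | r < ‖t‖} := isOpen_lt continuous_const continuous_norm
  have hdom : ∀ s : ℂ, 1 ≤ ‖s‖ → r < ‖s‖ := fun s hs => lt_of_lt_of_le hr₂ hs
  -- `G` avoids `Ω` on `1 ≤ ‖t‖`
  have hout : ∀ t : ℂ, 1 < ‖t‖ → G t ∉ Ω := by
    intro t ht hmem
    have h1 : G t ∈ G '' {t : ℂ | 1 < ‖t‖} := ⟨t, ht, rfl⟩
    rw [hG₃] at h1
    exact h1 (subset_closure hmem)
  have hdist : ∀ t : ℂ, 1 < ‖t‖ → d ≤ ‖G t - z0‖ := by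
    intro t ht
    by_contra hlt
    push Not at hlt
    apply hout t ht
    apply hball
    simpa [mem_ball, dist_eq_norm] using hlt
  -- inversion
  set F : ℂ → ℂ := fun η => (G η⁻¹ - z0)⁻¹ with hF
  have hinv_norm : ∀ η : ℂ, η ∈ ball (0 : ℂ) 1 → η ≠ 0 → 1 < ‖η⁻¹‖ := by
    intro η hη h0
    rw [norm_inv]
    exact (one_lt_inv₀ (norm_pos_iff.2 h0)).2 (by simpa using hη)
  have hne0 : ∀ η : ℂ, η ∈ ball (0 : ℂ) 1 → η ≠ 0 → G η⁻¹ - z0 ≠ 0 := by
    intro η hη h0 h
    have := hdist _ (hinv_norm η hη h0)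
    rw [h, norm_zero] at this
    linarith
  have hFdiff : DifferentiableOn ℂ F (ball 0 1 \ {0}) := by
    intro η hη
    have hη0 : η ≠ 0 := by simpa using hη.2
    have h1 : DifferentiableAt ℂ G η⁻¹ :=
      hG₁.differentiableAt (hopen.mem_nhds (hdom _ (hinv_norm η hη.1 hη0).le))
    have h2 : DifferentiableAt ℂ (fun η : ℂ => G η⁻¹) η :=
      DifferentiableAt.comp η h1 (differentiableAt_inv hη0)
    exact ((h2.sub_const z0).inv (hne0 η hη.1 hη0)).differentiableWithinAt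
  have hFbdd : BddAbove ((norm ∘ F) '' (ball 0 1 \ {0})) := by
    refine ⟨d⁻¹, ?_⟩
    rintro _ ⟨η, hη, rfl⟩
    have hη0 : η ≠ 0 := by simpa using hη.2
    simp only [Function.comp, hF, norm_inv]
    exact inv_anti₀ hd (hdist _ (hinv_norm η hη.1 hη0))
  have hEdiff := Complex.differentiableOn_update_limUnder_of_bddAbove
    (isOpen_ball.mem_nhds (mem_ball_self (zero_lt_one (α := ℝ)))) hFdiff hFbdd
  set E : ℂ → ℂ := Function.update F 0 (limUnder (𝓝[≠] (0 : ℂ)) F) with hE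
  have hEF : ∀ η : ℂ, η ≠ 0 → E η = F η := fun η hη => by simp [hE, Function.update_of_ne hη]
  have hEne : ∀ η : ℂ, η ∈ ball (0 : ℂ) 1 → η ≠ 0 → E η ≠ 0 := by
    intro η hη h0
    rw [hEF η h0]
    exact inv_ne_zero (hne0 η hη h0)
  have hEc : ContinuousAt E 0 :=
    (hEdiff.differentiableAt (isOpen_ball.mem_nhds (mem_ball_self zero_lt_one))).continuousAt
  -- `E 0 = 0`
  have hE0 : E 0 = 0 := by
    by_contra hne
    -- `‖E‖` stays away from zero near `0`
    have hpos : 0 < ‖E 0‖ / 2 := by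
      have := norm_pos_iff.2 hne
      positivity
    have hev : ∀ᶠ η in 𝓝 (0 : ℂ), ‖E 0‖ / 2 < ‖E η‖ := by
      have h1 : ContinuousAt (fun η => ‖E η‖) 0 := hEc.norm
      exact h1.eventually (lt_mem_nhds (by have := norm_pos_iff.2 hne; linarith))
    obtain ⟨δ, hδ, hδball⟩ := Metric.eventually_nhds_iff_ball.1 hev
    -- bound of `G` on the annulus
    set δ' : ℝ := min δ 1 with hδ'
    have hδ'pos : 0 < δ' := lt_min hδ zero_lt_one
    have hcompact : IsCompact ({t : ℂ | 1 ≤ ‖t‖} ∩ closedBall 0 (2 * δ'⁻¹ + 1)) :=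
      (isCompact_closedBall _ _).inter_left (isClosed_le continuous_const continuous_norm)
    have hGcont : ContinuousOn G ({t : ℂ | 1 ≤ ‖t‖} ∩ closedBall 0 (2 * δ'⁻¹ + 1)) := by
      intro t ht
      exact ((hG₁.differentiableAt (hopen.mem_nhds (hdom t ht.1))).continuousAt).continuousWithinAt
    obtain ⟨B1, hB1⟩ := hcompact.exists_bound_of_continuousOn hGcont
    -- far from the origin, `G` is bounded too
    have hfar : ∀ t : ℂ, 2 * δ'⁻¹ + 1 < ‖t‖ → ‖G t‖ ≤ ‖z0‖ + (‖E 0‖ / 2)⁻¹ := by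
      intro t ht
      have hδinv : 0 < δ'⁻¹ := inv_pos.2 hδ'pos
      have ht0 : t ≠ 0 := by
        intro h
        rw [h, norm_zero] at ht
        linarith
      have htpos : 0 < ‖t‖ := norm_pos_iff.2 ht0
      have hη : t⁻¹ ∈ ball (0 : ℂ) δ := by
        simp only [mem_ball, dist_zero_right, norm_inv]
        have h1 : δ'⁻¹ < ‖t‖ := by linarith
        have h2 : ‖t‖⁻¹ < δ' := by
          rw [inv_lt_comm₀ htpos hδ'pos]
          exact h1
        exact lt_of_lt_of_le h2 (min_le_left _ _)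
      have h1 := hδball _ hη
      rw [hEF _ (inv_ne_zero ht0)] at h1
      simp only [hF, inv_inv, norm_inv] at h1
      have h1' : ‖G t - z0‖ < (‖E 0‖ / 2)⁻¹ := by
        have hG0 : 0 < ‖G t - z0‖ := by
          rw [norm_pos_iff]
          intro h
          rw [h, norm_zero, inv_zero] at h1
          linarith
        rw [lt_inv_comm₀ hG0 hpos]
        exact h1
      calc ‖G t‖ = ‖(G t - z0) + z0‖ := by rw [sub_add_cancel]
        _ ≤ ‖G t - z0‖ + ‖z0‖ := norm_add_le _ _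
        _ ≤ ‖z0‖ + (‖E 0‖ / 2)⁻¹ := by linarith
    -- contradiction with the image being unbounded
    obtain ⟨R, hR⟩ := (hΩb.closure).subset_closedBall 0
    set M : ℝ := max (max |B1| (‖z0‖ + (‖E 0‖ / 2)⁻¹)) |R| + 1 with hM
    have hM1 : |B1| + 1 ≤ M := by
      have h1 : |B1| ≤ max |B1| (‖z0‖ + (‖E 0‖ / 2)⁻¹) := le_max_left _ _
      have h2 := le_max_left (max |B1| (‖z0‖ + (‖E 0‖ / 2)⁻¹)) |R|
      rw [hM]
      linarith
    have hM2 : ‖z0‖ + (‖E 0‖ / 2)⁻¹ + 1 ≤ M := by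
      have h1 : ‖z0‖ + (‖E 0‖ / 2)⁻¹ ≤ max |B1| (‖z0‖ + (‖E 0‖ / 2)⁻¹) := le_max_right _ _
      have h2 := le_max_left (max |B1| (‖z0‖ + (‖E 0‖ / 2)⁻¹)) |R|
      rw [hM]
      linarith
    have hM3 : |R| + 1 ≤ M := by
      have h2 := le_max_right (max |B1| (‖z0‖ + (‖E 0‖ / 2)⁻¹)) |R|
      rw [hM]
      linarith
    have hMpos : 0 ≤ M := by
      have := abs_nonneg R
      linarith
    set z : ℂ := (M : ℂ) with hz
    have hznorm : ‖z‖ = M := by
      rw [hz, Complex.norm_real, Real.norm_of_nonneg hMpos]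
    have hzout : z ∈ (closure Ω)ᶜ := by
      intro hmem
      have h1 := hR hmem
      simp only [mem_closedBall, dist_zero_right] at h1
      rw [hznorm] at h1
      have := le_abs_self R
      linarith
    rw [← hG₃] at hzout
    obtain ⟨t, ht, hzt⟩ := hzout
    have ht1 : 1 < ‖t‖ := ht
    by_cases hcase : ‖t‖ ≤ 2 * δ'⁻¹ + 1
    · have h1 := hB1 t ⟨ht1.le, by simpa using hcase⟩
      rw [hzt, hznorm] at h1
      have := le_abs_self B1
      linarith
    · push Not at hcase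
      have h1 := hfar t hcase
      rw [hzt, hznorm] at h1
      linarith
  -- `E` is injective
  have hEinj : InjOn E (ball 0 1) := by
    intro a ha b hb hab
    by_cases ha0 : a = 0
    · by_cases hb0 : b = 0
      · rw [ha0, hb0]
      · exfalso
        rw [ha0, hE0] at hab
        exact hEne b hb hb0 hab.symm
    · by_cases hb0 : b = 0
      · exfalso
        rw [hb0, hE0] at hab
        exact hEne a ha ha0 hab
      · rw [hEF a ha0, hEF b hb0] at hab
        have h1 : G a⁻¹ - z0 = G b⁻¹ - z0 := inv_injective hab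
        have h2 : G a⁻¹ = G b⁻¹ := sub_left_injective h1
        have h3 := hG₂ (hdom _ (hinv_norm a ha ha0).le) (hdom _ (hinv_norm b hb hb0).le) h2
        exact inv_injective h3
  have hEd0 : deriv E 0 ≠ 0 :=
    Crest.Agent.Lib.Crouzeix.deriv_ne_zero_of_injOn isOpen_ball hEdiff hEinj (mem_ball_self zero_lt_one)
  -- factor out `η`
  have hballnhds : ball (0 : ℂ) 1 ∈ 𝓝 (0 : ℂ) := isOpen_ball.mem_nhds (mem_ball_self zero_lt_one)
  set E1 : ℂ → ℂ := dslope E 0 with hE1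
  have hE1diff : DifferentiableOn ℂ E1 (ball 0 1) :=
    (Complex.differentiableOn_dslope hballnhds).2 hEdiff
  have hE1eq : ∀ η : ℂ, E η = η * E1 η := by
    intro η
    have := sub_smul_dslope E 0 η
    simp only [sub_zero, smul_eq_mul, hE0] at this
    exact this.symm
  have hE1ne : ∀ η ∈ ball (0 : ℂ) 1, E1 η ≠ 0 := by
    intro η hη
    by_cases h0 : η = 0
    · rw [h0, hE1, dslope_same]
      exact hEd0
    · intro h
      apply hEne η hη h0
      rw [hE1eq, h, mul_zero]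
  set Θ : ℂ → ℂ := fun η => (E1 η)⁻¹ with hΘ
  have hΘdiff : DifferentiableOn ℂ Θ (ball 0 1) := by
    intro η hη
    exact ((hE1diff η hη).inv (hE1ne η hη))
  have hΘ0 : Θ 0 ≠ 0 := inv_ne_zero (hE1ne 0 (mem_ball_self zero_lt_one))
  set Θ1 : ℂ → ℂ := dslope Θ 0 with hΘ1
  have hΘ1diff : DifferentiableOn ℂ Θ1 (ball 0 1) :=
    (Complex.differentiableOn_dslope hballnhds).2 hΘdiff
  have hΘeq : ∀ η : ℂ, Θ η = Θ 0 + η * Θ1 η := by
    intro η
    have := sub_smul_dslope Θ 0 η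
    simp only [sub_zero, smul_eq_mul] at this
    rw [this]
    ring
  -- the key identity
  have hkey : ∀ η : ℂ, η ∈ ball (0 : ℂ) 1 → η ≠ 0 → G η⁻¹ = Θ 0 * η⁻¹ + (z0 + Θ1 η) := by
    intro η hη h0
    have h1 : E η = (G η⁻¹ - z0)⁻¹ := hEF η h0
    have h2 : G η⁻¹ - z0 = (E η)⁻¹ := by
      rw [h1, inv_inv]
    have h3 : (E η)⁻¹ = η⁻¹ * Θ η := by
      rw [hE1eq, mul_inv]
    have h4 : G η⁻¹ = z0 + η⁻¹ * Θ η := by
      rw [← h3, ← h2]
      ring
    rw [h4, hΘeq η]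
    field_simp
    ring
  -- the function `e`
  set c : ℂ := Θ 0 with hc
  set e : ℂ → ℂ := fun η => if η = 0 then z0 + Θ1 0 else G η⁻¹ - c * η⁻¹ with he
  have hEq1 : ∀ η ∈ ball (0 : ℂ) 1, e η = z0 + Θ1 η := by
    intro η hη
    by_cases h0 : η = 0
    · simp [he, h0]
    · simp only [he, h0, if_false]
      rw [hkey η hη h0]
      ring
  have hEdiff' : DifferentiableOn ℂ e (ball 0 r⁻¹) := by
    intro η hη
    by_cases hη1 : η ∈ ball (0 : ℂ) 1
    · have h1 : DifferentiableAt ℂ (fun η => z0 + Θ1 η) η :=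
        ((hΘ1diff.differentiableAt (isOpen_ball.mem_nhds hη1)).const_add z0)
      refine (h1.congr_of_eventuallyEq ?_).differentiableWithinAt
      filter_upwards [isOpen_ball.mem_nhds hη1] with w hw
      exact hEq1 w hw
    · have h0 : η ≠ 0 := by
        intro h
        exact hη1 (by simp [h])
      have hnorm : r < ‖η⁻¹‖ := by
        rw [norm_inv]
        have hη' : ‖η‖ < r⁻¹ := by simpa using hη
        rw [lt_inv_comm₀ hr₁ (norm_pos_iff.2 h0)]
        exact hη'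
      have h1 : DifferentiableAt ℂ G η⁻¹ := hG₁.differentiableAt (hopen.mem_nhds hnorm)
      have h2 : DifferentiableAt ℂ (fun η : ℂ => G η⁻¹ - c * η⁻¹) η :=
        (DifferentiableAt.comp η h1 (differentiableAt_inv h0)).sub
          ((differentiableAt_inv h0).const_mul c)
      refine (h2.congr_of_eventuallyEq ?_).differentiableWithinAt
      have : ({0} : Set ℂ)ᶜ ∈ 𝓝 η := isOpen_compl_singleton.mem_nhds h0
      filter_upwards [this] with w hw
      have hw0 : w ≠ 0 := by simpa using hw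
      simp [he, hw0]
  refine ⟨c, e, hΘ0, hEdiff', fun t ht => ?_⟩
  have ht0 : t ≠ 0 := by
    intro h
    rw [h, norm_zero] at ht
    linarith
  have : e t⁻¹ = G t - c * t := by
    simp [he, ht0]
  rw [this]
  ring

end Crest.Agent.Lib.Crouzeix.Poisson
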