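import Mathlib
import Crest.Agent.Lib.Crouzeix.PCauchy

/-!
# The functional `Φ` and its multiplicativity (helper95)
-/

set_option autoImplicit false

open Complex Metric Set Filter Topology Real Bornology Polynomial

namespace Crest.Agent.Lib.Crouzeix.Poisson

/-- A holomorphic curve near the unit circle sending the circle into the compact convex set `K`. -/
structure CurveSetup (K D : Set ℂ) (G : ℂ → ℂ) : Prop where
  compact : IsCompact K
  convex : Convex ℝ K
  openD : IsOpen D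
  sphere_sub : sphere (0 : ℂ) 1 ⊆ D
  diff : DifferentiableOn ℂ G D
  mapsK : ∀ t : ℂ, ‖t‖ = 1 → G t ∈ K

variable {𝔸 : Type*} [NormedRing 𝔸] [NormedAlgebra ℂ 𝔸] [CompleteSpace 𝔸]

/-- `Φ(b) = mean[t G'(t) b(G t) 𝓡(G t)]`. -/
noncomputable def Phi (G : ℂ → ℂ) (Rr : ℂ → 𝔸) (b : ℂ → ℂ) : 𝔸 :=
  circleAverage (fun t => (t * deriv G t * b (G t)) • Rr (G t)) 0 1

variable {K D : Set ℂ} {G : ℂ → ℂ}

theorem CurveSetup.mem_D (hS : CurveSetup K D G) {t : ℂ} (ht : ‖t‖ = 1) : t ∈ D :=
  hS.sphere_sub (by simpa using ht)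

theorem CurveSetup.continuousOn (hS : CurveSetup K D G) :
    ContinuousOn G (sphere (0 : ℂ) 1) :=
  hS.diff.continuousOn.mono hS.sphere_sub

theorem CurveSetup.continuousOn_deriv (hS : CurveSetup K D G) :
    ContinuousOn (deriv G) (sphere (0 : ℂ) 1) :=
  continuousOn_deriv_sphere hS.openD hS.sphere_sub hS.diff

theorem CurveSetup.continuousOn_comp (hS : CurveSetup K D G) {X : Type*} [TopologicalSpace X]
    {W : Set ℂ} (hKW : K ⊆ W) {b : ℂ → X} (hb : ContinuousOn b W) :
    ContinuousOn (fun t => b (G t)) (sphere (0 : ℂ) 1) :=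
  hb.comp hS.continuousOn fun t ht => hKW (hS.mapsK t (by simpa using ht))

/-- Continuity of the integrand of `Φ`. -/
theorem CurveSetup.continuousOn_integrand (hS : CurveSetup K D G) {Rr : ℂ → 𝔸}
    (hRc : ContinuousOn (fun t => Rr (G t)) (sphere (0 : ℂ) 1))
    {W : Set ℂ} (hKW : K ⊆ W) {b : ℂ → ℂ} (hb : DifferentiableOn ℂ b W) :
    ContinuousOn (fun t => (t * deriv G t * b (G t)) • Rr (G t)) (sphere (0 : ℂ) 1) := by
  refine ContinuousOn.smul ?_ hRc
  exact (continuousOn_id.mul hS.continuousOn_deriv).mul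
    (hS.continuousOn_comp hKW hb.continuousOn)

theorem circleIntegrable_of_continuousOn {X : Type*} [NormedAddCommGroup X] [NormedSpace ℝ X]
    {F : ℂ → X} (h : ContinuousOn F (sphere (0 : ℂ) 1)) : CircleIntegrable F 0 1 :=
  ContinuousOn.circleIntegrable zero_le_one h

theorem Phi_congr {Rr : ℂ → 𝔸} (hS : CurveSetup K D G) {W : Set ℂ} (hKW : K ⊆ W) {b₁ b₂ : ℂ → ℂ}
    (h : ∀ z ∈ W, b₁ z = b₂ z) : Phi G Rr b₁ = Phi G Rr b₂ := by
  unfold Phi
  apply circleAverage_congr_sphere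
  intro t ht
  have ht1 : ‖t‖ = 1 := by simpa using ht
  simp only [h _ (hKW (hS.mapsK t ht1))]

theorem Phi_add {Rr : ℂ → 𝔸} (hS : CurveSetup K D G)
    (hRc : ContinuousOn (fun t => Rr (G t)) (sphere (0 : ℂ) 1))
    {W : Set ℂ} (hKW : K ⊆ W) {b₁ b₂ : ℂ → ℂ} (h₁ : DifferentiableOn ℂ b₁ W)
    (h₂ : DifferentiableOn ℂ b₂ W) :
    Phi G Rr (fun z => b₁ z + b₂ z) = Phi G Rr b₁ + Phi G Rr b₂ := by
  unfold Phi
  rw [← circleAverage_fun_add (circleIntegrable_of_continuousOn
      (hS.continuousOn_integrand hRc hKW h₁))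
    (circleIntegrable_of_continuousOn (hS.continuousOn_integrand hRc hKW h₂))]
  congr 1
  funext t
  rw [← add_smul, mul_add]

theorem Phi_const_mul {Rr : ℂ → 𝔸} (c : ℂ) (b : ℂ → ℂ) :
    Phi G Rr (fun z => b z * c) = c • Phi G Rr b := by
  unfold Phi
  rw [← circleAverage_fun_smul]
  congr 1
  funext t
  rw [smul_smul]
  congr 1
  ring

/-- Right multiplication commutes with means. -/
theorem circleAverage_mul_const {F : ℂ → 𝔸} (hF : ContinuousOn F (sphere (0 : ℂ) 1)) (a : 𝔸) :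
    circleAverage (fun t => F t * a) 0 1 = circleAverage F 0 1 * a := by
  let L : 𝔸 →L[ℝ] 𝔸 := (ContinuousLinearMap.mul ℝ 𝔸).flip a
  have := L.circleAverage_comp_comm (f := F) (circleIntegrable_of_continuousOn hF)
  simpa [L, Function.comp_def] using this

/-- The key multiplicativity: `Φ(b z) = Φ(b) a`. -/
theorem Phi_mul_id (hS : CurveSetup K D G) {a : 𝔸} {Rr Ss : ℂ → 𝔸} {W0 : Set ℂ}
    (hW0 : IsOpen W0) (hKW0 : K ⊆ W0)
    (hRc : ContinuousOn (fun t => Rr (G t)) (sphere (0 : ℂ) 1))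
    (hSs : DifferentiableOn ℂ Ss W0)
    (hrel : ∀ t : ℂ, ‖t‖ = 1 → G t • Rr (G t) = Rr (G t) * a + Ss (G t))
    {W : Set ℂ} (hW : IsOpen W) (hKW : K ⊆ W) {b : ℂ → ℂ} (hb : DifferentiableOn ℂ b W) :
    Phi G Rr (fun z => b z * z) = Phi G Rr b * a := by
  unfold Phi
  have hc := hS.continuousOn_integrand hRc hKW hb
  rw [← circleAverage_mul_const hc a]
  have hW0W : IsOpen (W ∩ W0) := hW.inter hW0
  have hKW0W : K ⊆ W ∩ W0 := subset_inter hKW hKW0
  have hbS : DifferentiableOn ℂ (fun z => b z • Ss z) (W ∩ W0) :=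
    (hb.mono inter_subset_left).smul (hSs.mono inter_subset_right)
  have hC := circleAverage_cauchy hS.compact hS.convex hW0W hKW0W hbS hS.openD hS.sphere_sub hS.diff
    hS.mapsK
  have hcC : ContinuousOn (fun t => (t * deriv G t) • (b (G t) • Ss (G t))) (sphere (0 : ℂ) 1) := by
    refine ContinuousOn.smul (continuousOn_id.mul hS.continuousOn_deriv) ?_
    exact hS.continuousOn_comp hKW0W hbS.continuousOn
  have hc2 : ContinuousOn (fun t => ((t * deriv G t * b (G t)) • Rr (G t)) * a)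
      (sphere (0 : ℂ) 1) := hc.mul continuousOn_const
  have hsplit : circleAverage (fun t => (t * deriv G t * (b (G t) * G t)) • Rr (G t)) 0 1
      = circleAverage (fun t => ((t * deriv G t * b (G t)) • Rr (G t)) * a) 0 1
        + circleAverage (fun t => (t * deriv G t) • (b (G t) • Ss (G t))) 0 1 := by
    rw [← circleAverage_fun_add (circleIntegrable_of_continuousOn hc2)
      (circleIntegrable_of_continuousOn hcC)]
    apply circleAverage_congr_sphere
    intro t ht
    have ht1 : ‖t‖ = 1 := by simpa using ht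
    have h1 := hrel t ht1
    simp only
    calc (t * deriv G t * (b (G t) * G t)) • Rr (G t)
        = (t * deriv G t * b (G t)) • (G t • Rr (G t)) := by
          rw [smul_smul]; congr 1; ring
      _ = (t * deriv G t * b (G t)) • (Rr (G t) * a + Ss (G t)) := by rw [h1]
      _ = ((t * deriv G t * b (G t)) • Rr (G t)) * a
          + (t * deriv G t) • (b (G t) • Ss (G t)) := by
          rw [smul_add, smul_mul_assoc, smul_smul]
  rw [hsplit, hC, add_zero]

/-- Multiplicativity with polynomials. -/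
theorem Phi_mul_poly (hS : CurveSetup K D G) {a : 𝔸} {Rr Ss : ℂ → 𝔸} {W0 : Set ℂ}
    (hW0 : IsOpen W0) (hKW0 : K ⊆ W0)
    (hRc : ContinuousOn (fun t => Rr (G t)) (sphere (0 : ℂ) 1))
    (hSs : DifferentiableOn ℂ Ss W0)
    (hrel : ∀ t : ℂ, ‖t‖ = 1 → G t • Rr (G t) = Rr (G t) * a + Ss (G t))
    {W : Set ℂ} (hW : IsOpen W) (hKW : K ⊆ W) (q : ℂ[X]) :
    ∀ {b : ℂ → ℂ}, DifferentiableOn ℂ b W →
      Phi G Rr (fun z => b z * q.eval z) = Phi G Rr b * aeval a q := by
  induction q using Polynomial.induction_on with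
  | C c =>
    intro b _
    simp only [eval_C, aeval_C]
    rw [Phi_const_mul, Algebra.smul_def, Algebra.commutes]
  | add p₁ p₂ h₁ h₂ =>
    intro b hb
    have e1 : (fun z => b z * (p₁ + p₂).eval z) = fun z => b z * p₁.eval z + b z * p₂.eval z := by
      funext z
      rw [eval_add, mul_add]
    have d1 : DifferentiableOn ℂ (fun z => b z * p₁.eval z) W :=
      hb.mul p₁.differentiable.differentiableOn
    have d2 : DifferentiableOn ℂ (fun z => b z * p₂.eval z) W :=
      hb.mul p₂.differentiable.differentiableOn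
    rw [e1, Phi_add hS hRc hKW d1 d2, h₁ hb, h₂ hb, map_add, mul_add]
  | monomial n c ih =>
    intro b hb
    have e1 : (fun z => b z * (C c * X ^ (n + 1)).eval z)
        = fun z => (b z * (C c * X ^ n).eval z) * z := by
      funext z
      simp only [eval_mul, eval_C, eval_pow, eval_X]
      ring
    have d1 : DifferentiableOn ℂ (fun z => b z * (C c * X ^ n).eval z) W :=
      hb.mul (C c * X ^ n : ℂ[X]).differentiable.differentiableOn
    rw [e1, Phi_mul_id hS hW0 hKW0 hRc hSs hrel hW hKW d1, ih hb]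
    simp only [map_mul, aeval_C, map_pow, aeval_X, pow_succ, mul_assoc]

/-- The functional calculus: `Φ(v) = Φ(1) q(a)` when `v = q + χ g` and `χ(a) = 0`. -/
theorem Phi_eq_of_decomp (hS : CurveSetup K D G) {a : 𝔸} {Rr Ss : ℂ → 𝔸} {W0 : Set ℂ}
    (hW0 : IsOpen W0) (hKW0 : K ⊆ W0)
    (hRc : ContinuousOn (fun t => Rr (G t)) (sphere (0 : ℂ) 1))
    (hSs : DifferentiableOn ℂ Ss W0)
    (hrel : ∀ t : ℂ, ‖t‖ = 1 → G t • Rr (G t) = Rr (G t) * a + Ss (G t))
    {W : Set ℂ} (hW : IsOpen W) (hKW : K ⊆ W) {χ q : ℂ[X]} (hχ : aeval a χ = 0) {v g : ℂ → ℂ}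
    (hg : DifferentiableOn ℂ g W) (hv : ∀ z ∈ W, v z = q.eval z + χ.eval z * g z) :
    Phi G Rr v = Phi G Rr (fun _ => 1) * aeval a q := by
  have h1 : Phi G Rr v = Phi G Rr (fun z => (1 : ℂ) * q.eval z + g z * χ.eval z) :=
    Phi_congr hS hKW fun z hz => by rw [hv z hz]; ring
  have d1 : DifferentiableOn ℂ (fun z => (1 : ℂ) * q.eval z) W :=
    (differentiableOn_const _).mul q.differentiable.differentiableOn
  have d2 : DifferentiableOn ℂ (fun z => g z * χ.eval z) W :=
    hg.mul χ.differentiable.differentiableOn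
  rw [h1, Phi_add hS hRc hKW d1 d2,
    Phi_mul_poly hS hW0 hKW0 hRc hSs hrel hW hKW q (differentiableOn_const (1 : ℂ)),
    Phi_mul_poly hS hW0 hKW0 hRc hSs hrel hW hKW χ hg, hχ, mul_zero, add_zero]

end Crest.Agent.Lib.Crouzeix.Poisson
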