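import Mathlib
import Crest.Agent.Lib.Crouzeix.PPhi
import Crest.Agent.Lib.Crouzeix.InjDeriv

/-!
# Winding numbers and the normalisation `Φ(1) = 1` (helper95)
-/

set_option autoImplicit false

open Complex Metric Set Filter Topology Real Bornology Polynomial

namespace Crest.Agent.Lib.Crouzeix.Poisson

/-- The logarithmic derivative of `G - z₀` along the exterior map has mean one. -/
theorem mean_log_deriv_G {G e : ℂ → ℂ} {c z₀ : ℂ} {r : ℝ} (hr₁ : 0 < r) (hr₂ : r < 1) (hc : c ≠ 0)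
    (hG₁ : DifferentiableOn ℂ G {t : ℂ | r < ‖t‖})
    (he : DifferentiableOn ℂ e (ball 0 r⁻¹)) (hG : ∀ t : ℂ, r < ‖t‖ → G t = c * t + e t⁻¹)
    (hne : ∀ t : ℂ, 1 ≤ ‖t‖ → G t ≠ z₀) :
    circleAverage (fun t => (t * deriv G t) / (G t - z₀)) 0 1 = 1 := by
  have hopen : IsOpen {t : ℂ | r < ‖t‖} := isOpen_lt continuous_const continuous_norm
  have hdom : ∀ s : ℂ, 1 ≤ ‖s‖ → r < ‖s‖ := fun s hs => lt_of_lt_of_le hr₂ hs
  have hG' : DifferentiableOn ℂ (deriv G) {t : ℂ | r < ‖t‖} := hG₁.deriv hopen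
  have hsub : {t : ℂ | 1 ≤ ‖t‖} ⊆ {t : ℂ | r < ‖t‖} := fun s hs => hdom s hs
  have hcont : ContinuousOn (fun t => (t * deriv G t) / (G t - z₀)) {t : ℂ | 1 ≤ ‖t‖} := by
    refine ContinuousOn.div (continuousOn_id.mul (hG'.continuousOn.mono hsub))
      ((hG₁.continuousOn.mono hsub).sub continuousOn_const) ?_
    intro t ht
    exact sub_ne_zero.2 (hne t ht)
  have hdiff : ∀ t : ℂ, 1 < ‖t‖ → DifferentiableAt ℂ (fun t => (t * deriv G t) / (G t - z₀)) t := by
    intro t ht
    have h1 : t ∈ {t : ℂ | r < ‖t‖} := hdom t ht.le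
    have h2 := hG₁.differentiableAt (hopen.mem_nhds h1)
    have h3 := hG'.differentiableAt (hopen.mem_nhds h1)
    exact (differentiableAt_id.mul h3).div (h2.sub_const z₀) (sub_ne_zero.2 (hne t ht.le))
  refine circleAverage_eq_limit hcont hdiff ?_
  -- the limit at infinity
  have hball0 : (0 : ℂ) ∈ ball (0 : ℂ) r⁻¹ := mem_ball_self (inv_pos.2 hr₁)
  have hean : ContinuousAt e 0 := (he.differentiableAt (isOpen_ball.mem_nhds hball0)).continuousAt
  have he'an : ContinuousAt (deriv e) 0 :=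
    ((he.deriv isOpen_ball).differentiableAt (isOpen_ball.mem_nhds hball0)).continuousAt
  set φ : ℂ → ℂ := fun η => (c - η ^ 2 * deriv e η) / (c + η * (e η - z₀)) with hφ
  have hφc : ContinuousAt φ 0 := by
    refine ContinuousAt.div ?_ ?_ ?_
    · exact continuousAt_const.sub ((continuousAt_id.pow 2).mul he'an)
    · exact continuousAt_const.add (continuousAt_id.mul (hean.sub continuousAt_const))
    · simpa using hc
  have hφ0 : φ 0 = 1 := by
    simp [hφ, hc]
  have hlim : Tendsto (fun t : ℂ => φ t⁻¹) (cobounded ℂ) (𝓝 1) := by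
    rw [← hφ0]
    exact hφc.tendsto.comp tendsto_inv₀_cobounded
  refine hlim.congr' ?_
  have hev : ∀ᶠ t : ℂ in cobounded ℂ, 1 < ‖t‖ := by
    have := (tendsto_norm_cobounded_atTop (E := ℂ)).eventually_gt_atTop 1
    exact this
  filter_upwards [hev] with t ht
  have ht0 : t ≠ 0 := by
    intro h
    rw [h, norm_zero] at ht
    linarith
  have hdomt : r < ‖t‖ := hdom t ht.le
  have hinvball : t⁻¹ ∈ ball (0 : ℂ) r⁻¹ := by
    simp only [mem_ball, dist_zero_right, norm_inv]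
    exact inv_strictAnti₀ hr₁ hdomt
  have hed : HasDerivAt e (deriv e t⁻¹) t⁻¹ :=
    (he.differentiableAt (isOpen_ball.mem_nhds hinvball)).hasDerivAt
  have hinvd : HasDerivAt (fun t : ℂ => t⁻¹) (-(t ^ 2)⁻¹) t := hasDerivAt_inv ht0
  have hGd : HasDerivAt (fun t => c * t + e t⁻¹)
      (c * 1 + deriv e t⁻¹ * (-(t ^ 2)⁻¹)) t :=
    ((hasDerivAt_id t).const_mul c).add (hed.comp t hinvd)
  have hGev : G =ᶠ[𝓝 t] fun t => c * t + e t⁻¹ := by
    filter_upwards [hopen.mem_nhds hdomt] with s hs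
    exact hG s hs
  have hdG : deriv G t = c * 1 + deriv e t⁻¹ * (-(t ^ 2)⁻¹) :=
    (hGd.congr_of_eventuallyEq hGev).deriv
  have hdenom2 : c * t + e t⁻¹ - z₀ ≠ 0 := by
    have := sub_ne_zero.2 (hne t ht.le)
    rwa [hG t hdomt] at this
  simp only [hφ]
  rw [hdG, hG t hdomt]
  generalize e t⁻¹ = E at hdenom2 ⊢
  generalize deriv e t⁻¹ = E'
  have hfac : c * t + E - z₀ = t * (c + t⁻¹ * (E - z₀)) := by
    field_simp
    ring
  have hdenom : c + t⁻¹ * (E - z₀) ≠ 0 := by
    intro h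
    apply hdenom2
    rw [hfac, h, mul_zero]
  rw [hfac, mul_div_mul_left _ _ ht0]
  congr 1
  field_simp
  ring

/-- Invertibility of `1 - η T`. -/
theorem isUnit_one_sub_smul {𝔸 : Type*} [NormedRing 𝔸] [NormedAlgebra ℂ 𝔸] {T : 𝔸}
    (hspec : spectrum ℂ T ⊆ ball 0 1) {η : ℂ} (hη : ‖η‖ ≤ 1) : IsUnit (1 - η • T) := by
  by_cases h0 : η = 0
  · simp [h0]
  have hnot : η⁻¹ ∉ spectrum ℂ T := by
    intro hmem
    have h1 := hspec hmem
    simp only [mem_ball, dist_zero_right, norm_inv] at h1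
    have hpos : 0 < ‖η‖ := norm_pos_iff.2 h0
    have : 1 ≤ ‖η‖⁻¹ := (one_le_inv₀ hpos).2 hη
    linarith
  rw [spectrum.notMem_iff] at hnot
  have heq : 1 - η • T = (Units.mk0 η h0) • (algebraMap ℂ 𝔸 η⁻¹ - T) := by
    rw [Units.smul_def, Units.val_mk0, smul_sub, Algebra.algebraMap_eq_smul_one, smul_smul,
      mul_inv_cancel₀ h0, one_smul]
  rw [heq]
  exact hnot.smul _

theorem isOpen_unit_set {𝔸 : Type*} [NormedRing 𝔸] [NormedAlgebra ℂ 𝔸] [CompleteSpace 𝔸] (T : 𝔸) :
    IsOpen {η : ℂ | IsUnit (1 - η • T)} := by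
  have h1 : Continuous fun η : ℂ => (1 : 𝔸) - η • T :=
    continuous_const.sub (continuous_id.smul continuous_const)
  exact (Units.isOpen (R := 𝔸)).preimage h1

/-- Holomorphy of `η ↦ T (1 - ηT)⁻¹`. -/
theorem differentiableOn_geom {𝔸 : Type*} [NormedRing 𝔸] [NormedAlgebra ℂ 𝔸] [CompleteSpace 𝔸]
    (T Y : 𝔸) : DifferentiableOn ℂ (fun η : ℂ => Y * Ring.inverse (1 - η • T))
      {η : ℂ | IsUnit (1 - η • T)} := by
  intro η hη
  obtain ⟨u, hu⟩ := hη
  have h1 : DifferentiableAt ℂ (Ring.inverse : 𝔸 → 𝔸) (1 - η • T) := by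
    rw [← hu]
    exact differentiableAt_inverse u.isUnit
  have h2 : DifferentiableAt ℂ (fun η : ℂ => (1 : 𝔸) - η • T) η :=
    (differentiableAt_const _).sub (differentiableAt_id.smul_const T)
  have h3 : DifferentiableAt ℂ (fun η : ℂ => Ring.inverse ((1 : 𝔸) - η • T)) η :=
    DifferentiableAt.comp (g := Ring.inverse) η h1 h2
  exact (h3.const_mul Y).differentiableWithinAt

theorem inverse_eq_of_mul_eq_one {R : Type*} [MonoidWithZero R] {u x : R} (hu : IsUnit u)
    (h : u * x = 1) : Ring.inverse u = x := by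
  obtain ⟨v, hv⟩ := hu
  rw [← hv, Ring.inverse_unit]
  have : (↑v⁻¹ : R) = ↑v⁻¹ * (↑v * x) := by rw [← hv] at h; rw [h, mul_one]
  rw [this, ← mul_assoc, Units.inv_mul, one_mul]

/-- Neumann form of the resolvent on the unit circle. -/
theorem resolvent_eq_on_circle {𝔸 : Type*} [NormedRing 𝔸] [NormedAlgebra ℂ 𝔸] {T : 𝔸}
    (hspec : spectrum ℂ T ⊆ ball 0 1) {w : ℂ} (hw : ‖w‖ = 1) :
    resolvent T w = w⁻¹ • (1 : 𝔸) + (w⁻¹ * w⁻¹) • (T * Ring.inverse (1 - w⁻¹ • T)) := by
  have hw0 : w ≠ 0 := by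
    intro h
    rw [h, norm_zero] at hw
    exact zero_ne_one hw
  have hnot : w ∉ spectrum ℂ T := by
    intro hmem
    have h1 := hspec hmem
    simp only [mem_ball, dist_zero_right, hw] at h1
    exact lt_irrefl _ h1
  rw [spectrum.notMem_iff] at hnot
  have hu : IsUnit (1 - w⁻¹ • T) := isUnit_one_sub_smul hspec (by simp [hw])
  set Y := Ring.inverse (1 - w⁻¹ • T) with hY
  have hYmul : (1 - w⁻¹ • T) * Y = 1 := Ring.mul_inverse_cancel _ hu
  rw [resolvent]
  apply inverse_eq_of_mul_eq_one hnot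
  have hfac : algebraMap ℂ 𝔸 w - T = w • (1 - w⁻¹ • T) := by
    rw [smul_sub, smul_smul, mul_inv_cancel₀ hw0, one_smul, Algebra.algebraMap_eq_smul_one]
  rw [hfac]
  have hcomm : (1 - w⁻¹ • T) * T = T * (1 - w⁻¹ • T) := by
    rw [sub_mul, mul_sub, one_mul, mul_one, smul_mul_assoc, mul_smul_comm]
  have h1 : (1 - w⁻¹ • T) * (T * Y) = T := by
    rw [← mul_assoc, hcomm, mul_assoc, hYmul, mul_one]
  rw [smul_mul_assoc, mul_add, mul_smul_comm, mul_smul_comm, h1, mul_one, smul_add, smul_smul,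
    smul_smul, mul_inv_cancel₀ hw0, one_smul, ← mul_assoc, mul_inv_cancel₀ hw0, one_mul]
  abel

variable {𝔸 : Type*} [NormedRing 𝔸] [NormedAlgebra ℂ 𝔸] [CompleteSpace 𝔸]

/-- A contraction-free normalisation: `mean[t w' (w - T)⁻¹] = 1` if `w` has winding number one and
`spec T` lies in the open disc. -/
theorem mean_resolvent_eq_one {D : Set ℂ} {w : ℂ → ℂ} {T : 𝔸} (hspec : spectrum ℂ T ⊆ ball 0 1)
    (hD : IsOpen D) (hsD : sphere (0 : ℂ) 1 ⊆ D) (hw : DifferentiableOn ℂ w D)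
    (hw1 : ∀ t : ℂ, ‖t‖ = 1 → ‖w t‖ = 1)
    (hwind : circleAverage (fun t => t * deriv w t / w t) 0 1 = 1) :
    circleAverage (fun t => (t * deriv w t) • resolvent T (w t)) 0 1 = 1 := by
  have hw0 : ∀ t : ℂ, ‖t‖ = 1 → w t ≠ 0 := by
    intro t ht h
    have := hw1 t ht
    rw [h, norm_zero] at this
    exact zero_ne_one this
  have hsph : ∀ t : ℂ, ‖t‖ = 1 → t ∈ D := fun t ht => hsD (by simpa using ht)
  set D' : Set ℂ := D ∩ w ⁻¹' {0}ᶜ with hD'
  have hD'o : IsOpen D' := hw.continuousOn.isOpen_inter_preimage hD isOpen_compl_singleton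
  have hsD' : sphere (0 : ℂ) 1 ⊆ D' := by
    intro t ht
    have ht1 : ‖t‖ = 1 := by simpa using ht
    exact ⟨hsph t ht1, hw0 t ht1⟩
  set u : ℂ → ℂ := fun t => (w t)⁻¹ with hu
  have hud : DifferentiableOn ℂ u D' := by
    intro t ht
    exact ((hw t ht.1).mono inter_subset_left).inv ht.2
  have hcauchy := circleAverage_cauchy (X := 𝔸) (K := closedBall 0 1)
    (W := {η : ℂ | IsUnit (1 - η • T)}) (isCompact_closedBall _ _) (convex_closedBall _ _)
    (isOpen_unit_set T) (fun η hη => isUnit_one_sub_smul hspec (by simpa using hη))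
    (differentiableOn_geom T T) hD'o hsD' hud (fun t ht => by
      simp only [hu, mem_closedBall, dist_zero_right, norm_inv, hw1 t ht, inv_one, le_refl])
  -- the scalar part
  have hcs : ContinuousOn (fun t => t * deriv w t / w t) (sphere (0 : ℂ) 1) := by
    refine ContinuousOn.div (continuousOn_id.mul (continuousOn_deriv_sphere hD hsD hw))
      (hw.continuousOn.mono hsD) ?_
    intro t ht
    exact hw0 t (by simpa using ht)
  have hcu : ContinuousOn (fun t => (t * deriv u t) • (T * Ring.inverse (1 - u t • T)))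
      (sphere (0 : ℂ) 1) := by
    refine ContinuousOn.smul (continuousOn_id.mul (continuousOn_deriv_sphere hD'o hsD' hud)) ?_
    have h1 : ContinuousOn u (sphere (0 : ℂ) 1) := hud.continuousOn.mono hsD'
    refine (differentiableOn_geom T T).continuousOn.comp h1 ?_
    intro t ht
    refine isUnit_one_sub_smul hspec ?_
    have ht1 : ‖t‖ = 1 := by simpa using ht
    simp [hu, hw1 t ht1]
  let L : ℂ →L[ℝ] 𝔸 := (ContinuousLinearMap.smulRight (1 : ℂ →L[ℂ] ℂ) (1 : 𝔸)).restrictScalars ℝ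
  have hL : ∀ c : ℂ, L c = c • (1 : 𝔸) := fun c => by simp [L]
  have hscal : circleAverage (fun t => (t * deriv w t / w t) • (1 : 𝔸)) 0 1 = 1 := by
    have h1 := L.circleAverage_comp_comm (f := fun t => t * deriv w t / w t)
      (circleIntegrable_of_continuousOn hcs)
    rw [hwind, hL, one_smul] at h1
    calc circleAverage (fun t => (t * deriv w t / w t) • (1 : 𝔸)) 0 1
        = circleAverage (L ∘ fun t => t * deriv w t / w t) 0 1 := by
          congr 1
      _ = 1 := h1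
  have hcs' : ContinuousOn (fun t => (t * deriv w t / w t) • (1 : 𝔸)) (sphere (0 : ℂ) 1) :=
    hcs.smul continuousOn_const
  have key : circleAverage (fun t => (t * deriv w t) • resolvent T (w t)) 0 1
      = circleAverage (fun t => (t * deriv w t / w t) • (1 : 𝔸)) 0 1
        - circleAverage (fun t => (t * deriv u t) • (T * Ring.inverse (1 - u t • T))) 0 1 := by
    rw [← circleAverage_fun_sub (circleIntegrable_of_continuousOn hcs')
      (circleIntegrable_of_continuousOn hcu)]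
    apply circleAverage_congr_sphere
    intro t ht
    have ht1 : ‖t‖ = 1 := by simpa using ht
    have hwt := hw0 t ht1
    have hderu : deriv u t = -deriv w t / (w t) ^ 2 := by
      have h1 : HasDerivAt w (deriv w t) t :=
        (hw.differentiableAt (hD.mem_nhds (hsph t ht1))).hasDerivAt
      exact (h1.inv hwt).deriv
    show (t * deriv w t) • resolvent T (w t) = (t * deriv w t / w t) • (1 : 𝔸)
      - (t * deriv u t) • (T * Ring.inverse (1 - u t • T))
    have hut : u t = (w t)⁻¹ := rfl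
    have e1 : t * deriv w t * (w t)⁻¹ = t * deriv w t / w t := by field_simp
    have e2 : t * deriv w t * ((w t)⁻¹ * (w t)⁻¹) = -(t * (-deriv w t / (w t) ^ 2)) := by
      field_simp
    rw [hut, resolvent_eq_on_circle hspec (hw1 t ht1), hderu, smul_add, smul_smul, smul_smul, e1, e2,
      neg_smul]
    exact (sub_eq_add_neg _ _).symm
  rw [key, hscal, hcauchy, sub_zero]

/-- The winding number of `f ∘ G`: `mean[t G' f'(G)/f(G)] = 1`. -/
theorem winding_eq_one {K D U : Set ℂ} {G f : ℂ → ℂ} {z₀ : ℂ} (hS : CurveSetup K D G)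
    (hU : IsOpen U) (hKU : K ⊆ U) (hf : DifferentiableOn ℂ f U) (hfinj : InjOn f U)
    (hz₀ : z₀ ∈ U) (hf0 : f z₀ = 0) (hne : ∀ t : ℂ, ‖t‖ = 1 → G t ≠ z₀)
    (hG1 : circleAverage (fun t => (t * deriv G t) / (G t - z₀)) 0 1 = 1) :
    circleAverage (fun t => t * deriv G t * deriv f (G t) / f (G t)) 0 1 = 1 := by
  set f1 : ℂ → ℂ := dslope f z₀ with hf1def
  have hf1 : DifferentiableOn ℂ f1 U := (Complex.differentiableOn_dslope (hU.mem_nhds hz₀)).2 hf
  have hfeq : ∀ z, f z = (z - z₀) * f1 z := by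
    intro z
    have := sub_smul_dslope f z₀ z
    simpa [hf0] using this.symm
  have hf1ne : ∀ z ∈ U, f1 z ≠ 0 := by
    intro z hz h
    by_cases hzz : z = z₀
    · subst hzz
      rw [hf1def, dslope_same] at h
      exact Crest.Agent.Lib.Crouzeix.deriv_ne_zero_of_injOn hU hf hfinj hz h
    · apply hzz
      apply hfinj hz hz₀
      rw [hf0, hfeq z, h, mul_zero]
  set ℓ : ℂ → ℂ := fun z => deriv f1 z / f1 z with hℓ
  have hℓd : DifferentiableOn ℂ ℓ U := (hf1.deriv hU).div hf1 hf1ne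
  have hlog : ∀ z ∈ U, z ≠ z₀ → deriv f z / f z = (z - z₀)⁻¹ + ℓ z := by
    intro z hz hzz
    have h1 : HasDerivAt f1 (deriv f1 z) z := (hf1.differentiableAt (hU.mem_nhds hz)).hasDerivAt
    have h2 : HasDerivAt (fun y => (y - z₀) * f1 y) (1 * f1 z + (z - z₀) * deriv f1 z) z :=
      ((hasDerivAt_id z).sub_const z₀).mul h1
    have h3 : deriv f z = 1 * f1 z + (z - z₀) * deriv f1 z := by
      have : f = fun y => (y - z₀) * f1 y := funext hfeq
      rw [this]
      exact h2.deriv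
    have h4 : z - z₀ ≠ 0 := sub_ne_zero.2 hzz
    have h5 := hf1ne z hz
    rw [h3, hfeq z, hℓ]
    field_simp
  have hCauchy := circleAverage_cauchy (X := ℂ) hS.compact hS.convex hU hKU hℓd hS.openD
    hS.sphere_sub hS.diff hS.mapsK
  have hc1 : ContinuousOn (fun t => (t * deriv G t) / (G t - z₀)) (sphere (0 : ℂ) 1) := by
    refine ContinuousOn.div (continuousOn_id.mul hS.continuousOn_deriv)
      (hS.continuousOn.sub continuousOn_const) ?_
    intro t ht
    exact sub_ne_zero.2 (hne t (by simpa using ht))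
  have hc2 : ContinuousOn (fun t => (t * deriv G t) • ℓ (G t)) (sphere (0 : ℂ) 1) :=
    ContinuousOn.smul (continuousOn_id.mul hS.continuousOn_deriv)
      (hS.continuousOn_comp hKU hℓd.continuousOn)
  have key : circleAverage (fun t => t * deriv G t * deriv f (G t) / f (G t)) 0 1
      = circleAverage (fun t => (t * deriv G t) / (G t - z₀)) 0 1
        + circleAverage (fun t => (t * deriv G t) • ℓ (G t)) 0 1 := by
    rw [← circleAverage_fun_add (circleIntegrable_of_continuousOn hc1)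
      (circleIntegrable_of_continuousOn hc2)]
    apply circleAverage_congr_sphere
    intro t ht
    have ht1 : ‖t‖ = 1 := by simpa using ht
    simp only
    rw [mul_div_assoc, hlog _ (hKU (hS.mapsK t ht1)) (hne t ht1), smul_eq_mul, mul_add, div_eq_mul_inv]
  rw [key, hG1, hCauchy, add_zero]

/-- Position of `t w'(t)/w(t)` for a map with `|w| = 1` on the circle and `|w| ≥ 1` outside. -/
theorem alpha_real_nonneg {D : Set ℂ} {w : ℂ → ℂ} {t : ℂ} (ht : ‖t‖ = 1) (hD : IsOpen D)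
    (htD : t ∈ D) (hw : DifferentiableOn ℂ w D)
    (hsph : ∀ s : ℂ, ‖s‖ = 1 → s ∈ D → ‖w s‖ = 1)
    (hout : ∀ s : ℂ, 1 < ‖s‖ → s ∈ D → 1 ≤ ‖w s‖) :
    ∃ α : ℝ, 0 ≤ α ∧ t * deriv w t / w t = α := by
  have hwt1 : ‖w t‖ = 1 := hsph t ht htD
  have hwt0 : w t ≠ 0 := by
    intro h
    rw [h, norm_zero] at hwt1
    exact zero_ne_one hwt1
  have hwd : HasDerivAt w (deriv w t) t := (hw.differentiableAt (hD.mem_nhds htD)).hasDerivAt
  set A : ℂ := t * deriv w t / w t with hA
  have hconj : (starRingEnd ℂ) (w t) = (w t)⁻¹ := by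
    have h1 : (w t) * (starRingEnd ℂ) (w t) = 1 := by
      rw [Complex.mul_conj, Complex.normSq_eq_norm_sq, hwt1]
      simp
    field_simp
    rw [mul_comm]
    exact h1
  -- the path
  have hpath : ∀ ζ : ℂ, HasDerivAt (fun x : ℝ => ‖w (t * Complex.exp (x * ζ))‖ ^ 2)
      (2 * (A * ζ).re) 0 := by
    intro ζ
    have e0 : t * Complex.exp (((0 : ℝ) : ℂ) * ζ) = t := by simp
    have h1 : HasDerivAt (fun x : ℝ => t * Complex.exp ((x : ℂ) * ζ)) (t * ζ) 0 := by
      have h2 : HasDerivAt (fun z : ℂ => t * Complex.exp (z * ζ)) (t * ζ) ((0 : ℝ) : ℂ) := by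
        have := (((hasDerivAt_id ((0 : ℝ) : ℂ)).mul_const ζ).cexp).const_mul t
        simpa using this
      exact h2.comp_ofReal
    have hat : HasDerivAt w (deriv w t) (t * Complex.exp (((0 : ℝ) : ℂ) * ζ)) := by
      rw [e0]
      exact hwd
    have h5 : HasDerivAt (fun x : ℝ => w (t * Complex.exp ((x : ℂ) * ζ)))
        ((t * ζ) • deriv w t) 0 := hat.scomp (0 : ℝ) h1
    have h6 := h5.norm_sq
    convert h6 using 1
    rw [e0, Complex.inner, hconj, hA]
    congr 2
    rw [smul_eq_mul]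
    field_simp
  have hnear : ∀ ζ : ℂ, ∀ᶠ x : ℝ in 𝓝 0, t * Complex.exp ((x : ℂ) * ζ) ∈ D := by
    intro ζ
    have hc : ContinuousAt (fun x : ℝ => t * Complex.exp ((x : ℂ) * ζ)) 0 := by fun_prop
    have : t * Complex.exp (((0 : ℝ) : ℂ) * ζ) ∈ D := by simpa using htD
    exact hc.eventually (hD.mem_nhds this)
  -- tangential direction
  have him : (A * I).re = 0 := by
    have h1 := hpath I
    have hconst : (fun x : ℝ => ‖w (t * Complex.exp ((x : ℂ) * I))‖ ^ 2) =ᶠ[𝓝 0] fun _ => (1 : ℝ) := by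
      filter_upwards [hnear I] with x hx
      have : ‖t * Complex.exp ((x : ℂ) * I)‖ = 1 := by
        rw [norm_mul, ht, Complex.norm_exp_ofReal_mul_I, one_mul]
      rw [hsph _ this hx]
      norm_num
    have h2 : HasDerivAt (fun x : ℝ => ‖w (t * Complex.exp ((x : ℂ) * I))‖ ^ 2) 0 0 :=
      (hasDerivAt_const (0 : ℝ) (1 : ℝ)).congr_of_eventuallyEq hconst
    have := h1.unique h2
    linarith
  -- radial direction
  have hre : 0 ≤ (A * 1).re := by
    have h1 := hpath 1
    have h2 := hasDerivAt_iff_tendsto_slope_zero.1 h1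
    have h3 : Tendsto (fun h : ℝ => h⁻¹ • (‖w (t * Complex.exp (((0 + h : ℝ) : ℂ) * 1))‖ ^ 2
        - ‖w (t * Complex.exp (((0 : ℝ) : ℂ) * 1))‖ ^ 2)) (𝓝[>] 0) (𝓝 (2 * (A * 1).re)) :=
      h2.mono_left (nhdsWithin_mono _ (fun x hx => ne_of_gt hx))
    have h4 : ∀ᶠ h : ℝ in 𝓝[>] 0, 0 ≤ h⁻¹ • (‖w (t * Complex.exp (((0 + h : ℝ) : ℂ) * 1))‖ ^ 2
        - ‖w (t * Complex.exp (((0 : ℝ) : ℂ) * 1))‖ ^ 2) := by
      filter_upwards [self_mem_nhdsWithin, nhdsWithin_le_nhds (hnear 1)] with x hx hxD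
      have hx0 : 0 < x := hx
      have hnorm : 1 < ‖t * Complex.exp ((x : ℂ) * 1)‖ := by
        rw [norm_mul, ht, one_mul, mul_one, Complex.norm_exp]
        simp only [ofReal_re]
        exact Real.one_lt_exp_iff.2 hx0
      have h5 := hout _ hnorm hxD
      simp only [zero_add, ofReal_zero, Complex.exp_zero, mul_one] at *
      rw [hwt1]
      refine smul_nonneg (inv_pos.2 hx0).le ?_
      have : 1 ≤ ‖w (t * Complex.exp (x : ℂ))‖ ^ 2 := one_le_pow₀ h5
      linarith
    have := ge_of_tendsto h3 h4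
    linarith
  refine ⟨A.re, by simpa using hre, ?_⟩
  apply Complex.ext
  · simp
  · simp only [ofReal_im]
    have : (A * I).re = -A.im := by simp
    linarith

end Crest.Agent.Lib.Crouzeix.Poisson
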