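import Mathlib
import Crest.Agent.Lib.Crouzeix.PWind
import Crest.Agent.Lib.Crouzeix.PAlg
import Crest.Agent.Lib.Crouzeix.PExt

/-!
# The mean formula `mean[v(G) (t w') (R(w) + T₂ (1 - w T₂)⁻¹)] = q(a)` (helper95)
-/

set_option autoImplicit false

open Complex Metric Set Filter Topology Real Bornology Polynomial

namespace Crest.Agent.Lib.Crouzeix.Poisson

variable {𝔸 : Type*} [NormedRing 𝔸] [NormedAlgebra ℂ 𝔸] [CompleteSpace 𝔸]

theorem continuousOn_resolvent_comp {s : Set ℂ} {w : ℂ → ℂ} (hw : ContinuousOn w s) {T : 𝔸}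
    (h : ∀ t ∈ s, w t ∉ spectrum ℂ T) : ContinuousOn (fun t => resolvent T (w t)) s := by
  intro t ht
  have hu := h t ht
  rw [spectrum.notMem_iff] at hu
  obtain ⟨u, hu⟩ := hu
  have h1 : ContinuousAt (Ring.inverse : 𝔸 → 𝔸) (algebraMap ℂ 𝔸 (w t) - T) := by
    rw [← hu]
    exact NormedRing.inverse_continuousAt u
  have h2 : ContinuousWithinAt (fun t => algebraMap ℂ 𝔸 (w t) - T) s t :=
    ((continuous_algebraMap ℂ 𝔸).continuousAt.comp_continuousWithinAt (hw t ht)).sub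
      continuousWithinAt_const
  exact ContinuousAt.comp_continuousWithinAt (g := Ring.inverse)
    (f := fun t => algebraMap ℂ 𝔸 (w t) - T) h1 h2

theorem continuousOn_geom_comp {s : Set ℂ} {w : ℂ → ℂ} (hw : ContinuousOn w s) (T Y : 𝔸)
    (h : ∀ t ∈ s, IsUnit (1 - w t • T)) :
    ContinuousOn (fun t => Y * Ring.inverse (1 - w t • T)) s :=
  (differentiableOn_geom T Y).continuousOn.comp hw h

/-- `‖f‖ ≤ 1` on the closure. -/
theorem norm_f_le_one {Ω U : Set ℂ} (hΩU : closure Ω ⊆ U) {f : ℂ → ℂ}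
    (hf₁ : DifferentiableOn ℂ f U) (hf₃ : f '' Ω = ball 0 1) {z : ℂ} (hz : z ∈ closure Ω) :
    ‖f z‖ ≤ 1 := by
  have h1 : ContinuousOn f (closure Ω) := hf₁.continuousOn.mono hΩU
  have h2 := h1.image_closure
  have h3 : f z ∈ closure (f '' Ω) := h2 ⟨z, hz, rfl⟩
  rw [hf₃] at h3
  have h4 : closure (ball (0 : ℂ) 1) ⊆ closedBall 0 1 :=
    closure_minimal ball_subset_closedBall isClosed_closedBall
  simpa using h4 h3

/-- `‖f‖ ≥ 1` off `Ω`. -/
theorem one_le_norm_f {Ω U : Set ℂ} (hΩU : closure Ω ⊆ U) {f : ℂ → ℂ}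
    (hf₂ : Set.InjOn f U) (hf₃ : f '' Ω = ball 0 1) {z : ℂ} (hzU : z ∈ U) (hz : z ∉ Ω) :
    1 ≤ ‖f z‖ := by
  by_contra hlt
  push Not at hlt
  have h1 : f z ∈ f '' Ω := by
    rw [hf₃]
    simpa using hlt
  obtain ⟨z', hz', heq⟩ := h1
  have := hf₂ (hΩU (subset_closure hz')) hzU heq
  exact hz (this ▸ hz')

variable [Nontrivial 𝔸]

/-- **The mean formula.** -/
theorem poisson_mean_formula {Ω U : Set ℂ} (hΩ₁ : IsOpen Ω) (hΩ₂ : IsBounded Ω)
    (hΩ₃ : Convex ℝ Ω) (hU : IsOpen U) (hΩU : closure Ω ⊆ U) {f : ℂ → ℂ}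
    (hf₁ : DifferentiableOn ℂ f U) (hf₂ : Set.InjOn f U) (hf₃ : f '' Ω = ball 0 1)
    {G : ℂ → ℂ} {r : ℝ} (hr₁ : 0 < r) (hr₂ : r < 1)
    (hG₁ : DifferentiableOn ℂ G {t : ℂ | r < ‖t‖}) (hG₂ : Set.InjOn G {t : ℂ | r < ‖t‖})
    (hG₃ : G '' {t : ℂ | 1 < ‖t‖} = (closure Ω)ᶜ)
    {a : 𝔸} (haΩ : spectrum ℂ a ⊆ Ω) {χ p : ℂ[X]} (hχa : aeval a χ = 0)
    (hχ : ∀ μ ∈ spectrum ℂ a, χ.eval μ = 0) {g : ℂ → ℂ} (hg : DifferentiableOn ℂ g U)
    (hfeq : ∀ z ∈ U, f z = p.eval z + χ.eval z * g z)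
    {T₂ : 𝔸} (hT₂ : spectrum ℂ T₂ ⊆ ball 0 1)
    {V : Set ℂ} (hV : IsOpen V) (hKV : closure Ω ⊆ V) {v g' : ℂ → ℂ} {q : ℂ[X]}
    (hv : DifferentiableOn ℂ v V) (hg' : DifferentiableOn ℂ g' (U ∩ V))
    (hvq : ∀ z ∈ U ∩ V, v z = q.eval z + χ.eval z * g' z) :
    circleAverage (fun t => v (G t) • ((t * deriv (fun s => f (G s)) t) •
      (resolvent (aeval a p) (f (G t)) + T₂ * Ring.inverse (1 - f (G t) • T₂)))) 0 1
      = aeval a q := by
  classical
  -- the point `z₀` with `f z₀ = 0`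
  obtain ⟨z₀, hz₀Ω, hfz₀⟩ : ∃ z₀ ∈ Ω, f z₀ = 0 := by
    have h0 : (0 : ℂ) ∈ ball (0 : ℂ) 1 := mem_ball_self zero_lt_one
    rw [← hf₃] at h0
    exact h0
  obtain ⟨c, e, hc, he, hGe⟩ := exterior_structure hΩ₁ hΩ₂ ⟨z₀, hz₀Ω⟩ hr₁ hr₂ hG₁ hG₂ hG₃
  have hKcomp : IsCompact (closure Ω) := hΩ₂.isCompact_closure
  have hKconv : Convex ℝ (closure Ω) := hΩ₃.closure
  set D : Set ℂ := {t : ℂ | r < ‖t‖} with hDdef
  have hDo : IsOpen D := isOpen_lt continuous_const continuous_norm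
  have hdom : ∀ s : ℂ, 1 ≤ ‖s‖ → s ∈ D := fun s hs => lt_of_lt_of_le hr₂ hs
  have hsD : sphere (0 : ℂ) 1 ⊆ D := fun s hs => hdom s (by
    have : ‖s‖ = 1 := by simpa using hs
    exact this.ge)
  have hfr := curve_frontier hΩ₁ hr₂ hG₁ hG₂ hG₃
  have hS : CurveSetup (closure Ω) D G :=
    ⟨hKcomp, hKconv, hDo, hsD, hG₁, fun t ht => (hfr t ht).1⟩
  have hnotΩ : ∀ t : ℂ, 1 ≤ ‖t‖ → G t ∉ Ω := by
    intro t ht
    rcases eq_or_lt_of_le ht with h | h
    · exact (hfr t h.symm).2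
    · have h1 : G t ∈ G '' {t : ℂ | 1 < ‖t‖} := ⟨t, h, rfl⟩
      rw [hG₃] at h1
      exact fun h2 => h1 (subset_closure h2)
  have hGz₀ : ∀ t : ℂ, 1 ≤ ‖t‖ → G t ≠ z₀ := fun t ht h => hnotΩ t ht (h ▸ hz₀Ω)
  have hG1 := mean_log_deriv_G hr₁ hr₂ hc hG₁ he hGe hGz₀
  have hwind := winding_eq_one hS hU hΩU hf₁ hf₂ (hΩU (subset_closure hz₀Ω)) hfz₀
    (fun t ht => hGz₀ t ht.ge) hG1
  -- the boundary function
  set w : ℂ → ℂ := fun t => f (G t) with hwdef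
  set D' : Set ℂ := D ∩ G ⁻¹' U with hD'def
  have hD'o : IsOpen D' := hG₁.continuousOn.isOpen_inter_preimage hDo hU
  have hsD' : sphere (0 : ℂ) 1 ⊆ D' := by
    intro t ht
    have ht1 : ‖t‖ = 1 := by simpa using ht
    exact ⟨hsD ht, hΩU (hfr t ht1).1⟩
  have hw : DifferentiableOn ℂ w D' :=
    hf₁.comp (hG₁.mono inter_subset_left) (fun t ht => ht.2)
  have hw1 : ∀ t : ℂ, ‖t‖ = 1 → ‖w t‖ = 1 := by
    intro t ht
    exact le_antisymm (norm_f_le_one hΩU hf₁ hf₃ (hfr t ht).1)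
      (one_le_norm_f hΩU hf₂ hf₃ (hΩU (hfr t ht).1) (hfr t ht).2)
  have hderiv : ∀ t ∈ D', deriv w t = deriv f (G t) * deriv G t := by
    intro t ht
    have h1 : DifferentiableAt ℂ G t := hG₁.differentiableAt (hDo.mem_nhds ht.1)
    have h2 : DifferentiableAt ℂ f (G t) := hf₁.differentiableAt (hU.mem_nhds ht.2)
    exact deriv_comp t h2 h1
  have hsph : ∀ t : ℂ, ‖t‖ = 1 → t ∈ D' := fun t ht => hsD' (by simpa using ht)
  have hwind' : circleAverage (fun t => t * deriv w t / w t) 0 1 = 1 := by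
    rw [← hwind]
    apply circleAverage_congr_sphere
    intro t ht
    have ht1 : ‖t‖ = 1 := by simpa using ht
    simp only
    rw [hderiv t (hsph t ht1), hwdef]
    simp only
    ring
  -- the spectrum of `T = p(a)`
  set T : 𝔸 := aeval a p with hTdef
  have hT : spectrum ℂ T ⊆ ball 0 1 := by
    intro μ hμ
    rw [hTdef, spectrum.map_polynomial_aeval_of_nonempty a p (spectrum.nonempty a)] at hμ
    obtain ⟨ν, hν, rfl⟩ := hμ
    have h1 : f ν ∈ ball (0 : ℂ) 1 := by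
      rw [← hf₃]
      exact ⟨ν, haΩ hν, rfl⟩
    have h2 := hfeq ν (hΩU (subset_closure (haΩ hν)))
    rw [hχ ν hν, zero_mul, add_zero] at h2
    show eval ν p ∈ ball (0 : ℂ) 1
    rw [← h2]
    exact h1
  have hone := mean_resolvent_eq_one hT hD'o hsD' hw hw1 hwind'
  -- `Φ`
  set B : ℂ → 𝔸 := fun z => dq a p z + g z • dq a χ z with hBdef
  have hBd : DifferentiableOn ℂ B U :=
    (differentiable_dq a p).differentiableOn.add (hg.smul (differentiable_dq a χ).differentiableOn)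
  have haU : spectrum ℂ a ⊆ U := fun μ hμ => hΩU (subset_closure (haΩ hμ))
  have hBu : ∀ z ∈ U, IsUnit (B z) := fun z hz => isUnit_B hU hf₁ hf₂ hg hfeq haU hχ hz
  set Rr : ℂ → 𝔸 := fun z => deriv f z • resolvent T (f z) with hRr
  set Ss : ℂ → 𝔸 := fun z => deriv f z • Ring.inverse (B z) with hSs
  have hf' : DifferentiableOn ℂ (deriv f) U := hf₁.deriv hU
  have hSsd : DifferentiableOn ℂ Ss U := hf'.smul (differentiableOn_inverse hU hBd hBu)
  have hnotT : ∀ t ∈ sphere (0 : ℂ) 1, w t ∉ spectrum ℂ T := by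
    intro t ht hmem
    have h1 := hT hmem
    simp only [mem_ball, dist_zero_right] at h1
    rw [hw1 t (by simpa using ht)] at h1
    exact lt_irrefl _ h1
  have hwc : ContinuousOn w (sphere (0 : ℂ) 1) := hw.continuousOn.mono hsD'
  have hRes : ContinuousOn (fun t => resolvent T (w t)) (sphere (0 : ℂ) 1) :=
    continuousOn_resolvent_comp hwc hnotT
  have hRc : ContinuousOn (fun t => Rr (G t)) (sphere (0 : ℂ) 1) :=
    (hS.continuousOn_comp hΩU hf'.continuousOn).smul hRes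
  have hrel : ∀ t : ℂ, ‖t‖ = 1 → G t • Rr (G t) = Rr (G t) * a + Ss (G t) := by
    intro t ht
    have hGU := hΩU (hfr t ht).1
    have hns : G t ∉ spectrum ℂ a := fun h => (hfr t ht).2 (haΩ h)
    have h1 := smul_resolvent_rel (T := T) (φ := f (G t)) (γ := g (G t)) (z := G t) rfl hχa
      (hfeq _ hGU) (hBu _ hGU) hns
    simp only [hRr, hSs, hBdef]
    rw [smul_comm, h1, smul_add, smul_mul_assoc]
  have hPhi1 : Phi G Rr (fun _ => 1) = 1 := by
    rw [← hone]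
    unfold Phi
    apply circleAverage_congr_sphere
    intro t ht
    have ht1 : ‖t‖ = 1 := by simpa using ht
    simp only [hRr]
    rw [smul_smul, hderiv t (hsph t ht1)]
    congr 1
    ring
  have hUV : IsOpen (U ∩ V) := hU.inter hV
  have hKUV : closure Ω ⊆ U ∩ V := subset_inter hΩU hKV
  have hPhiv : Phi G Rr v = aeval a q := by
    rw [Phi_eq_of_decomp hS hU hΩU hRc hSsd hrel hUV hKUV hχa hg' hvq, hPhi1, one_mul]
  -- the second term
  set W₂ : Set ℂ := (U ∩ V) ∩ f ⁻¹' {η : ℂ | IsUnit (1 - η • T₂)} with hW₂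
  have hW₂o : IsOpen W₂ :=
    (hf₁.continuousOn.mono inter_subset_left).isOpen_inter_preimage hUV (isOpen_unit_set T₂)
  have hKW₂ : closure Ω ⊆ W₂ := fun z hz =>
    ⟨hKUV hz, isUnit_one_sub_smul hT₂ (norm_f_le_one hΩU hf₁ hf₃ hz)⟩
  set 𝔟 : ℂ → 𝔸 := fun z => (deriv f z * v z) • (T₂ * Ring.inverse (1 - f z • T₂)) with h𝔟
  have h𝔟d : DifferentiableOn ℂ 𝔟 W₂ := by
    have h1 : DifferentiableOn ℂ (fun z => deriv f z * v z) W₂ :=
      (hf'.mono fun z hz => hz.1.1).mul (hv.mono fun z hz => hz.1.2)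
    have h2 : DifferentiableOn ℂ (fun z => T₂ * Ring.inverse (1 - f z • T₂)) W₂ :=
      (differentiableOn_geom T₂ T₂).comp (hf₁.mono fun z hz => hz.1.1) fun z hz => hz.2
    exact h1.smul h2
  have hsecond := circleAverage_cauchy hKcomp hKconv hW₂o hKW₂ h𝔟d hDo hsD hG₁ hS.mapsK
  have hc2 : ContinuousOn (fun t => (t * deriv G t) • 𝔟 (G t)) (sphere (0 : ℂ) 1) :=
    ContinuousOn.smul (continuousOn_id.mul hS.continuousOn_deriv)
      (hS.continuousOn_comp hKW₂ h𝔟d.continuousOn)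
  have hc1 := hS.continuousOn_integrand hRc (W := V) hKV hv
  have hsplit : circleAverage (fun t => v (G t) • ((t * deriv w t) •
      (resolvent T (f (G t)) + T₂ * Ring.inverse (1 - f (G t) • T₂)))) 0 1
      = Phi G Rr v + circleAverage (fun t => (t * deriv G t) • 𝔟 (G t)) 0 1 := by
    unfold Phi
    rw [← circleAverage_fun_add (circleIntegrable_of_continuousOn hc1)
      (circleIntegrable_of_continuousOn hc2)]
    apply circleAverage_congr_sphere
    intro t ht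
    have ht1 : ‖t‖ = 1 := by simpa using ht
    simp only [hRr, h𝔟]
    rw [hderiv t (hsph t ht1), smul_add, smul_add, smul_smul, smul_smul, smul_smul, smul_smul]
    congr 2 <;> ring
  rw [hsplit, hsecond, add_zero, hPhiv]

/-- Continuity of the density. -/
theorem continuousOn_density {D : Set ℂ} {w : ℂ → ℂ} (hD : IsOpen D)
    (hsD : sphere (0 : ℂ) 1 ⊆ D) (hw : DifferentiableOn ℂ w D)
    {T T₂ : 𝔸} (hT : ∀ t ∈ sphere (0 : ℂ) 1, w t ∉ spectrum ℂ T)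
    (hT₂ : ∀ t ∈ sphere (0 : ℂ) 1, IsUnit (1 - w t • T₂)) :
    ContinuousOn (fun t => (t * deriv w t) • (resolvent T (w t) +
      T₂ * Ring.inverse (1 - w t • T₂))) (sphere (0 : ℂ) 1) := by
  have hwc : ContinuousOn w (sphere (0 : ℂ) 1) := hw.continuousOn.mono hsD
  refine ContinuousOn.smul (continuousOn_id.mul (continuousOn_deriv_sphere hD hsD hw)) ?_
  exact (continuousOn_resolvent_comp hwc hT).add (continuousOn_geom_comp hwc T₂ T₂ hT₂)

end Crest.Agent.Lib.Crouzeix.Poisson
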