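import Mathlib
import Crest.Prelude.Def_NumRangeMetric
import Crest.Agent.Lib.Crouzeix.PMean
import Crest.Agent.Lib.Crouzeix.PDiv

/-!
# The positive density for matrices (helper95)
-/

set_option autoImplicit false

open Complex Metric Set Filter Topology Real Bornology Polynomial Matrix
open scoped ComplexOrder Matrix.Norms.L2Operator
open Crest.AnalysisR.NumRange

namespace Crest.Agent.Lib.Crouzeix.Poisson

variable {n : ℕ}

/-- Every eigenvalue of `A` lies in the numerical range. -/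
lemma spectrum_subset_numRange' (A : Matrix (Fin n) (Fin n) ℂ) : spectrum ℂ A ⊆ numRange A := by
  classical
  intro μ hμ
  have h1 : ¬ IsUnit (algebraMap ℂ (Matrix (Fin n) (Fin n) ℂ) μ - A) := hμ
  rw [Matrix.isUnit_iff_isUnit_det, isUnit_iff_ne_zero, not_not] at h1
  obtain ⟨v, hv, hv0⟩ := Matrix.exists_mulVec_eq_zero_iff.2 h1
  have hAv : A *ᵥ v = μ • v := by
    rw [sub_mulVec, sub_eq_zero] at hv0
    rw [← hv0, algebraMap_eq_diagonal]
    ext i
    simp [mulVec_diagonal]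
  have hx0 : (WithLp.toLp 2 v : EuclideanSpace ℂ (Fin n)) ≠ 0 := by
    intro h0
    apply hv
    simpa using h0
  set y : EuclideanSpace ℂ (Fin n) := WithLp.toLp 2 v with hy
  have hn0 : ‖y‖ ≠ 0 := norm_ne_zero_iff.2 hx0
  refine ⟨(‖y‖⁻¹ : ℂ) • y, ?_, ?_⟩
  · rw [norm_smul]
    simp [hn0]
  · have hA : (Matrix.toEuclideanLin A) y = μ • y := by
      change WithLp.toLp 2 (A *ᵥ v) = μ • WithLp.toLp 2 v
      rw [hAv]
      rfl
    rw [map_smul, hA, inner_smul_left, inner_smul_right, inner_smul_right,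
      inner_self_eq_norm_sq_to_K]
    have : ((‖y‖ : ℂ)) ≠ 0 := by exact_mod_cast hn0
    simp
    field_simp

/-- Conjugation and polynomials. -/
theorem aeval_conj (S Sinv A : Matrix (Fin n) (Fin n) ℂ) (h : S * Sinv = 1) (h' : Sinv * S = 1)
    (q : ℂ[X]) : aeval (S * A * Sinv) q = S * aeval A q * Sinv := by
  induction q using Polynomial.induction_on with
  | C c =>
    simp only [aeval_C]
    rw [← Algebra.commutes, mul_assoc, h, mul_one]
  | add p₁ p₂ h₁ h₂ =>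
    rw [map_add, map_add, h₁, h₂, mul_add, add_mul]
  | monomial k c ih =>
    have e1 : (C c * X ^ (k + 1) : ℂ[X]) = (C c * X ^ k) * X := by
      rw [pow_succ, mul_assoc]
    rw [e1]
    calc (aeval (S * A * Sinv)) (C c * X ^ k * X)
        = (aeval (S * A * Sinv)) (C c * X ^ k) * (S * A * Sinv) := by rw [map_mul, aeval_X]
      _ = S * (aeval A) (C c * X ^ k) * Sinv * (S * A * Sinv) := by rw [ih]
      _ = S * (aeval A) (C c * X ^ k) * (Sinv * S) * A * Sinv := by noncomm_ring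
      _ = S * ((aeval A) (C c * X ^ k) * A) * Sinv := by rw [h', mul_one]; noncomm_ring
      _ = S * (aeval A) (C c * X ^ k * X) * Sinv := by rw [map_mul (aeval A) _ X, aeval_X]

/-- The Poisson identity for a matrix, on the unit circle. -/
theorem poisson_identity (T : Matrix (Fin n) (Fin n) ℂ) {w : ℂ} (hw : ‖w‖ = 1)
    (hunit : IsUnit (algebraMap ℂ (Matrix (Fin n) (Fin n) ℂ) w - T)) :
    (resolvent T w)ᴴ * (1 - Tᴴ * T) * resolvent T w
      = w • (resolvent T w + Tᴴ * Ring.inverse (1 - w • Tᴴ)) := by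
  set R := resolvent T w with hR
  have h1 : (algebraMap ℂ (Matrix (Fin n) (Fin n) ℂ) w - T) * R = 1 :=
    Ring.mul_inverse_cancel _ hunit
  have h2 : R * (algebraMap ℂ (Matrix (Fin n) (Fin n) ℂ) w - T) = 1 :=
    Ring.inverse_mul_cancel _ hunit
  have hc : (starRingEnd ℂ) w * w = 1 := by
    rw [mul_comm, Complex.mul_conj, Complex.normSq_eq_norm_sq, hw]
    simp
  have hTR : T * R = w • R - 1 := by
    have : (algebraMap ℂ (Matrix (Fin n) (Fin n) ℂ) w - T) * R = w • R - T * R := by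
      rw [sub_mul, Algebra.algebraMap_eq_smul_one, smul_mul_assoc, one_mul]
    rw [this] at h1
    rw [← h1]
    abel
  have hRT : R * T = w • R - 1 := by
    have : R * (algebraMap ℂ (Matrix (Fin n) (Fin n) ℂ) w - T) = w • R - R * T := by
      rw [mul_sub, Algebra.algebraMap_eq_smul_one, mul_smul_comm, mul_one]
    rw [this] at h2
    rw [← h2]
    abel
  have hRT' : Rᴴ * Tᴴ = (starRingEnd ℂ) w • Rᴴ - 1 := by
    rw [← conjTranspose_mul, hTR, conjTranspose_sub, conjTranspose_smul, conjTranspose_one]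
    rfl
  have hTR' : Tᴴ * Rᴴ = (starRingEnd ℂ) w • Rᴴ - 1 := by
    rw [← conjTranspose_mul, hRT, conjTranspose_sub, conjTranspose_smul, conjTranspose_one]
    rfl
  have hr : (1 - w • Tᴴ) * ((starRingEnd ℂ) w • Rᴴ) = 1 := by
    rw [sub_mul, one_mul, smul_mul_assoc, mul_smul_comm, hTR', smul_smul, mul_comm w, hc, one_smul]
    abel
  have hl : ((starRingEnd ℂ) w • Rᴴ) * (1 - w • Tᴴ) = 1 := by
    rw [mul_sub, mul_one, mul_smul_comm, smul_mul_assoc, hRT', smul_smul, mul_comm w, hc, one_smul]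
    abel
  have hY : Ring.inverse (1 - w • Tᴴ) = (starRingEnd ℂ) w • Rᴴ :=
    inverse_eq_of_mul_eq_one ⟨⟨_, _, hr, hl⟩, rfl⟩ hr
  rw [hY]
  have e1 : Rᴴ * (1 - Tᴴ * T) * R = Rᴴ * R - (Rᴴ * Tᴴ) * (T * R) := by noncomm_ring
  rw [e1, hRT', hTR, smul_add, mul_smul_comm, smul_smul, mul_comm w, hc, one_smul, hTR']
  have e2 : ((starRingEnd ℂ) w • Rᴴ - 1) * (w • R - 1)
      = ((starRingEnd ℂ) w * w) • (Rᴴ * R) - (starRingEnd ℂ) w • Rᴴ - w • R + 1 := by
    rw [sub_mul, mul_sub, mul_sub, smul_mul_smul_comm, mul_one, one_mul, mul_one]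
    abel
  rw [e2, hc, one_smul]
  abel

/-- The facts about the root `S` of the metric `H`. -/
theorem S_det_ne_zero {S H : Matrix (Fin n) (Fin n) ℂ} (hS₂ : S * S = H)
    (hH1 : (H - 1).PosSemidef) : S.det ≠ 0 := by
  classical
  intro h
  obtain ⟨x, hx, hx0⟩ := Matrix.exists_mulVec_eq_zero_iff.2 h
  have h1 := hH1.dotProduct_mulVec_nonneg x
  have h2 : H *ᵥ x = 0 := by
    rw [← hS₂, ← mulVec_mulVec, hx0, mulVec_zero]
  rw [sub_mulVec, h2, one_mulVec, zero_sub, dotProduct_neg] at h1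
  have h3 : 0 ≤ star x ⬝ᵥ x := by
    have := dotProduct_star_self_nonneg (R := ℂ) x
    simpa [dotProduct_comm] using this
  have h4 : star x ⬝ᵥ x = 0 := le_antisymm (by simpa using h1) h3
  exact hx (dotProduct_star_self_eq_zero.1 h4)

/-- The conjugated matrix is a contraction. -/
theorem contraction_conj {S H T : Matrix (Fin n) (Fin n) ℂ} (hS : S.IsHermitian)
    (hS₂ : S * S = H) (hdet : S.det ≠ 0) (hT : (H - Tᴴ * H * T).PosSemidef) :
    (1 - (S * T * S⁻¹)ᴴ * (S * T * S⁻¹)).PosSemidef := by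
  have hu : IsUnit S.det := isUnit_iff_ne_zero.2 hdet
  have h1 : S * S⁻¹ = 1 := Matrix.mul_nonsing_inv S hu
  have h2 : S⁻¹ * S = 1 := Matrix.nonsing_inv_mul S hu
  have hSH : Sᴴ = S := hS
  have h3 : (S⁻¹)ᴴ * S = 1 := by
    have : (S * S⁻¹)ᴴ = 1 := by rw [h1, conjTranspose_one]
    rw [conjTranspose_mul, hSH] at this
    exact this
  have key : 1 - (S * T * S⁻¹)ᴴ * (S * T * S⁻¹) = (S⁻¹)ᴴ * (H - Tᴴ * H * T) * S⁻¹ := by
    have e1 : (S⁻¹)ᴴ * H * S⁻¹ = 1 := by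
      rw [← hS₂]
      calc (S⁻¹)ᴴ * (S * S) * S⁻¹ = ((S⁻¹)ᴴ * S) * (S * S⁻¹) := by noncomm_ring
        _ = 1 := by rw [h3, h1, one_mul]
    have e2 : (S * T * S⁻¹)ᴴ * (S * T * S⁻¹) = (S⁻¹)ᴴ * (Tᴴ * H * T) * S⁻¹ := by
      rw [conjTranspose_mul, conjTranspose_mul, hSH, ← hS₂]
      noncomm_ring
    rw [e2, mul_sub, sub_mul, e1]
  rw [key]
  simpa using hT.conjTranspose_mul_mul_same S⁻¹

open Crest.Agent.Lib.Crouzeix in
/-- **The density.** -/
theorem density_exists (hn : 1 ≤ n) (A : Matrix (Fin n) (Fin n) ℂ)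
    {Ω U : Set ℂ} (hΩ₁ : IsOpen Ω) (hΩ₂ : IsBounded Ω) (hΩ₃ : Convex ℝ Ω)
    (hU : IsOpen U) (hΩU : closure Ω ⊆ U) {f : ℂ → ℂ}
    (hf₁ : DifferentiableOn ℂ f U) (hf₂ : Set.InjOn f U) (hf₃ : f '' Ω = ball 0 1)
    {G : ℂ → ℂ} {r : ℝ} (hr₁ : 0 < r) (hr₂ : r < 1)
    (hG₁ : DifferentiableOn ℂ G {t : ℂ | r < ‖t‖}) (hG₂ : Set.InjOn G {t : ℂ | r < ‖t‖})
    (hG₃ : G '' {t : ℂ | 1 < ‖t‖} = (closure Ω)ᶜ)
    (hA : numRange A ⊆ Ω) {p : ℂ[X]} (hp : AgreesOnSpectrum A f p)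
    {H S : Matrix (Fin n) (Fin n) ℂ}
    (hH1 : (H - 1).PosSemidef) (hH2 : (H - (aeval A p)ᴴ * H * aeval A p).PosSemidef)
    (hS₁ : S.PosSemidef) (hS₂ : S * S = H) :
    ∃ Λt : ℂ → Matrix (Fin n) (Fin n) ℂ, ContinuousOn Λt (sphere 0 1) ∧
      (∀ t : ℂ, ‖t‖ = 1 → (Λt t).PosSemidef) ∧
      ∀ (V : Set ℂ), IsOpen V → closure Ω ⊆ V → ∀ v : ℂ → ℂ, DifferentiableOn ℂ v V →
        ∀ q : ℂ[X], AgreesOnSpectrum A v q →
          circleAverage (fun t => v (G t) • Λt t) 0 1 = aeval (S * A * S⁻¹) q := by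
  classical
  have : Nonempty (Fin n) := ⟨⟨0, hn⟩⟩
  have hdet : S.det ≠ 0 := S_det_ne_zero hS₂ hH1
  have hu : IsUnit S.det := isUnit_iff_ne_zero.2 hdet
  have hSS : S * S⁻¹ = 1 := Matrix.mul_nonsing_inv S hu
  have hSS' : S⁻¹ * S = 1 := Matrix.nonsing_inv_mul S hu
  set a : Matrix (Fin n) (Fin n) ℂ := S * A * S⁻¹ with ha
  have haspec : spectrum ℂ a = spectrum ℂ A := by
    have := spectrum.units_conjugate (R := ℂ) (a := A) (u := ⟨S, S⁻¹, hSS, hSS'⟩)
    simpa using this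
  have hAΩ : spectrum ℂ A ⊆ Ω := (spectrum_subset_numRange' A).trans hA
  have haΩ : spectrum ℂ a ⊆ Ω := haspec ▸ hAΩ
  have hχa : aeval a A.charpoly = 0 := by
    rw [ha, aeval_conj S S⁻¹ A hSS hSS', Matrix.aeval_self_charpoly, mul_zero, zero_mul]
  have hχ : ∀ μ ∈ spectrum ℂ a, A.charpoly.eval μ = 0 := by
    intro μ hμ
    rw [haspec, Matrix.mem_spectrum_iff_isRoot_charpoly] at hμ
    exact hμ
  obtain ⟨g, hg, hfeq⟩ := exists_eq_add_charpoly_mul A hU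
    (fun μ hμ => hΩU (subset_closure (hAΩ hμ))) hf₁ hp
  set T : Matrix (Fin n) (Fin n) ℂ := aeval a p with hTdef
  have hT : spectrum ℂ T ⊆ ball 0 1 := by
    intro μ hμ
    rw [hTdef, spectrum.map_polynomial_aeval_of_nonempty a p (spectrum.nonempty a)] at hμ
    obtain ⟨ν, hν, rfl⟩ := hμ
    have h1 : f ν ∈ ball (0 : ℂ) 1 := by
      rw [← hf₃]
      exact ⟨ν, haΩ hν, rfl⟩
    have h2 := hfeq ν (hΩU (subset_closure (haΩ hν)))
    rw [hχ ν hν, zero_mul, add_zero] at h2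
    show eval ν p ∈ ball (0 : ℂ) 1
    rw [← h2]
    exact h1
  have hT₂ : spectrum ℂ Tᴴ ⊆ ball 0 1 := by
    intro μ hμ
    have h1 : μ ∈ spectrum ℂ (star T) := hμ
    rw [spectrum.map_star] at h1
    have h2 : star μ ∈ spectrum ℂ T := h1
    have h3 := hT h2
    simpa using h3
  have hcontr : (1 - Tᴴ * T).PosSemidef := by
    have hTeq : T = S * aeval A p * S⁻¹ := by
      rw [hTdef, ha, aeval_conj S S⁻¹ A hSS hSS']
    rw [hTeq]
    exact contraction_conj hS₁.1 hS₂ hdet hH2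
  -- the boundary function
  have hfr := curve_frontier hΩ₁ hr₂ hG₁ hG₂ hG₃
  set w : ℂ → ℂ := fun t => f (G t) with hwdef
  set D : Set ℂ := {t : ℂ | r < ‖t‖} with hDdef
  have hDo : IsOpen D := isOpen_lt continuous_const continuous_norm
  have hdom : ∀ s : ℂ, 1 ≤ ‖s‖ → s ∈ D := fun s hs => lt_of_lt_of_le hr₂ hs
  set D' : Set ℂ := D ∩ G ⁻¹' U with hD'def
  have hD'o : IsOpen D' := hG₁.continuousOn.isOpen_inter_preimage hDo hU
  have hsD' : sphere (0 : ℂ) 1 ⊆ D' := by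
    intro t ht
    have ht1 : ‖t‖ = 1 := by simpa using ht
    exact ⟨hdom t ht1.ge, hΩU (hfr t ht1).1⟩
  have hw : DifferentiableOn ℂ w D' :=
    hf₁.comp (hG₁.mono inter_subset_left) (fun t ht => ht.2)
  have hw1 : ∀ t : ℂ, ‖t‖ = 1 → ‖w t‖ = 1 := by
    intro t ht
    exact le_antisymm (norm_f_le_one hΩU hf₁ hf₃ (hfr t ht).1)
      (one_le_norm_f hΩU hf₂ hf₃ (hΩU (hfr t ht).1) (hfr t ht).2)
  have hout : ∀ s : ℂ, 1 < ‖s‖ → s ∈ D' → 1 ≤ ‖w s‖ := by
    intro s hs hsD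
    refine one_le_norm_f hΩU hf₂ hf₃ hsD.2 ?_
    have h1 : G s ∈ G '' {t : ℂ | 1 < ‖t‖} := ⟨s, hs, rfl⟩
    rw [hG₃] at h1
    exact fun h2 => h1 (subset_closure h2)
  have hnotT : ∀ t : ℂ, ‖t‖ = 1 → w t ∉ spectrum ℂ T := by
    intro t ht hmem
    have h1 := hT hmem
    simp only [mem_ball, dist_zero_right] at h1
    rw [hw1 t ht] at h1
    exact lt_irrefl _ h1
  have hunit₂ : ∀ t : ℂ, ‖t‖ = 1 → IsUnit (1 - w t • Tᴴ) := fun t ht =>
    isUnit_one_sub_smul hT₂ (hw1 t ht).le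
  refine ⟨fun t => (t * deriv w t) • (resolvent T (w t) + Tᴴ * Ring.inverse (1 - w t • Tᴴ)),
    ?_, ?_, ?_⟩
  · exact continuousOn_density hD'o hsD' hw (fun t ht => hnotT t (by simpa using ht))
      (fun t ht => hunit₂ t (by simpa using ht))
  · intro t ht
    obtain ⟨α, hα, hαeq⟩ := alpha_real_nonneg ht hD'o (hsD' (by simpa using ht)) hw
      (fun s hs _ => hw1 s hs) hout
    have hwt := hw1 t ht
    have hw0 : w t ≠ 0 := by
      intro h
      rw [h, norm_zero] at hwt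
      exact zero_ne_one hwt
    have hnt := hnotT t ht
    rw [spectrum.notMem_iff] at hnt
    have hP := poisson_identity T hwt hnt
    have hkey : (t * deriv w t) • (resolvent T (w t) + Tᴴ * Ring.inverse (1 - w t • Tᴴ))
        = (α : ℂ) • ((resolvent T (w t))ᴴ * (1 - Tᴴ * T) * resolvent T (w t)) := by
      rw [hP, ← hαeq, smul_smul]
      congr 1
      field_simp
    beta_reduce
    rw [hkey]
    have hαc : (0 : ℂ) ≤ (α : ℂ) := by exact_mod_cast hα
    have hpsd := hcontr.conjTranspose_mul_mul_same (resolvent T (w t))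
    exact hpsd.smul hαc
  · intro V hV hKV v hv q hq
    have hUV : IsOpen (U ∩ V) := hU.inter hV
    obtain ⟨g', hg', hvq⟩ := exists_eq_add_charpoly_mul A hUV
      (fun μ hμ => ⟨hΩU (subset_closure (hAΩ hμ)), hKV (subset_closure (hAΩ hμ))⟩)
      (hv.mono inter_subset_right) hq
    exact poisson_mean_formula hΩ₁ hΩ₂ hΩ₃ hU hΩU hf₁ hf₂ hf₃ hr₁ hr₂ hG₁ hG₂ hG₃ haΩ hχa hχ hg hfeq
      hT₂ hV hKV hv hg' hvq

end Crest.Agent.Lib.Crouzeix.Poisson
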