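import Mathlib
import Crest.Agent.Lib.Crouzeix.PPhi

/-!
# Kronecker products and means of positive densities: the norm bound (helper95)
-/

set_option autoImplicit false

open Complex Metric Set Filter Topology Real Bornology Matrix WithLp
open scoped ComplexOrder Matrix.Norms.L2Operator Kronecker

namespace Crest.Agent.Lib.Crouzeix.Poisson

/-- Linear maps commute with means, in finite dimension. -/
theorem circleAverage_linear {E E' : Type*} [NormedAddCommGroup E] [NormedSpace ℂ E]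
    [FiniteDimensional ℂ E] [NormedAddCommGroup E'] [NormedSpace ℂ E'] [CompleteSpace E']
    {F : ℂ → E} (hF : ContinuousOn F (sphere (0 : ℂ) 1)) (φ : E →ₗ[ℂ] E') :
    φ (circleAverage F 0 1) = circleAverage (fun t => φ (F t)) 0 1 := by
  have : CompleteSpace E := FiniteDimensional.complete ℂ E
  let L : E →L[ℝ] E' := (LinearMap.toContinuousLinearMap φ).restrictScalars ℝ
  have := L.circleAverage_comp_comm (f := F) (circleIntegrable_of_continuousOn hF)
  exact this.symm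

/-- Norm of a mean. -/
theorem norm_circleAverage_le {E : Type*} [NormedAddCommGroup E] [NormedSpace ℝ E] [CompleteSpace E]
    {F : ℂ → E} {g : ℂ → ℝ} (hg : ContinuousOn g (sphere (0 : ℂ) 1))
    (h : ∀ t : ℂ, ‖t‖ = 1 → ‖F t‖ ≤ g t) :
    ‖circleAverage F 0 1‖ ≤ circleAverage g 0 1 := by
  have hmem : ∀ θ : ℝ, circleMap 0 1 θ ∈ sphere (0 : ℂ) 1 := fun θ =>
    circleMap_mem_sphere 0 zero_le_one θ
  have hnorm : ∀ θ : ℝ, ‖circleMap 0 1 θ‖ = 1 := fun θ => by simpa using hmem θ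
  unfold circleAverage
  rw [norm_smul, smul_eq_mul]
  have hpos : (0 : ℝ) ≤ ‖(2 * π)⁻¹‖ := norm_nonneg _
  have e1 : ‖(2 * π)⁻¹‖ = (2 * π)⁻¹ := by
    rw [Real.norm_of_nonneg]
    positivity
  rw [e1]
  refine mul_le_mul_of_nonneg_left ?_ (by positivity)
  have hgc : Continuous fun θ : ℝ => g (circleMap 0 1 θ) :=
    hg.comp_continuous (continuous_circleMap 0 1) hmem
  refine intervalIntegral.norm_integral_le_of_norm_le (by positivity) ?_ (hgc.intervalIntegrable _ _)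
  exact Eventually.of_forall fun θ _ => h _ (hnorm θ)

variable {α β : Type*} [Fintype α] [DecidableEq α] [Fintype β] [DecidableEq β]

theorem kron_one_mulVec (X : Matrix α α ℂ) (x : α × β → ℂ) (i : α) (k : β) :
    ((X ⊗ₖ (1 : Matrix β β ℂ)) *ᵥ x) (i, k) = (X *ᵥ fun j => x (j, k)) i := by
  simp only [mulVec, dotProduct, Fintype.sum_prod_type, kroneckerMap_apply, one_apply]
  refine Finset.sum_congr rfl fun j _ => ?_
  simp [Finset.sum_ite_eq]

theorem one_kron_mulVec (V : Matrix β β ℂ) (x : α × β → ℂ) (i : α) (k : β) :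
    (((1 : Matrix α α ℂ) ⊗ₖ V) *ᵥ x) (i, k) = (V *ᵥ fun l => x (i, l)) k := by
  simp only [mulVec, dotProduct, Fintype.sum_prod_type, kroneckerMap_apply, one_apply]
  simp [Finset.sum_ite_eq]

omit [DecidableEq α] [DecidableEq β] in
/-- Slicing the Euclidean norm along the second coordinate. -/
theorem norm_sq_slice_snd (z : EuclideanSpace ℂ (α × β)) :
    ‖z‖ ^ 2 = ∑ k, ‖(toLp 2 fun j => z (j, k) : EuclideanSpace ℂ α)‖ ^ 2 := by
  rw [EuclideanSpace.norm_sq_eq, Fintype.sum_prod_type, Finset.sum_comm]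
  refine Finset.sum_congr rfl fun k _ => ?_
  rw [EuclideanSpace.norm_sq_eq]

omit [DecidableEq α] [DecidableEq β] in
/-- Slicing the Euclidean norm along the first coordinate. -/
theorem norm_sq_slice_fst (z : EuclideanSpace ℂ (α × β)) :
    ‖z‖ ^ 2 = ∑ i, ‖(toLp 2 fun l => z (i, l) : EuclideanSpace ℂ β)‖ ^ 2 := by
  rw [EuclideanSpace.norm_sq_eq, Fintype.sum_prod_type]
  refine Finset.sum_congr rfl fun k _ => ?_
  rw [EuclideanSpace.norm_sq_eq]

/-- The norm of `X ⊗ 1`. -/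
theorem norm_kron_one_le (X : Matrix α α ℂ) : ‖X ⊗ₖ (1 : Matrix β β ℂ)‖ ≤ ‖X‖ := by
  rw [Matrix.cstar_norm_def]
  refine ContinuousLinearMap.opNorm_le_bound _ (norm_nonneg _) fun x => ?_
  have hsq : ‖toEuclideanCLM (n := α × β) (𝕜 := ℂ) (X ⊗ₖ (1 : Matrix β β ℂ)) x‖ ^ 2
      ≤ (‖X‖ * ‖x‖) ^ 2 := by
    rw [norm_sq_slice_snd, mul_pow, norm_sq_slice_snd x, Finset.mul_sum]
    refine Finset.sum_le_sum fun k _ => ?_
    have h1 : (toLp 2 fun j => (toEuclideanCLM (n := α × β) (𝕜 := ℂ)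
        (X ⊗ₖ (1 : Matrix β β ℂ)) x) (j, k) : EuclideanSpace ℂ α)
        = toEuclideanCLM (n := α) (𝕜 := ℂ) X (toLp 2 fun j => x (j, k)) := by
      rw [toEuclideanCLM_toLp]
      congr 1
      funext j
      exact kron_one_mulVec X (ofLp x) j k
    rw [h1, ← mul_pow]
    have h2 := (toEuclideanCLM (n := α) (𝕜 := ℂ) X).le_opNorm (toLp 2 fun j => x (j, k))
    rw [← Matrix.cstar_norm_def] at h2
    exact pow_le_pow_left₀ (norm_nonneg _) h2 2
  exact (sq_le_sq₀ (norm_nonneg _) (by positivity)).1 hsq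

/-- The norm of `1 ⊗ V`. -/
theorem norm_one_kron_le (V : Matrix β β ℂ) : ‖(1 : Matrix α α ℂ) ⊗ₖ V‖ ≤ ‖V‖ := by
  rw [Matrix.cstar_norm_def]
  refine ContinuousLinearMap.opNorm_le_bound _ (norm_nonneg _) fun x => ?_
  have hsq : ‖toEuclideanCLM (n := α × β) (𝕜 := ℂ) ((1 : Matrix α α ℂ) ⊗ₖ V) x‖ ^ 2
      ≤ (‖V‖ * ‖x‖) ^ 2 := by
    rw [norm_sq_slice_fst, mul_pow, norm_sq_slice_fst x, Finset.mul_sum]
    refine Finset.sum_le_sum fun k _ => ?_
    have h1 : (toLp 2 fun l => (toEuclideanCLM (n := α × β) (𝕜 := ℂ)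
        ((1 : Matrix α α ℂ) ⊗ₖ V) x) (k, l) : EuclideanSpace ℂ β)
        = toEuclideanCLM (n := β) (𝕜 := ℂ) V (toLp 2 fun l => x (k, l)) := by
      rw [toEuclideanCLM_toLp]
      congr 1
      funext l
      exact one_kron_mulVec V (ofLp x) k l
    rw [h1, ← mul_pow]
    have h2 := (toEuclideanCLM (n := β) (𝕜 := ℂ) V).le_opNorm (toLp 2 fun l => x (k, l))
    rw [← Matrix.cstar_norm_def] at h2
    exact pow_le_pow_left₀ (norm_nonneg _) h2 2
  exact (sq_le_sq₀ (norm_nonneg _) (by positivity)).1 hsq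

/-- The inner product with a conjugated matrix. -/
theorem inner_conj {ι : Type*} [Fintype ι] [DecidableEq ι] (P Z : Matrix ι ι ℂ)
    (x y : EuclideanSpace ℂ ι) :
    inner ℂ y (toEuclideanCLM (n := ι) (𝕜 := ℂ) (Pᴴ * Z * P) x)
      = inner ℂ (toEuclideanCLM (n := ι) (𝕜 := ℂ) P y)
          (toEuclideanCLM (n := ι) (𝕜 := ℂ) Z (toEuclideanCLM (n := ι) (𝕜 := ℂ) P x)) := by
  rw [map_mul, map_mul, ContinuousLinearMap.mul_apply, ContinuousLinearMap.mul_apply,
    ← Matrix.star_eq_conjTranspose, map_star, ContinuousLinearMap.star_eq_adjoint,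
    ContinuousLinearMap.adjoint_inner_right]

/-- The inner product with `Pᴴ P`. -/
theorem inner_conj_self {ι : Type*} [Fintype ι] [DecidableEq ι] (P : Matrix ι ι ℂ)
    (x : EuclideanSpace ℂ ι) :
    (inner ℂ x (toEuclideanCLM (n := ι) (𝕜 := ℂ) (Pᴴ * P) x)).re
      = ‖toEuclideanCLM (n := ι) (𝕜 := ℂ) P x‖ ^ 2 := by
  have h := inner_conj P 1 x x
  rw [mul_one, map_one, ContinuousLinearMap.one_apply, inner_self_eq_norm_sq_to_K] at h
  rw [h]
  norm_cast

open scoped MatrixOrder in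
/-- Positive semidefinite matrices are of the form `Lᴴ L`. -/
theorem exists_eq_conjTranspose_mul {Λ : Matrix α α ℂ} (hΛ : Λ.PosSemidef) :
    ∃ L : Matrix α α ℂ, Λ = Lᴴ * L := by
  obtain ⟨B, hB⟩ := CStarAlgebra.nonneg_iff_eq_star_mul_self.mp hΛ.nonneg
  exact ⟨B, hB⟩

/-- Pointwise bound. -/
theorem inner_kron_bound {Λ : Matrix α α ℂ} (hΛ : Λ.PosSemidef) {V : Matrix β β ℂ} {M : ℝ}
    (hV : ‖V‖ ≤ M) (x y : EuclideanSpace ℂ (α × β)) :
    ‖inner ℂ y (toEuclideanCLM (n := α × β) (𝕜 := ℂ) (Λ ⊗ₖ V) x)‖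
      ≤ (M / 2) * ((inner ℂ y (toEuclideanCLM (n := α × β) (𝕜 := ℂ)
            (Λ ⊗ₖ (1 : Matrix β β ℂ)) y)).re
          + (inner ℂ x (toEuclideanCLM (n := α × β) (𝕜 := ℂ)
            (Λ ⊗ₖ (1 : Matrix β β ℂ)) x)).re) := by
  obtain ⟨L, hL⟩ := exists_eq_conjTranspose_mul hΛ
  set P : Matrix (α × β) (α × β) ℂ := L ⊗ₖ (1 : Matrix β β ℂ) with hP
  set Z : Matrix (α × β) (α × β) ℂ := (1 : Matrix α α ℂ) ⊗ₖ V with hZ
  have hPH : Pᴴ = Lᴴ ⊗ₖ (1 : Matrix β β ℂ) := by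
    rw [hP, conjTranspose_kronecker, conjTranspose_one]
  have e1 : Λ ⊗ₖ V = Pᴴ * Z * P := by
    rw [hPH, hZ, hP, ← mul_kronecker_mul, ← mul_kronecker_mul, hL]
    simp
  have e2 : Λ ⊗ₖ (1 : Matrix β β ℂ) = Pᴴ * P := by
    rw [hPH, hP, ← mul_kronecker_mul, hL]
    simp
  rw [e1, e2, inner_conj, inner_conj_self, inner_conj_self]
  set a := toEuclideanCLM (n := α × β) (𝕜 := ℂ) P y with ha
  set b := toEuclideanCLM (n := α × β) (𝕜 := ℂ) P x with hb
  have hZn : ‖Z‖ ≤ M := (norm_one_kron_le V).trans hV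
  have h1 : ‖inner ℂ a (toEuclideanCLM (n := α × β) (𝕜 := ℂ) Z b)‖ ≤ ‖a‖ * (M * ‖b‖) := by
    refine (norm_inner_le_norm (𝕜 := ℂ) _ _).trans ?_
    refine mul_le_mul_of_nonneg_left ?_ (norm_nonneg _)
    have h2 := (toEuclideanCLM (n := α × β) (𝕜 := ℂ) Z).le_opNorm b
    rw [← Matrix.cstar_norm_def] at h2
    exact h2.trans (mul_le_mul_of_nonneg_right hZn (norm_nonneg _))
  have hM : 0 ≤ M := (norm_nonneg _).trans hV
  nlinarith [sq_nonneg (‖a‖ - ‖b‖), mul_nonneg hM (sq_nonneg (‖a‖ - ‖b‖))]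

/-- Continuity of Kronecker products. -/
theorem continuousOn_kronecker {A : ℂ → Matrix α α ℂ} {B : ℂ → Matrix β β ℂ} {s : Set ℂ}
    (hA : ContinuousOn A s) (hB : ContinuousOn B s) :
    ContinuousOn (fun t => A t ⊗ₖ B t) s := by
  rw [continuousOn_iff_continuous_domRestrict] at hA hB ⊢
  refine continuous_matrix fun i j => ?_
  exact (hA.matrix_elem _ _).mul (hB.matrix_elem _ _)

/-- **The norm bound.** -/
theorem norm_mean_kron_le {Λ : ℂ → Matrix α α ℂ} {V : ℂ → Matrix β β ℂ} {M : ℝ}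
    (hM : 0 ≤ M)
    (hΛc : ContinuousOn Λ (sphere (0 : ℂ) 1)) (hVc : ContinuousOn V (sphere (0 : ℂ) 1))
    (hΛ : ∀ t : ℂ, ‖t‖ = 1 → (Λ t).PosSemidef) (hmean : circleAverage Λ 0 1 = 1)
    (hV : ∀ t : ℂ, ‖t‖ = 1 → ‖V t‖ ≤ M) :
    ‖circleAverage (fun t => Λ t ⊗ₖ V t) 0 1‖ ≤ M := by
  classical
  set T := toEuclideanCLM (n := α × β) (𝕜 := ℂ) with hT
  -- the bilinear functionals
  let φ : EuclideanSpace ℂ (α × β) → EuclideanSpace ℂ (α × β) →
      (Matrix (α × β) (α × β) ℂ →ₗ[ℂ] ℂ) := fun y x =>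
    { toFun := fun Z => inner ℂ y (T Z x)
      map_add' := fun Z₁ Z₂ => by simp [inner_add_right]
      map_smul' := fun c Z => by simp [inner_smul_right] }
  have hφ : ∀ y x Z, φ y x Z = inner ℂ y (T Z x) := fun _ _ _ => rfl
  have hcK : ContinuousOn (fun t => Λ t ⊗ₖ V t) (sphere (0 : ℂ) 1) :=
    continuousOn_kronecker hΛc hVc
  have hc1 : ContinuousOn (fun t => Λ t ⊗ₖ (1 : Matrix β β ℂ)) (sphere (0 : ℂ) 1) :=
    continuousOn_kronecker hΛc continuousOn_const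
  -- mean of the quadratic forms
  let κ : Matrix α α ℂ →ₗ[ℂ] Matrix (α × β) (α × β) ℂ :=
    { toFun := fun Z => Z ⊗ₖ (1 : Matrix β β ℂ)
      map_add' := fun Z₁ Z₂ => by simp [add_kronecker]
      map_smul' := fun c Z => by simp [smul_kronecker] }
  have hκ : circleAverage (fun t => Λ t ⊗ₖ (1 : Matrix β β ℂ)) 0 1 = 1 := by
    have h1 := circleAverage_linear hΛc κ
    have h2 : κ (circleAverage Λ 0 1) = 1 := by
      rw [hmean]
      show (1 : Matrix α α ℂ) ⊗ₖ (1 : Matrix β β ℂ) = 1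
      simp
    rw [h2] at h1
    exact h1.symm
  have hNc : ∀ x, ContinuousOn (fun t => φ x x (Λ t ⊗ₖ (1 : Matrix β β ℂ))) (sphere (0 : ℂ) 1) := by
    intro x
    exact (LinearMap.continuous_of_finiteDimensional (φ x x)).comp_continuousOn hc1
  have hNmean : ∀ x, circleAverage (fun t => (φ x x (Λ t ⊗ₖ (1 : Matrix β β ℂ))).re) 0 1
      = ‖x‖ ^ 2 := by
    intro x
    have h1 := circleAverage_linear hc1 (φ x x)
    rw [hκ] at h1
    have h2 := Complex.reCLM.circleAverage_comp_comm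
      (f := fun t => φ x x (Λ t ⊗ₖ (1 : Matrix β β ℂ))) (circleIntegrable_of_continuousOn (hNc x))
    have h3 : circleAverage (fun t => (φ x x (Λ t ⊗ₖ (1 : Matrix β β ℂ))).re) 0 1
        = Complex.reCLM (circleAverage (fun t => φ x x (Λ t ⊗ₖ (1 : Matrix β β ℂ))) 0 1) := h2
    rw [h3, ← h1, hφ, map_one, ContinuousLinearMap.one_apply, inner_self_eq_norm_sq_to_K]
    simp only [Complex.reCLM_apply]
    norm_cast
  set Q := circleAverage (fun t => Λ t ⊗ₖ V t) 0 1 with hQ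
  have hbound : ∀ x y, ‖inner ℂ y (T Q x)‖ ≤ (M / 2) * (‖y‖ ^ 2 + ‖x‖ ^ 2) := by
    intro x y
    have h1 := circleAverage_linear hcK (φ y x)
    have h2 : inner ℂ y (T Q x) = circleAverage (fun t => φ y x (Λ t ⊗ₖ V t)) 0 1 := h1
    rw [h2]
    have hgc : ContinuousOn (fun t => (M / 2) * ((φ y y (Λ t ⊗ₖ (1 : Matrix β β ℂ))).re
        + (φ x x (Λ t ⊗ₖ (1 : Matrix β β ℂ))).re)) (sphere (0 : ℂ) 1) := by
      refine continuousOn_const.mul (ContinuousOn.add ?_ ?_)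
      · exact Complex.continuous_re.comp_continuousOn (hNc y)
      · exact Complex.continuous_re.comp_continuousOn (hNc x)
    refine (norm_circleAverage_le hgc fun t ht => ?_).trans ?_
    · exact inner_kron_bound (hΛ t ht) (hV t ht) x y
    · refine le_of_eq ?_
      have h3 : CircleIntegrable (fun t => (φ y y (Λ t ⊗ₖ (1 : Matrix β β ℂ))).re) 0 1 :=
        circleIntegrable_of_continuousOn (Complex.continuous_re.comp_continuousOn (hNc y))
      have h4 : CircleIntegrable (fun t => (φ x x (Λ t ⊗ₖ (1 : Matrix β β ℂ))).re) 0 1 :=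
        circleIntegrable_of_continuousOn (Complex.continuous_re.comp_continuousOn (hNc x))
      have h5 := circleAverage_fun_smul (a := M / 2) (c := 0) (R := 1)
        (f := fun t => (φ y y (Λ t ⊗ₖ (1 : Matrix β β ℂ))).re
          + (φ x x (Λ t ⊗ₖ (1 : Matrix β β ℂ))).re)
      rw [circleAverage_fun_add h3 h4, hNmean, hNmean, smul_eq_mul] at h5
      exact h5
  rw [Matrix.cstar_norm_def]
  refine ContinuousLinearMap.opNorm_le_of_unit_norm hM fun x hx => ?_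
  by_cases hz : T Q x = 0
  · rw [hz, norm_zero]
    exact hM
  have hzn : ‖T Q x‖ ≠ 0 := norm_ne_zero_iff.2 hz
  set y : EuclideanSpace ℂ (α × β) := ((‖T Q x‖⁻¹ : ℝ) : ℂ) • T Q x with hy
  have hyn : ‖y‖ = 1 := by
    rw [hy, norm_smul, Complex.norm_real, norm_inv, norm_norm, inv_mul_cancel₀ hzn]
  have h1 := hbound x y
  rw [hyn, hx] at h1
  have h2 : inner ℂ y (T Q x) = (‖T Q x‖ : ℂ) := by
    rw [hy, inner_smul_left, inner_self_eq_norm_sq_to_K]
    simp only [conj_ofReal]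
    push_cast
    have : ((‖T Q x‖ : ℂ)) ≠ 0 := by exact_mod_cast hzn
    field_simp
    rfl
  rw [h2, Complex.norm_real, norm_norm] at h1
  linarith

end Crest.Agent.Lib.Crouzeix.Poisson
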