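import Mathlib
import Crest.Agent.Lib.Crouzeix.PMat
import Crest.Agent.Lib.Crouzeix.PNorm

/-!
# Assembly of S0181 (helper95)
-/

set_option autoImplicit false

open Complex Metric Set Filter Topology Real Bornology Polynomial Matrix WithLp
open scoped ComplexOrder Matrix.Norms.L2Operator Kronecker
open Crest.AnalysisR.NumRange

namespace Crest.Agent.Lib.Crouzeix.Poisson

variable {α β : Type*} [Fintype α] [DecidableEq α] [Fintype β] [DecidableEq β]

/-- Positive semidefinite quadratic forms. -/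
theorem psd_inner_nonneg {P : Matrix α α ℂ} (hP : P.PosSemidef) (x : EuclideanSpace ℂ α) :
    0 ≤ (inner ℂ x (toEuclideanCLM (n := α) (𝕜 := ℂ) P x)).re := by
  obtain ⟨L, rfl⟩ := exists_eq_conjTranspose_mul hP
  rw [inner_conj_self]
  positivity

/-- `‖S‖ ≤ √κ`. -/
theorem norm_S_le {S H : Matrix α α ℂ} (hS : S.IsHermitian) (hS₂ : S * S = H) {κ : ℝ}
    (hκ : ((κ : ℂ) • (1 : Matrix α α ℂ) - H).PosSemidef) : ‖S‖ ≤ Real.sqrt κ := by
  rw [Matrix.cstar_norm_def]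
  refine ContinuousLinearMap.opNorm_le_bound _ (Real.sqrt_nonneg _) fun x => ?_
  have h1 := psd_inner_nonneg hκ x
  rw [map_sub, map_smul, map_one, ContinuousLinearMap.sub_apply, ContinuousLinearMap.smul_apply,
    ContinuousLinearMap.one_apply, inner_sub_right, inner_smul_right,
    inner_self_eq_norm_sq_to_K] at h1
  have hSH : Sᴴ = S := hS
  have h2 := inner_conj_self S x
  rw [hSH, hS₂] at h2
  have h3 : ‖toEuclideanCLM (n := α) (𝕜 := ℂ) S x‖ ^ 2 ≤ κ * ‖x‖ ^ 2 := by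
    rw [← h2]
    have h4 : ((κ : ℂ) * ((‖x‖ : ℂ)) ^ 2).re = κ * ‖x‖ ^ 2 := by
      norm_cast
    simp only [Complex.sub_re] at h1
    have h5 : ((κ : ℂ) * (((‖x‖ : ℝ) : ℂ)) ^ 2).re = κ * ‖x‖ ^ 2 := h4
    have h6 := h1
    simp only [Complex.coe_algebraMap] at h6
    rw [h5] at h6
    linarith
  have h7 := Real.abs_le_sqrt h3
  rw [abs_of_nonneg (norm_nonneg _), Real.sqrt_mul' _ (by positivity),
    Real.sqrt_sq (norm_nonneg _)] at h7
  exact h7

/-- `‖S⁻¹‖ ≤ 1`. -/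
theorem norm_Sinv_le {S Sinv H : Matrix α α ℂ} (hS : S.IsHermitian) (hS₂ : S * S = H)
    (hSS : S * Sinv = 1) (hH : (H - 1).PosSemidef) : ‖Sinv‖ ≤ 1 := by
  rw [Matrix.cstar_norm_def]
  refine ContinuousLinearMap.opNorm_le_bound _ zero_le_one fun x => ?_
  set z := toEuclideanCLM (n := α) (𝕜 := ℂ) Sinv x with hz
  have h1 := psd_inner_nonneg hH z
  rw [map_sub, map_one, ContinuousLinearMap.sub_apply, ContinuousLinearMap.one_apply,
    inner_sub_right, inner_self_eq_norm_sq_to_K] at h1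
  have hSH : Sᴴ = S := hS
  have h2 := inner_conj_self S z
  rw [hSH, hS₂] at h2
  have h3 : toEuclideanCLM (n := α) (𝕜 := ℂ) S z = x := by
    rw [hz, ← ContinuousLinearMap.mul_apply, ← map_mul, hSS, map_one,
      ContinuousLinearMap.one_apply]
  rw [h3] at h2
  have h4 : ‖z‖ ^ 2 ≤ ‖x‖ ^ 2 := by
    rw [← h2]
    simp only [Complex.sub_re] at h1
    have h5 : ((((‖z‖ : ℝ) : ℂ)) ^ 2).re = ‖z‖ ^ 2 := by
      norm_cast
    simp only [Complex.coe_algebraMap] at h1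
    rw [h5] at h1
    linarith
  rw [one_mul]
  exact (sq_le_sq₀ (norm_nonneg _) (norm_nonneg _)).1 h4

omit [DecidableEq α] in
theorem entry_sandwich [DecidableEq α] (Sinv S : Matrix α α ℂ) (X : β → β → Matrix α α ℂ) :
    (Sinv ⊗ₖ (1 : Matrix β β ℂ)) * Matrix.of (fun i j : α × β => X i.2 j.2 i.1 j.1)
        * (S ⊗ₖ (1 : Matrix β β ℂ))
      = Matrix.of (fun i j : α × β => (Sinv * X i.2 j.2 * S) i.1 j.1) := by
  ext ⟨i, k⟩ ⟨j, l⟩
  simp only [Matrix.mul_apply, Fintype.sum_prod_type, kroneckerMap_apply, Matrix.of_apply, one_apply]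
  simp only [Finset.sum_mul, mul_ite, mul_one, mul_zero, ite_mul, zero_mul, Finset.sum_ite_eq,
    Finset.mem_univ, if_true, Finset.sum_ite_eq']

/-- Entries of means. -/
theorem entry_circleAverage {F : ℂ → Matrix α α ℂ} (hF : ContinuousOn F (sphere (0 : ℂ) 1))
    (a b : α) :
    (circleAverage F 0 1) a b
      = (2 * (π : ℂ))⁻¹ * ∫ θ in (0 : ℝ)..2 * π, F (circleMap 0 1 θ) a b := by
  have h1 := circleAverage_linear hF (Matrix.entryLinearMap ℂ ℂ a b)
  simp only [Matrix.entryLinearMap_apply] at h1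
  rw [h1, circleAverage_def, Complex.real_smul]
  push_cast
  rfl

/-- The content of S0181. -/
theorem s0181_main
    (n : ℕ) (hn : 1 ≤ n) (A : Matrix (Fin n) (Fin n) ℂ)
    (Ω U : Set ℂ) (hΩ₁ : IsOpen Ω) (hΩ₂ : Bornology.IsBounded Ω) (hΩ₃ : Convex ℝ Ω)
    (hU : IsOpen U) (hΩU : closure Ω ⊆ U)
    (f : ℂ → ℂ) (hf₁ : DifferentiableOn ℂ f U) (hf₂ : Set.InjOn f U)
    (hf₃ : f '' Ω = Metric.ball 0 1)
    (G : ℂ → ℂ) (r : ℝ) (hr₁ : 0 < r) (hr₂ : r < 1)
    (hG₁ : DifferentiableOn ℂ G {t : ℂ | r < ‖t‖}) (hG₂ : Set.InjOn G {t : ℂ | r < ‖t‖})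
    (hG₃ : G '' {t : ℂ | 1 < ‖t‖} = (closure Ω)ᶜ)
    (hA : numRange A ⊆ Ω) (p : Polynomial ℂ) (hp : AgreesOnSpectrum A f p)
    (H : Matrix (Fin n) (Fin n) ℂ) (κsq : ℝ) (hH : IsOptimalMetric (Polynomial.aeval A p) H κsq)
    (S : Matrix (Fin n) (Fin n) ℂ) (hS₁ : S.PosSemidef) (hS₂ : S * S = H) :
    ∃ Λ : ℝ → Matrix (Fin n) (Fin n) ℂ, Continuous Λ ∧ Function.Periodic Λ (2 * Real.pi) ∧
      (∀ θ, (Λ θ).PosSemidef) ∧
      (∀ a b, (2 * Real.pi : ℂ)⁻¹ * (∫ θ in (0 : ℝ)..2 * Real.pi, Λ θ a b)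
        = (1 : Matrix (Fin n) (Fin n) ℂ) a b) ∧
      ∀ (m : ℕ), 1 ≤ m → ∀ (V : Set ℂ), IsOpen V → closure Ω ⊆ V →
        ∀ v : ℂ → Matrix (Fin m) (Fin m) ℂ, (∀ c d, DifferentiableOn ℂ (fun z => v z c d) V) →
        ∀ q : Fin m → Fin m → Polynomial ℂ,
          (∀ c d, AgreesOnSpectrum A (fun z => v z c d) (q c d)) →
          (∀ a b c d, Polynomial.aeval (S * A * S⁻¹) (q c d) a b =
              (2 * Real.pi : ℂ)⁻¹ * (∫ θ in (0 : ℝ)..2 * Real.pi,
                Λ θ a b * v (G (Complex.exp ((θ : ℂ) * Complex.I))) c d)) ∧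
          ∀ M : ℝ, (∀ z ∈ closure Ω, ‖Matrix.toEuclideanCLM (n := Fin m) (𝕜 := ℂ) (v z)‖ ≤ M) →
            ‖Matrix.toEuclideanCLM (n := Fin n × Fin m) (𝕜 := ℂ)
                (Matrix.of fun (i : Fin n × Fin m) (j : Fin n × Fin m) =>
                  Polynomial.aeval A (q i.2 j.2) i.1 j.1)‖ ≤ Real.sqrt κsq * M := by
  classical
  obtain ⟨⟨hH1, hH2, hH3⟩, -⟩ := hH
  obtain ⟨Λt, hΛc, hΛpsd, hform⟩ := density_exists hn A hΩ₁ hΩ₂ hΩ₃ hU hΩU hf₁ hf₂ hf₃ hr₁ hr₂ hG₁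
    hG₂ hG₃ hA hp hH1 hH3 hS₁ hS₂
  have hmemS : ∀ θ : ℝ, circleMap 0 1 θ ∈ sphere (0 : ℂ) 1 := fun θ =>
    circleMap_mem_sphere 0 zero_le_one θ
  have hnormS : ∀ θ : ℝ, ‖circleMap 0 1 θ‖ = 1 := fun θ => by simpa using hmemS θ
  have hcm : ∀ θ : ℝ, circleMap 0 1 θ = Complex.exp ((θ : ℂ) * Complex.I) := fun θ => by
    simp [circleMap]
  set a : Matrix (Fin n) (Fin n) ℂ := S * A * S⁻¹ with ha
  -- the mean
  have hmean : circleAverage Λt 0 1 = 1 := by
    have h1 := hform Set.univ isOpen_univ (subset_univ _) (fun _ => 1)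
      (differentiableOn_const _) 1 (by
        intro μ _ j _
        simp)
    simpa using h1
  have hfr := curve_frontier hΩ₁ hr₂ hG₁ hG₂ hG₃
  have hGc : ContinuousOn G (sphere (0 : ℂ) 1) := by
    refine hG₁.continuousOn.mono fun t ht => ?_
    have ht1 : ‖t‖ = 1 := by simpa using ht
    show r < ‖t‖
    rw [ht1]
    exact hr₂
  refine ⟨fun θ => Λt (circleMap 0 1 θ), hΛc.comp_continuous (continuous_circleMap 0 1) hmemS, ?_,
    fun θ => hΛpsd _ (hnormS θ), ?_, ?_⟩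
  · intro θ
    show Λt (circleMap 0 1 (θ + 2 * π)) = Λt (circleMap 0 1 θ)
    rw [periodic_circleMap 0 1 θ]
  · intro i j
    have h1 := entry_circleAverage hΛc i j
    rw [hmean] at h1
    exact h1.symm
  · intro m _ V hV hKV v hv q hq
    -- entries along the curve
    have hvc : ∀ c d, ContinuousOn (fun t => v (G t) c d) (sphere (0 : ℂ) 1) := by
      intro c d
      refine (hv c d).continuousOn.comp hGc ?_
      intro t ht
      exact hKV (hfr t (by simpa using ht)).1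
    have hsmulc : ∀ c d, ContinuousOn (fun t => v (G t) c d • Λt t) (sphere (0 : ℂ) 1) :=
      fun c d => (hvc c d).smul hΛc
    have hentry : ∀ i j c d, aeval a (q c d) i j
        = (2 * (π : ℂ))⁻¹ * ∫ θ in (0 : ℝ)..2 * π,
            Λt (circleMap 0 1 θ) i j * v (G (circleMap 0 1 θ)) c d := by
      intro i j c d
      rw [← hform V hV hKV (fun z => v z c d) (hv c d) (q c d) (hq c d),
        entry_circleAverage (hsmulc c d) i j]
      congr 1
      refine intervalIntegral.integral_congr fun θ _ => ?_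
      simp only [Matrix.smul_apply, smul_eq_mul]
      ring
    refine ⟨fun i j c d => ?_, fun M hM => ?_⟩
    · rw [hentry i j c d]
      simp only [hcm]
    · -- the norm bound
      have hz : G 1 ∈ closure Ω := (hfr 1 (by simp)).1
      have hM0 : 0 ≤ M := (norm_nonneg _).trans (hM _ hz)
      have hVc : ContinuousOn (fun t => v (G t)) (sphere (0 : ℂ) 1) := by
        rw [continuousOn_iff_continuous_domRestrict]
        refine continuous_matrix fun c d => ?_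
        have := hvc c d
        rw [continuousOn_iff_continuous_domRestrict] at this
        exact this
      have hVb : ∀ t : ℂ, ‖t‖ = 1 → ‖v (G t)‖ ≤ M := fun t ht => hM _ (hfr t ht).1
      have hQ := norm_mean_kron_le hM0 hΛc hVc hΛpsd hmean hVb
      set Q : Matrix (Fin n × Fin m) (Fin n × Fin m) ℂ :=
        circleAverage (fun t => Λt t ⊗ₖ v (G t)) 0 1 with hQdef
      have hQc : ContinuousOn (fun t => Λt t ⊗ₖ v (G t)) (sphere (0 : ℂ) 1) :=
        continuousOn_kronecker hΛc hVc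
      have hQentry : Q = Matrix.of fun i j : Fin n × Fin m => aeval a (q i.2 j.2) i.1 j.1 := by
        ext i j
        rw [hQdef, entry_circleAverage hQc i j, Matrix.of_apply, hentry]
        rfl
      have hdet : S.det ≠ 0 := S_det_ne_zero hS₂ hH1
      have hu : IsUnit S.det := isUnit_iff_ne_zero.2 hdet
      have hSS : S * S⁻¹ = 1 := Matrix.mul_nonsing_inv S hu
      have hSS' : S⁻¹ * S = 1 := Matrix.nonsing_inv_mul S hu
      have hmat : (Matrix.of fun (i : Fin n × Fin m) (j : Fin n × Fin m) =>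
            Polynomial.aeval A (q i.2 j.2) i.1 j.1)
          = (S⁻¹ ⊗ₖ (1 : Matrix (Fin m) (Fin m) ℂ)) * Q * (S ⊗ₖ (1 : Matrix (Fin m) (Fin m) ℂ)) := by
        rw [hQentry, entry_sandwich S⁻¹ S (fun c d => aeval a (q c d))]
        ext i j
        simp only [Matrix.of_apply]
        have h1 : S⁻¹ * aeval a (q i.2 j.2) * S = aeval A (q i.2 j.2) := by
          rw [ha, aeval_conj S S⁻¹ A hSS hSS']
          calc S⁻¹ * (S * (aeval A) (q i.2 j.2) * S⁻¹) * S
              = (S⁻¹ * S) * (aeval A) (q i.2 j.2) * (S⁻¹ * S) := by noncomm_ring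
            _ = aeval A (q i.2 j.2) := by rw [hSS', one_mul, mul_one]
        rw [h1]
      rw [hmat, ← Matrix.cstar_norm_def]
      have hn1 : ‖S⁻¹ ⊗ₖ (1 : Matrix (Fin m) (Fin m) ℂ)‖ ≤ 1 :=
        (norm_kron_one_le S⁻¹).trans (norm_Sinv_le hS₁.1 hS₂ hSS hH1)
      have hn2 : ‖S ⊗ₖ (1 : Matrix (Fin m) (Fin m) ℂ)‖ ≤ Real.sqrt κsq :=
        (norm_kron_one_le S).trans (norm_S_le hS₁.1 hS₂ hH2)
      calc ‖(S⁻¹ ⊗ₖ (1 : Matrix (Fin m) (Fin m) ℂ)) * Q * (S ⊗ₖ (1 : Matrix (Fin m) (Fin m) ℂ))‖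
          ≤ ‖S⁻¹ ⊗ₖ (1 : Matrix (Fin m) (Fin m) ℂ)‖ * ‖Q‖
              * ‖S ⊗ₖ (1 : Matrix (Fin m) (Fin m) ℂ)‖ := by
            refine (norm_mul_le _ _).trans ?_
            exact mul_le_mul_of_nonneg_right (norm_mul_le _ _) (norm_nonneg _)
        _ ≤ 1 * M * Real.sqrt κsq := by
            have h1 : ‖S⁻¹ ⊗ₖ (1 : Matrix (Fin m) (Fin m) ℂ)‖ * ‖Q‖ ≤ 1 * M :=
              mul_le_mul hn1 hQ (norm_nonneg _) zero_le_one
            exact mul_le_mul h1 hn2 (norm_nonneg _) (by positivity)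
        _ = Real.sqrt κsq * M := by ring

end Crest.Agent.Lib.Crouzeix.Poisson
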