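import Mathlib

/-!
# Finite-dimensional Paulsen similarity theorem (elementary proof).

If `T` is an `n × n` matrix with `T^k → 0`, and the matrix-polynomial von Neumann inequality holds
with constant `C` over the closed disc of radius `r < 1` (stated in Hilbert–Schmidt form,
`Ξ ↦ ∑ T^k Ξ B_k`), then there is a Hermitian `H` with `1 ≤ H ≤ C² • 1` and `Tᴴ H T ≤ H`.

The proof is by separation, and a unitary-colligation (transfer function) construction turning
the dual certificate into an explicit contractive matrix polynomial.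
-/

set_option autoImplicit false

open Matrix Filter Topology
open scoped ComplexOrder

namespace Crest.Agent.Lib.Crouzeix.Paulsen

variable {n : ℕ}

local notation "Mat" => Matrix (Fin n) (Fin n) ℂ

/-- squared Euclidean norm of a vector. -/
noncomputable def nsq (v : Fin n → ℂ) : ℝ := (star v ⬝ᵥ v).re

lemma nsq_eq_sum (v : Fin n → ℂ) : nsq v = ∑ i, ‖v i‖ ^ 2 := by
  unfold nsq
  have : star v ⬝ᵥ v = ∑ i, ((‖v i‖ ^ 2 : ℝ) : ℂ) := by
    simp only [dotProduct, Pi.star_apply]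
    refine Finset.sum_congr rfl fun i _ => ?_
    rw [Complex.star_def, ← Complex.normSq_eq_conj_mul_self, Complex.normSq_eq_norm_sq]
  rw [this, Complex.re_sum]
  simp [← Complex.ofReal_pow]

lemma nsq_nonneg (v : Fin n → ℂ) : 0 ≤ nsq v := by
  rw [nsq_eq_sum]; positivity

lemma nsq_eq_norm (v : Fin n → ℂ) : nsq v = ‖(WithLp.toLp 2 v : EuclideanSpace ℂ (Fin n))‖ ^ 2 := by
  rw [nsq_eq_sum, EuclideanSpace.norm_sq_eq]

lemma nsq_add (u v : Fin n → ℂ) :
    nsq (u + v) = nsq u + 2 * (star u ⬝ᵥ v).re + nsq v := by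
  unfold nsq
  have h : star v ⬝ᵥ u = star (star u ⬝ᵥ v) := by
    rw [star_dotProduct, dotProduct_comm]
  simp only [star_add, add_dotProduct, dotProduct_add, Complex.add_re, h]
  simp [Complex.star_def]
  ring

lemma nsq_smul (z : ℂ) (v : Fin n → ℂ) : nsq (z • v) = ‖z‖ ^ 2 * nsq v := by
  simp only [nsq_eq_sum, Pi.smul_apply, smul_eq_mul, norm_mul, mul_pow, Finset.mul_sum]

/-- `2 Re ⟨p, u⟩ ≤ |p|² + |u|²` -/
lemma two_re_le (p u : Fin n → ℂ) : 2 * (star p ⬝ᵥ u).re ≤ nsq p + nsq u := by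
  have h := nsq_nonneg (p + (-u))
  rw [nsq_add] at h
  have h2 : nsq (-u) = nsq u := by simp [nsq]
  have h3 : (star p ⬝ᵥ (-u)).re = - (star p ⬝ᵥ u).re := by simp
  rw [h2, h3] at h
  linarith

/-- Lower bound for `|p + δ|²`: `(1 - t)|p|² - (1/t - 1)|δ|² ≤ |p + δ|²`, in the form with
`s = 1 - t`, `s ∈ [0,1)`. -/
lemma nsq_add_ge (s : ℝ) (hs0 : 0 ≤ s) (hs1 : s < 1) (p δ : Fin n → ℂ) :
    s * nsq p - s / (1 - s) * nsq δ ≤ nsq (p + δ) := by
  have ht : 0 < 1 - s := by linarith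
  rw [nsq_add]
  -- `-2 Re ⟨p,δ⟩ ≤ t |p|² + |δ|²/t`.
  have h := two_re_le (((1 - s : ℝ) : ℂ) • p) (-δ)
  have h1 : nsq (((1 - s : ℝ) : ℂ) • p) = (1 - s) ^ 2 * nsq p := by
    rw [nsq_smul, Complex.norm_real, Real.norm_of_nonneg ht.le]
  have h2 : nsq (-δ) = nsq δ := by simp [nsq]
  have h3 : (star (((1 - s : ℝ) : ℂ) • p) ⬝ᵥ (-δ)).re = - ((1 - s) * (star p ⬝ᵥ δ).re) := by
    simp [star_smul, smul_dotProduct]
  rw [h1, h2, h3] at h
  have hpos := nsq_nonneg δ
  have e : s / (1 - s) * nsq δ = nsq δ / (1 - s) - nsq δ := by field_simp; ring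
  rw [e]
  have key : -(2 * (star p ⬝ᵥ δ).re) ≤ (1 - s) * nsq p + nsq δ / (1 - s) := by
    have : (1 - s) * (-(2 * (star p ⬝ᵥ δ).re)) ≤ (1 - s) * ((1 - s) * nsq p + nsq δ / (1 - s)) := by
      have e2 : (1 - s) * ((1 - s) * nsq p + nsq δ / (1 - s)) = (1 - s) ^ 2 * nsq p + nsq δ := by
        field_simp
      rw [e2]; linarith
    exact le_of_mul_le_mul_left this ht
  linarith

lemma nsq_conjTranspose_mulVec (A : Mat) (q : Fin n → ℂ) :
    nsq (Aᴴ *ᵥ q) = (star q ⬝ᵥ ((A * Aᴴ) *ᵥ q)).re := by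
  unfold nsq
  rw [star_mulVec, conjTranspose_conjTranspose, ← dotProduct_mulVec, mulVec_mulVec]

lemma star_mulVec_dotProduct (A : Mat) (q u : Fin n → ℂ) :
    star (Aᴴ *ᵥ q) ⬝ᵥ u = star q ⬝ᵥ (A *ᵥ u) := by
  rw [star_mulVec, conjTranspose_conjTranspose, dotProduct_mulVec]

/-! ### The colligation -/

section Colligation

/-- Properties of the colligation `a = (Tw)ᴴ Pi w`, `b = (Tw)ᴴ Pi x`, `c = yᴴ Pi w`, `d = yᴴ Pi x`. -/
structure Coll {n : ℕ} (T x y w a b c d : Matrix (Fin n) (Fin n) ℂ) : Prop where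
  eqw : T * w * a + y * c = w
  eqx : T * w * b + y * d = x
  contr : ∀ u₁ u₂ : Fin n → ℂ,
    nsq (b *ᵥ u₁ + a *ᵥ u₂) + nsq (d *ᵥ u₁ + c *ᵥ u₂) ≤ nsq u₁ + nsq u₂

variable {T x y w P Pi : Matrix (Fin n) (Fin n) ℂ}

lemma coll_of_inv (hP1 : P = (T * w) * (T * w)ᴴ + y * yᴴ) (hP2 : P = x * xᴴ + w * wᴴ)
    (hPi : P * Pi = 1) :
    Coll T x y w ((T * w)ᴴ * Pi * w) ((T * w)ᴴ * Pi * x) (yᴴ * Pi * w) (yᴴ * Pi * x) := by
  have hw : ∀ s : Mat, (T * w) * ((T * w)ᴴ * Pi * s) + y * (yᴴ * Pi * s) = s := by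
    intro s
    calc (T * w) * ((T * w)ᴴ * Pi * s) + y * (yᴴ * Pi * s)
        = ((T * w) * (T * w)ᴴ + y * yᴴ) * Pi * s := by noncomm_ring
      _ = P * Pi * s := by rw [hP1]
      _ = s := by rw [hPi, one_mul]
  refine ⟨hw w, hw x, ?_⟩
  intro u₁ u₂
  set s : Fin n → ℂ := x *ᵥ u₁ + w *ᵥ u₂ with hs
  set q : Fin n → ℂ := Pi *ᵥ s with hq
  have hPq : P *ᵥ q = s := by rw [hq, mulVec_mulVec, hPi, one_mulVec]
  have e1 : ((T * w)ᴴ * Pi * x) *ᵥ u₁ + ((T * w)ᴴ * Pi * w) *ᵥ u₂ = (T * w)ᴴ *ᵥ q := by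
    rw [hq, hs, mulVec_mulVec, mulVec_add]
    simp only [mulVec_mulVec, Matrix.mul_assoc]
  have e2 : (yᴴ * Pi * x) *ᵥ u₁ + (yᴴ * Pi * w) *ᵥ u₂ = yᴴ *ᵥ q := by
    rw [hq, hs, mulVec_mulVec, mulVec_add]
    simp only [mulVec_mulVec, Matrix.mul_assoc]
  rw [e1, e2, nsq_conjTranspose_mulVec, nsq_conjTranspose_mulVec, ← Complex.add_re,
    ← dotProduct_add, ← add_mulVec, ← hP1, hPq]
  -- now the other factorization
  have e3 : (star q ⬝ᵥ s).re = nsq (xᴴ *ᵥ q) + nsq (wᴴ *ᵥ q) := by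
    rw [nsq_conjTranspose_mulVec, nsq_conjTranspose_mulVec, ← Complex.add_re,
      ← dotProduct_add, ← add_mulVec, ← hP2, hPq]
  have e4 : (star q ⬝ᵥ s).re = (star (xᴴ *ᵥ q) ⬝ᵥ u₁).re + (star (wᴴ *ᵥ q) ⬝ᵥ u₂).re := by
    rw [star_mulVec_dotProduct, star_mulVec_dotProduct, ← Complex.add_re, ← dotProduct_add]
  have h1 := two_re_le (xᴴ *ᵥ q) u₁
  have h2 := two_re_le (wᴴ *ᵥ q) u₂
  linarith

variable {a b c d : Matrix (Fin n) (Fin n) ℂ}

lemma Coll.nsq_a (h : Coll T x y w a b c d) (u : Fin n → ℂ) : nsq (a *ᵥ u) ≤ nsq u := by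
  have := h.contr 0 u
  simp only [mulVec_zero, zero_add] at this
  have h0 : nsq (0 : Fin n → ℂ) = 0 := by simp [nsq]
  rw [h0, zero_add] at this
  linarith [nsq_nonneg (c *ᵥ u)]

lemma Coll.nsq_b (h : Coll T x y w a b c d) (u : Fin n → ℂ) : nsq (b *ᵥ u) ≤ nsq u := by
  have := h.contr u 0
  simp only [mulVec_zero, add_zero] at this
  have h0 : nsq (0 : Fin n → ℂ) = 0 := by simp [nsq]
  rw [h0, add_zero] at this
  linarith [nsq_nonneg (d *ᵥ u)]

lemma Coll.nsq_pow_a (h : Coll T x y w a b c d) (k : ℕ) (u : Fin n → ℂ) :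
    nsq ((a ^ k) *ᵥ u) ≤ nsq u := by
  induction k with
  | zero => simp
  | succ k ih =>
    rw [pow_succ', ← mulVec_mulVec]
    exact (h.nsq_a _).trans ih

/-- Coefficients of the transfer function. -/
def coef (a b c d : Mat) : ℕ → Mat
  | 0 => d
  | k + 1 => c * a ^ k * b

/-- The truncated state vector. -/
noncomputable def state (a b : Mat) (z : ℂ) (u : Fin n → ℂ) (N : ℕ) : Fin n → ℂ :=
  ∑ k ∈ Finset.range N, z ^ k • ((a ^ k * b) *ᵥ u)

lemma state_succ (a b : Mat) (z : ℂ) (u : Fin n → ℂ) (N : ℕ) :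
    state a b z u (N + 1) = b *ᵥ u + a *ᵥ (z • state a b z u N) := by
  unfold state
  rw [Finset.sum_range_succ', add_comm]
  congr 1
  · simp
  · rw [mulVec_smul, mulVec_sum, Finset.smul_sum]
    refine Finset.sum_congr rfl fun k _ => ?_
    rw [mulVec_smul, smul_smul, mulVec_mulVec, pow_succ', pow_succ', Matrix.mul_assoc]

lemma state_succ' (a b : Mat) (z : ℂ) (u : Fin n → ℂ) (N : ℕ) :
    state a b z u (N + 1) = state a b z u N + z ^ N • ((a ^ N * b) *ᵥ u) := by
  unfold state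
  rw [Finset.sum_range_succ]

lemma output_eq (a b c d : Mat) (z : ℂ) (u : Fin n → ℂ) (N : ℕ) :
    (∑ k ∈ Finset.range (N + 1), z ^ k • coef a b c d k) *ᵥ u
      = d *ᵥ u + c *ᵥ (z • state a b z u N) := by
  rw [Finset.sum_range_succ', add_comm, add_mulVec]
  congr 1
  · simp [coef]
  · unfold state
    rw [mulVec_smul, mulVec_sum, Finset.smul_sum, sum_mulVec]
    refine Finset.sum_congr rfl fun k _ => ?_
    simp only [coef]
    rw [smul_mulVec, mulVec_smul, smul_smul, mulVec_mulVec, pow_succ', Matrix.mul_assoc]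

/-- Uniform bound for the truncated transfer function on the disc `‖z‖ ≤ r`. -/
lemma Coll.nsq_output_le (h : Coll T x y w a b c d) {r : ℝ} (hr0 : 0 ≤ r) (hr1 : r < 1) {z : ℂ}
    (hz : ‖z‖ ≤ r) (u : Fin n → ℂ) (N : ℕ) :
    nsq ((∑ k ∈ Finset.range (N + 1), z ^ k • coef a b c d k) *ᵥ u)
      ≤ (1 + r ^ 2 / (1 - r ^ 2) * r ^ (2 * N)) * nsq u := by
  rw [output_eq]
  set V := state a b z u N with hV
  have hc := h.contr u (z • V)
  rw [← state_succ, nsq_smul] at hc
  have hr2 : r ^ 2 < 1 := by nlinarith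
  have hr20 : 0 ≤ r ^ 2 := by positivity
  have hzr : ‖z‖ ^ 2 ≤ r ^ 2 := by gcongr
  have hlow := nsq_add_ge (r ^ 2) hr20 hr2 V (z ^ N • ((a ^ N * b) *ᵥ u))
  rw [← state_succ'] at hlow
  have hδ : nsq (z ^ N • ((a ^ N * b) *ᵥ u)) ≤ r ^ (2 * N) * nsq u := by
    rw [nsq_smul, norm_pow, ← mulVec_mulVec]
    have h1 : nsq ((a ^ N) *ᵥ (b *ᵥ u)) ≤ nsq u := (h.nsq_pow_a N _).trans (h.nsq_b u)
    have h2 : (‖z‖ ^ N) ^ 2 ≤ r ^ (2 * N) := by
      rw [← pow_mul, mul_comm]
      exact pow_le_pow_left₀ (norm_nonneg z) hz (2 * N)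
    exact mul_le_mul h2 h1 (nsq_nonneg _) (by positivity)
  have hVn := nsq_nonneg V
  have hfrac : 0 ≤ r ^ 2 / (1 - r ^ 2) := div_nonneg hr20 (by linarith)
  have h3 : ‖z‖ ^ 2 * nsq V ≤ r ^ 2 * nsq V := by gcongr
  have h4 : r ^ 2 / (1 - r ^ 2) * nsq (z ^ N • ((a ^ N * b) *ᵥ u))
      ≤ r ^ 2 / (1 - r ^ 2) * (r ^ (2 * N) * nsq u) := by gcongr
  nlinarith

/-- Iteration identity. -/
lemma Coll.sum_eq (h : Coll T x y w a b c d) (N : ℕ) :
    ∑ k ∈ Finset.range (N + 1), T ^ k * y * coef a b c d k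
      = x - T ^ (N + 1) * w * a ^ N * b := by
  have hS : ∀ M, ∑ k ∈ Finset.range M, T ^ k * y * (c * a ^ k) = w - T ^ M * w * a ^ M := by
    intro M
    induction M with
    | zero => simp
    | succ M ih =>
      rw [Finset.sum_range_succ, ih]
      have e : y * c = w - T * w * a := eq_sub_of_add_eq' h.eqw
      have : T ^ M * y * (c * a ^ M) = T ^ M * (y * c) * a ^ M := by noncomm_ring
      rw [this, e]
      rw [pow_succ T M, pow_succ' a M]
      noncomm_ring
  rw [Finset.sum_range_succ']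
  have e1 : ∑ k ∈ Finset.range N, T ^ (k + 1) * y * coef a b c d (k + 1)
      = T * (∑ k ∈ Finset.range N, T ^ k * y * (c * a ^ k)) * b := by
    rw [Finset.mul_sum, Finset.sum_mul]
    refine Finset.sum_congr rfl fun k _ => ?_
    simp only [coef]
    rw [pow_succ']
    noncomm_ring
  rw [e1, hS]
  simp only [coef, pow_zero, one_mul]
  have e2 : T * w * b + y * d = x := h.eqx
  rw [← e2, pow_succ' T N]
  noncomm_ring

end Colligation


/-! ### From the colligation to the trace inequality -/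

/-- squared Hilbert–Schmidt norm. -/
noncomputable def fsq (L : Matrix (Fin n) (Fin n) ℂ) : ℝ := (L * Lᴴ).trace.re

lemma continuous_fsq : Continuous (fsq (n := n)) := by
  unfold fsq
  exact Complex.continuous_re.comp
    ((continuous_id.matrix_mul continuous_id.matrix_conjTranspose).matrix_trace)

/-- The matrix polynomial von Neumann inequality for `T` over the disc of radius `r` with
constant `C`, in Hilbert–Schmidt form. -/
def VN (T : Matrix (Fin n) (Fin n) ℂ) (C r : ℝ) : Prop :=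
  ∀ (N : ℕ) (B : ℕ → Matrix (Fin n) (Fin n) ℂ) (M : ℝ),
    (∀ z : ℂ, ‖z‖ ≤ r → ‖Matrix.toEuclideanCLM (n := Fin n) (𝕜 := ℂ)
        (∑ k ∈ Finset.range N, z ^ k • B k)‖ ≤ M) →
    ∀ Ξ : Matrix (Fin n) (Fin n) ℂ,
      fsq (∑ k ∈ Finset.range N, T ^ k * Ξ * B k) ≤ (C * M) ^ 2 * fsq Ξ

lemma clm_norm_le_of_nsq {A : Matrix (Fin n) (Fin n) ℂ} {K : ℝ} (hK : 0 ≤ K)
    (h : ∀ u : Fin n → ℂ, nsq (A *ᵥ u) ≤ K ^ 2 * nsq u) :
    ‖Matrix.toEuclideanCLM (n := Fin n) (𝕜 := ℂ) A‖ ≤ K := by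
  refine ContinuousLinearMap.opNorm_le_bound _ hK fun x => ?_
  have h1 := h (WithLp.ofLp x)
  rw [nsq_eq_norm, nsq_eq_norm] at h1
  have h2 : (Matrix.toEuclideanCLM (n := Fin n) (𝕜 := ℂ) A) x
      = WithLp.toLp 2 (A *ᵥ WithLp.ofLp x) := by
    rw [← Matrix.toEuclideanCLM_toLp]
  rw [h2]
  have h3 : ‖(WithLp.toLp 2 (WithLp.ofLp x) : EuclideanSpace ℂ (Fin n))‖ = ‖x‖ := by simp
  rw [h3] at h1
  have : ‖(WithLp.toLp 2 (A *ᵥ WithLp.ofLp x) : EuclideanSpace ℂ (Fin n))‖ ^ 2 ≤ (K * ‖x‖) ^ 2 := by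
    rw [mul_pow]; exact h1
  exact (pow_le_pow_iff_left₀ (norm_nonneg _) (by positivity) two_ne_zero).1 this

section Limit

open scoped Matrix.Norms.L2Operator

variable {T x y w a b c d : Matrix (Fin n) (Fin n) ℂ}

lemma Coll.tendsto_rem (h : Coll T x y w a b c d) (hT : Tendsto (fun k : ℕ => T ^ k) atTop (𝓝 0)) :
    Tendsto (fun N : ℕ => T ^ (N + 1) * w * a ^ N * b) atTop (𝓝 0) := by
  have hT' : Tendsto (fun N : ℕ => ‖T ^ (N + 1)‖ * ‖w‖ * 1 * ‖b‖) atTop (𝓝 (0 * ‖w‖ * 1 * ‖b‖)) := by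
    have := (tendsto_add_atTop_iff_nat 1).2 hT
    have := (tendsto_zero_iff_norm_tendsto_zero.1 this)
    exact ((this.mul_const _).mul_const _).mul_const _
  simp only [zero_mul] at hT'
  refine squeeze_zero_norm (fun N => ?_) hT'
  have ha : ‖a ^ N‖ ≤ 1 := by
    rw [Matrix.cstar_norm_def]
    refine clm_norm_le_of_nsq zero_le_one fun u => ?_
    rw [one_pow, one_mul]
    exact h.nsq_pow_a N u
  calc ‖T ^ (N + 1) * w * a ^ N * b‖ ≤ ‖T ^ (N + 1) * w * a ^ N‖ * ‖b‖ := norm_mul_le _ _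
    _ ≤ ‖T ^ (N + 1) * w‖ * ‖a ^ N‖ * ‖b‖ := by gcongr; exact norm_mul_le _ _
    _ ≤ ‖T ^ (N + 1)‖ * ‖w‖ * 1 * ‖b‖ := by
        gcongr
        exact norm_mul_le _ _

lemma Coll.fsq_le (h : Coll T x y w a b c d) (hT : Tendsto (fun k : ℕ => T ^ k) atTop (𝓝 0))
    {C r : ℝ} (hr0 : 0 ≤ r) (hr1 : r < 1) (hVN : VN T C r) :
    fsq x ≤ C ^ 2 * fsq y := by
  have hr2 : r ^ 2 < 1 := by nlinarith
  have hfrac : 0 ≤ r ^ 2 / (1 - r ^ 2) := div_nonneg (by positivity) (by linarith)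
  set ρ : ℕ → ℝ := fun N => r ^ 2 / (1 - r ^ 2) * r ^ (2 * N) with hρ
  have hρ0 : ∀ N, 0 ≤ ρ N := fun N => mul_nonneg hfrac (by positivity)
  have key : ∀ N : ℕ, fsq (x - T ^ (N + 1) * w * a ^ N * b) ≤ C ^ 2 * (1 + ρ N) * fsq y := by
    intro N
    rw [← h.sum_eq N]
    have hM : ∀ z : ℂ, ‖z‖ ≤ r → ‖Matrix.toEuclideanCLM (n := Fin n) (𝕜 := ℂ)
        (∑ k ∈ Finset.range (N + 1), z ^ k • coef a b c d k)‖ ≤ Real.sqrt (1 + ρ N) := by
      intro z hz
      refine clm_norm_le_of_nsq (Real.sqrt_nonneg _) fun u => ?_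
      rw [Real.sq_sqrt (by linarith [hρ0 N])]
      exact h.nsq_output_le hr0 hr1 hz u N
    have := hVN (N + 1) (coef a b c d) _ hM y
    rw [mul_pow, Real.sq_sqrt (by linarith [hρ0 N])] at this
    exact this
  have hρlim : Tendsto ρ atTop (𝓝 0) := by
    have : Tendsto (fun N : ℕ => (r ^ 2) ^ N) atTop (𝓝 0) :=
      tendsto_pow_atTop_nhds_zero_of_lt_one (by positivity) hr2
    have h2 := this.const_mul (r ^ 2 / (1 - r ^ 2))
    simp only [mul_zero] at h2
    refine h2.congr fun N => ?_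
    simp [hρ, pow_mul]
  have hL : Tendsto (fun N : ℕ => fsq (x - T ^ (N + 1) * w * a ^ N * b)) atTop (𝓝 (fsq x)) := by
    have := (h.tendsto_rem hT).const_sub x
    rw [sub_zero] at this
    exact continuous_fsq.continuousAt.tendsto.comp this
  have hR : Tendsto (fun N : ℕ => C ^ 2 * (1 + ρ N) * fsq y) atTop (𝓝 (C ^ 2 * fsq y)) := by
    have := ((hρlim.const_add 1).const_mul (C ^ 2)).mul_const (fsq y)
    simpa using this
  exact le_of_tendsto_of_tendsto' hL hR key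

end Limit


/-! ### Jordan decomposition and the box -/

/-- The box `1 ≤ H ≤ c • 1`. -/
def Box (n : ℕ) (c : ℝ) : Set (Matrix (Fin n) (Fin n) ℂ) :=
  {H | (H - 1).PosSemidef ∧ (((c : ℝ) : ℂ) • (1 : Matrix (Fin n) (Fin n) ℂ) - H).PosSemidef}

section Jordan

variable (D : Matrix (Fin n) (Fin n) ℂ)

/-- Jordan decomposition with a trace inequality, from the negativity of `Re tr (H D)` on the box. -/
lemma jordan (hD : D.IsHermitian) {c : ℝ} (hc : 1 ≤ c)
    (hneg : ∀ H ∈ Box n c, (H * D).trace.re < 0) :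
    ∃ X Y : Matrix (Fin n) (Fin n) ℂ, X.PosSemidef ∧ Y.PosSemidef ∧ D = Y - X ∧
      c * Y.trace.re < X.trace.re := by
  classical
  set V : Matrix (Fin n) (Fin n) ℂ := (hD.eigenvectorUnitary : Matrix (Fin n) (Fin n) ℂ) with hV
  have hVV : Vᴴ * V = 1 := by
    have := Unitary.coe_star_mul_self hD.eigenvectorUnitary
    simpa [hV, Matrix.star_eq_conjTranspose] using this
  have hVV' : V * Vᴴ = 1 := by
    have := Unitary.coe_mul_star_self hD.eigenvectorUnitary
    simpa [hV, Matrix.star_eq_conjTranspose] using this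
  let F : (Fin n → ℝ) → Matrix (Fin n) (Fin n) ℂ :=
    fun g => V * diagonal (fun i => ((g i : ℝ) : ℂ)) * Vᴴ
  have hFD : D = F hD.eigenvalues := by
    have := hD.spectral_theorem
    rw [Unitary.conjStarAlgAut_apply] at this
    simpa [F, hV, Matrix.star_eq_conjTranspose, Function.comp_def] using this
  have hFpsd : ∀ g : Fin n → ℝ, (∀ i, 0 ≤ g i) → (F g).PosSemidef := by
    intro g hg
    refine PosSemidef.mul_mul_conjTranspose_same ?_ V
    refine PosSemidef.diagonal ?_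
    intro i
    simpa using hg i
  have hFadd : ∀ g h : Fin n → ℝ, F (g + h) = F g + F h := by
    intro g h
    simp only [F, Pi.add_apply, Complex.ofReal_add]
    rw [← diagonal_add, Matrix.mul_add, Matrix.add_mul]
  have hFone : ∀ k : ℝ, F (fun _ => k) = ((k : ℝ) : ℂ) • 1 := by
    intro k
    simp only [F]
    have : diagonal (fun _ : Fin n => ((k : ℝ) : ℂ)) = ((k : ℝ) : ℂ) • 1 := by
      ext i j; simp [diagonal_apply, Matrix.one_apply]
    rw [this, Matrix.mul_smul, Matrix.smul_mul, Matrix.mul_one, hVV']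
  have hFmul : ∀ g h : Fin n → ℝ, (F g * F h).trace = ∑ i, ((g i * h i : ℝ) : ℂ) := by
    intro g h
    simp only [F]
    have : V * diagonal (fun i => ((g i : ℝ) : ℂ)) * Vᴴ * (V * diagonal (fun i => ((h i : ℝ) : ℂ)) * Vᴴ)
        = V * (diagonal (fun i => ((g i * h i : ℝ) : ℂ))) * Vᴴ := by
      calc _ = V * diagonal (fun i => ((g i : ℝ) : ℂ)) * (Vᴴ * V) *
              diagonal (fun i => ((h i : ℝ) : ℂ)) * Vᴴ := by noncomm_ring
        _ = _ := by
          rw [hVV, Matrix.mul_one, Matrix.mul_assoc V, diagonal_mul_diagonal]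
          simp only [Complex.ofReal_mul]
    rw [this, trace_mul_cycle, hVV, Matrix.one_mul, trace_diagonal]
  have hFtr : ∀ g : Fin n → ℝ, (F g).trace = ∑ i, ((g i : ℝ) : ℂ) := by
    intro g
    simp only [F]
    rw [trace_mul_cycle, hVV, Matrix.one_mul, trace_diagonal]
  set lam := hD.eigenvalues with hlam
  let pos : Fin n → ℝ := fun i => max (lam i) 0
  let neg : Fin n → ℝ := fun i => max (- lam i) 0
  let h : Fin n → ℝ := fun i => if 0 < lam i then c else 1
  have hh1 : ∀ i, 1 ≤ h i := fun i => by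
    simp only [h]; split_ifs <;> linarith
  have hhc : ∀ i, h i ≤ c := fun i => by
    simp only [h]; split_ifs <;> linarith
  have hbox : F h ∈ Box n c := by
    constructor
    · have : F h - 1 = F (fun i => h i - 1) := by
        have e := hFadd (fun i => h i - 1) (fun _ => 1)
        have e2 : (fun i => h i - 1) + (fun _ => (1 : ℝ)) = h := by
          ext i; simp
        rw [e2] at e
        rw [e, hFone 1]; simp
      rw [this]
      exact hFpsd _ fun i => by linarith [hh1 i]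
    · have : ((c : ℝ) : ℂ) • (1 : Matrix (Fin n) (Fin n) ℂ) - F h = F (fun i => c - h i) := by
        have e := hFadd (fun i => c - h i) h
        have e2 : (fun i => c - h i) + h = fun _ => c := by
          ext i; simp
        rw [e2, hFone c] at e
        rw [e]; simp
      rw [this]
      exact hFpsd _ fun i => by linarith [hhc i]
  have hneg' := hneg _ hbox
  rw [hFD, hFmul, Complex.re_sum] at hneg'
  simp only [Complex.ofReal_re] at hneg'
  refine ⟨F neg, F pos, hFpsd _ fun i => le_max_right _ _, hFpsd _ fun i => le_max_right _ _, ?_, ?_⟩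
  · have e := hFadd pos (fun i => - neg i)
    have e1 : pos + (fun i => - neg i) = lam := by
      ext i
      simp only [pos, neg, Pi.add_apply]
      rcases le_total (lam i) 0 with hi | hi
      · rw [max_eq_right hi, max_eq_left (by linarith)]; ring
      · rw [max_eq_left hi, max_eq_right (by linarith)]; ring
    rw [e1] at e
    rw [hFD, e]
    have e2 : F (fun i => - neg i) = - F neg := by
      simp only [F, Complex.ofReal_neg]
      rw [← diagonal_neg, Matrix.mul_neg, Matrix.neg_mul]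
    rw [e2]; abel
  · rw [hFtr, hFtr, Complex.re_sum, Complex.re_sum, Finset.mul_sum]
    simp only [Complex.ofReal_re]
    have : ∑ i, c * pos i - ∑ i, neg i = ∑ i, h i * lam i := by
      rw [← Finset.sum_sub_distrib]
      refine Finset.sum_congr rfl fun i _ => ?_
      simp only [pos, neg, h]
      split_ifs with hi
      · rw [max_eq_left hi.le, max_eq_right (by linarith)]; ring
      · rw [not_lt] at hi
        rw [max_eq_right hi, max_eq_left (by linarith)]; ring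
    linarith

end Jordan


/-! ### Separation -/

section Separation

open scoped Matrix.Norms.L2Operator

lemma isClosed_posSemidef : IsClosed {M : Matrix (Fin n) (Fin n) ℂ | M.PosSemidef} := by
  have : {M : Matrix (Fin n) (Fin n) ℂ | M.PosSemidef}
      = {M | Mᴴ = M} ∩ ⋂ v : Fin n → ℂ, {M | 0 ≤ (star v ⬝ᵥ (M *ᵥ v)).re ∧ (star v ⬝ᵥ (M *ᵥ v)).im = 0} := by
    ext M
    simp only [Set.mem_setOf_eq, Set.mem_inter_iff, Set.mem_iInter, posSemidef_iff_dotProduct_mulVec,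
      IsHermitian, Complex.le_def, Complex.zero_re, Complex.zero_im]
    constructor
    · rintro ⟨h1, h2⟩
      exact ⟨h1, fun v => ⟨(h2 v).1, (h2 v).2.symm⟩⟩
    · rintro ⟨h1, h2⟩
      exact ⟨h1, fun v => ⟨(h2 v).1, (h2 v).2.symm⟩⟩
  rw [this]
  refine IsClosed.inter (isClosed_eq continuous_id.matrix_conjTranspose continuous_id) ?_
  refine isClosed_iInter fun v => ?_
  have hc : Continuous fun M : Matrix (Fin n) (Fin n) ℂ => star v ⬝ᵥ (M *ᵥ v) := by
    exact continuous_const.dotProduct (continuous_id.matrix_mulVec continuous_const)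
  exact (isClosed_le continuous_const (Complex.continuous_re.comp hc)).inter
    (isClosed_eq (Complex.continuous_im.comp hc) continuous_const)

lemma exists_factor {H : Matrix (Fin n) (Fin n) ℂ} (hH : H.PosSemidef) :
    ∃ R : Matrix (Fin n) (Fin n) ℂ, H = R * Rᴴ := by
  classical
  set V : Matrix (Fin n) (Fin n) ℂ := (hH.1.eigenvectorUnitary : Matrix (Fin n) (Fin n) ℂ) with hV
  refine ⟨V * diagonal (fun i => ((Real.sqrt (hH.1.eigenvalues i) : ℝ) : ℂ)), ?_⟩
  have h1 := hH.1.spectral_theorem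
  rw [Unitary.conjStarAlgAut_apply] at h1
  have h2 : (V * diagonal (fun i => ((Real.sqrt (hH.1.eigenvalues i) : ℝ) : ℂ))) *
      (V * diagonal (fun i => ((Real.sqrt (hH.1.eigenvalues i) : ℝ) : ℂ)))ᴴ
      = V * diagonal (fun i => ((hH.1.eigenvalues i : ℝ) : ℂ)) * Vᴴ := by
    rw [conjTranspose_mul, diagonal_conjTranspose]
    have : star (fun i => ((Real.sqrt (hH.1.eigenvalues i) : ℝ) : ℂ))
        = fun i => ((Real.sqrt (hH.1.eigenvalues i) : ℝ) : ℂ) := by
      ext i; simp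
    rw [this]
    calc _ = V * (diagonal (fun i => ((Real.sqrt (hH.1.eigenvalues i) : ℝ) : ℂ)) *
        diagonal (fun i => ((Real.sqrt (hH.1.eigenvalues i) : ℝ) : ℂ))) * Vᴴ := by noncomm_ring
      _ = _ := by
        rw [diagonal_mul_diagonal]
        congr 3
        ext i
        rw [← Complex.ofReal_mul, Real.mul_self_sqrt (hH.eigenvalues_nonneg i)]
  rw [h2]
  conv_lhs => rw [h1]
  simp [hV, Matrix.star_eq_conjTranspose, Function.comp_def]

lemma re_dot_sub (c : ℝ) (H : Matrix (Fin n) (Fin n) ℂ) (u : Fin n → ℂ) :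
    (star u ⬝ᵥ ((((c : ℝ) : ℂ) • (1 : Matrix (Fin n) (Fin n) ℂ) - H) *ᵥ u)).re
      = c * nsq u - (star u ⬝ᵥ (H *ᵥ u)).re := by
  rw [sub_mulVec, dotProduct_sub, smul_mulVec, one_mulVec, dotProduct_smul, Complex.sub_re]
  simp [nsq]

lemma norm_le_of_posSemidef {H : Matrix (Fin n) (Fin n) ℂ} (hH : H.PosSemidef) {c : ℝ}
    (hc : (((c : ℝ) : ℂ) • (1 : Matrix (Fin n) (Fin n) ℂ) - H).PosSemidef) (hc0 : 0 ≤ c) :
    ‖H‖ ≤ c := by
  obtain ⟨R, rfl⟩ := exists_factor hH
  have hb : ‖Rᴴ‖ ≤ Real.sqrt c := by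
    rw [Matrix.cstar_norm_def]
    refine clm_norm_le_of_nsq (Real.sqrt_nonneg _) fun u => ?_
    rw [Real.sq_sqrt hc0, nsq_conjTranspose_mulVec]
    have := hc.re_dotProduct_nonneg u
    have h2 : RCLike.re (star u ⬝ᵥ ((((c : ℝ) : ℂ) • (1 : Matrix (Fin n) (Fin n) ℂ) - R * Rᴴ) *ᵥ u))
      = c * nsq u - (star u ⬝ᵥ ((R * Rᴴ) *ᵥ u)).re := re_dot_sub c _ u
    rw [h2] at this
    linarith
  have h1 : ‖R‖ = ‖Rᴴ‖ := (Matrix.l2_opNorm_conjTranspose R).symm
  calc ‖R * Rᴴ‖ ≤ ‖R‖ * ‖Rᴴ‖ := norm_mul_le _ _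
    _ ≤ Real.sqrt c * Real.sqrt c := by rw [h1]; gcongr
    _ = c := Real.mul_self_sqrt hc0

lemma isCompact_box {c : ℝ} (hc0 : 0 ≤ c) : IsCompact (Box n c) := by
  have hcl : IsClosed (Box n c) := by
    have h1 : IsClosed {H : Matrix (Fin n) (Fin n) ℂ | (H - 1).PosSemidef} :=
      isClosed_posSemidef.preimage (continuous_id.sub continuous_const)
    have h2 : IsClosed {H : Matrix (Fin n) (Fin n) ℂ |
        (((c : ℝ) : ℂ) • (1 : Matrix (Fin n) (Fin n) ℂ) - H).PosSemidef} :=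
      isClosed_posSemidef.preimage (continuous_const.sub continuous_id)
    exact h1.inter h2
  have hbd : Bornology.IsBounded (Box n c) := by
    refine (Metric.isBounded_iff_subset_closedBall 0).2 ⟨c, fun H hH => ?_⟩
    rw [mem_closedBall_zero_iff]
    have hH0 : H.PosSemidef := by
      have := hH.1.add PosSemidef.one
      simpa using this
    exact norm_le_of_posSemidef hH0 hH.2 hc0
  haveI : ProperSpace (Matrix (Fin n) (Fin n) ℂ) := FiniteDimensional.proper ℂ _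
  exact Metric.isCompact_of_isClosed_isBounded hcl hbd

/-- Representation of a real-linear functional on Hermitian matrices by a Hermitian matrix. -/
lemma exists_rep (f : Matrix (Fin n) (Fin n) ℂ → ℝ)
    (hadd : ∀ A B, f (A + B) = f A + f B)
    (hsmul : ∀ (r : ℝ) (A : Matrix (Fin n) (Fin n) ℂ), f (((r : ℝ) : ℂ) • A) = r * f A)
    (h0 : f 0 = 0) :
    ∃ Z : Matrix (Fin n) (Fin n) ℂ, Z.IsHermitian ∧
      ∀ M : Matrix (Fin n) (Fin n) ℂ, M.IsHermitian → f M = (M * Z).trace.re := by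
  classical
  have hsum : ∀ (ι : Type) (s : Finset ι) (g : ι → Matrix (Fin n) (Fin n) ℂ),
      f (∑ i ∈ s, g i) = ∑ i ∈ s, f (g i) := by
    intro ι s g
    induction s using Finset.induction_on with
    | empty => simpa using h0
    | insert a s ha ih => rw [Finset.sum_insert ha, Finset.sum_insert ha, hadd, ih]
  let Z0 : Matrix (Fin n) (Fin n) ℂ := Matrix.of fun j i =>
    ((f (Matrix.single i j 1) : ℝ) : ℂ) - Complex.I * ((f (Matrix.single i j Complex.I) : ℝ) : ℂ)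
  have hZ0 : ∀ M, f M = (M * Z0).trace.re := by
    intro M
    conv_lhs => rw [Matrix.matrix_eq_sum_single M]
    rw [hsum, Matrix.trace, Complex.re_sum]
    refine Finset.sum_congr rfl fun i _ => ?_
    rw [hsum, Matrix.diag_apply, Matrix.mul_apply, Complex.re_sum]
    refine Finset.sum_congr rfl fun j _ => ?_
    have e : Matrix.single i j (M i j)
        = (((M i j).re : ℝ) : ℂ) • Matrix.single i j 1
          + (((M i j).im : ℝ) : ℂ) • Matrix.single i j Complex.I := by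
      rw [Matrix.smul_single, Matrix.smul_single, ← Matrix.single_add]
      congr 1
      simp only [smul_eq_mul, mul_one]
      exact (Complex.re_add_im _).symm
    rw [e, hadd, hsmul, hsmul]
    simp [Z0, Complex.mul_re, Complex.mul_im]
  refine ⟨((1 / 2 : ℝ) : ℂ) • (Z0 + Z0ᴴ), ?_, ?_⟩
  · unfold IsHermitian
    rw [conjTranspose_smul, conjTranspose_add, conjTranspose_conjTranspose, add_comm]
    simp
  · intro M hM
    rw [Matrix.mul_smul, Matrix.mul_add, trace_smul, trace_add]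
    have e : (M * Z0ᴴ).trace.re = (M * Z0).trace.re := by
      have h1 : (M * Z0ᴴ) = (Z0 * M)ᴴ := by rw [conjTranspose_mul, hM]
      rw [h1, trace_conjTranspose, trace_mul_comm]
      simp
    rw [smul_eq_mul, Complex.re_ofReal_mul, Complex.add_re, e, ← hZ0]
    ring

/-- `Re tr (x x* Z) = Re ⟨x, Z x⟩`. -/
lemma trace_vecMulVec_mul (x : Fin n → ℂ) (Z : Matrix (Fin n) (Fin n) ℂ) :
    (vecMulVec x (star x) * Z).trace = star x ⬝ᵥ (Z *ᵥ x) := by
  simp only [Matrix.trace, Matrix.diag_apply, Matrix.mul_apply, vecMulVec_apply, dotProduct,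
    mulVec, Pi.star_apply, Finset.mul_sum]
  rw [Finset.sum_comm]
  refine Finset.sum_congr rfl fun i _ => Finset.sum_congr rfl fun j _ => ?_
  ring

/-- **Finite-dimensional Paulsen theorem.** -/
theorem exists_metric (T : Matrix (Fin n) (Fin n) ℂ)
    (hT : Tendsto (fun k : ℕ => T ^ k) atTop (𝓝 0)) {C r : ℝ} (hC : 1 ≤ C) (hr0 : 0 ≤ r)
    (hr1 : r < 1) (hVN : VN T C r) :
    ∃ H : Matrix (Fin n) (Fin n) ℂ, H ∈ Box n (C ^ 2) ∧ (H - Tᴴ * H * T).PosSemidef := by
  classical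
  by_contra hne
  push Not at hne
  have hC2 : (1 : ℝ) ≤ C ^ 2 := by nlinarith
  let Λ : Matrix (Fin n) (Fin n) ℂ → Matrix (Fin n) (Fin n) ℂ := fun H => H - Tᴴ * H * T
  have hΛcont : Continuous Λ :=
    continuous_id.sub ((continuous_const.matrix_mul continuous_id).matrix_mul continuous_const)
  have hs2 : IsCompact (Λ '' Box n (C ^ 2)) := (isCompact_box (by positivity)).image hΛcont
  have hs1 : Convex ℝ (Λ '' Box n (C ^ 2)) := by
    rintro _ ⟨H₁, h₁, rfl⟩ _ ⟨H₂, h₂, rfl⟩ a b ha hb hab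
    refine ⟨a • H₁ + b • H₂, ⟨?_, ?_⟩, ?_⟩
    · have e : a • H₁ + b • H₂ - 1 = a • (H₁ - 1) + b • (H₂ - 1) := by
        rw [smul_sub, smul_sub]
        have : (1 : Matrix (Fin n) (Fin n) ℂ) = (a + b) • (1 : Matrix (Fin n) (Fin n) ℂ) := by
          rw [hab, one_smul]
        conv_lhs => rw [this, add_smul]
        abel
      rw [e]
      exact (h₁.1.smul ha).add (h₂.1.smul hb)
    · have e : ((C ^ 2 : ℝ) : ℂ) • (1 : Matrix (Fin n) (Fin n) ℂ) - (a • H₁ + b • H₂)
          = a • (((C ^ 2 : ℝ) : ℂ) • (1 : Matrix (Fin n) (Fin n) ℂ) - H₁)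
            + b • (((C ^ 2 : ℝ) : ℂ) • (1 : Matrix (Fin n) (Fin n) ℂ) - H₂) := by
        rw [smul_sub, smul_sub]
        have : ((C ^ 2 : ℝ) : ℂ) • (1 : Matrix (Fin n) (Fin n) ℂ)
            = (a + b) • (((C ^ 2 : ℝ) : ℂ) • (1 : Matrix (Fin n) (Fin n) ℂ)) := by
          rw [hab, one_smul]
        conv_lhs => rw [this, add_smul]
        abel
      rw [e]
      exact (h₁.2.smul ha).add (h₂.2.smul hb)
    · simp only [Λ]
      rw [Matrix.mul_add, Matrix.add_mul, Matrix.mul_smul, Matrix.mul_smul, Matrix.smul_mul,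
        Matrix.smul_mul, smul_sub, smul_sub]
      abel
  have ht1 : Convex ℝ {M : Matrix (Fin n) (Fin n) ℂ | M.PosSemidef} := by
    intro P hP Q hQ a b ha hb _
    exact (PosSemidef.smul hP ha).add (PosSemidef.smul hQ hb)
  have hdisj : Disjoint (Λ '' Box n (C ^ 2)) {M : Matrix (Fin n) (Fin n) ℂ | M.PosSemidef} := by
    rw [Set.disjoint_left]
    rintro _ ⟨H, hH, rfl⟩ hP
    exact hne H hH hP
  obtain ⟨f, u, v, hfu, huv, hfv⟩ := geometric_hahn_banach_compact_closed hs1 hs2 ht1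
    isClosed_posSemidef hdisj
  have hf0 : f 0 = 0 := map_zero f
  have hv0 : v < 0 := by
    have := hfv 0 PosSemidef.zero
    rwa [hf0] at this
  have hfsmul : ∀ (r : ℝ) (A : Matrix (Fin n) (Fin n) ℂ), f (((r : ℝ) : ℂ) • A) = r * f A := by
    intro r A
    have : ((r : ℝ) : ℂ) • A = r • A := Complex.coe_smul r A
    rw [this, map_smul, smul_eq_mul]
  obtain ⟨Z, hZ, hfZ⟩ := exists_rep (fun M => f M) (map_add f) hfsmul hf0
  -- `Z` is positive semidefinite
  have hZpsd : Z.PosSemidef := by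
    refine PosSemidef.of_dotProduct_mulVec_nonneg hZ fun x => ?_
    have hP : (vecMulVec x (star x)).PosSemidef := posSemidef_vecMulVec_self_star x
    have hPH : (vecMulVec x (star x)).IsHermitian := hP.1
    have h1 := hfZ _ hPH
    rw [trace_vecMulVec_mul] at h1
    have h2 : 0 ≤ f (vecMulVec x (star x)) := by
      by_contra hneg
      push Not at hneg
      have ht : 0 ≤ v / f (vecMulVec x (star x)) := div_nonneg_of_nonpos hv0.le hneg.le
      have := hfv (((v / f (vecMulVec x (star x)) : ℝ) : ℂ) • vecMulVec x (star x)) (by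
        refine hP.smul ?_
        exact_mod_cast ht)
      rw [hfsmul, div_mul_cancel₀ _ hneg.ne] at this
      exact lt_irrefl _ this
    have him : (star x ⬝ᵥ (Z *ᵥ x)).im = 0 := hZ.im_star_dotProduct_mulVec_self x
    rw [Complex.le_def]
    refine ⟨?_, him.symm⟩
    simpa [← h1] using h2
  -- the Hermitian `D`
  set D : Matrix (Fin n) (Fin n) ℂ := Z - T * Z * Tᴴ with hDdef
  have hDH : D.IsHermitian := by
    unfold IsHermitian
    rw [hDdef, conjTranspose_sub, hZ.eq, conjTranspose_mul, conjTranspose_mul, hZ.eq,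
      conjTranspose_conjTranspose, Matrix.mul_assoc]
  have hDneg : ∀ H ∈ Box n (C ^ 2), (H * D).trace.re < 0 := by
    intro H hH
    have hHH : H.IsHermitian := by
      have := hH.1.1
      unfold IsHermitian at this ⊢
      rw [conjTranspose_sub, conjTranspose_one] at this
      exact sub_left_injective this
    have hΛH : (Λ H).IsHermitian := by
      unfold IsHermitian
      simp only [Λ]
      rw [conjTranspose_sub, hHH.eq, conjTranspose_mul, conjTranspose_mul, hHH.eq,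
        conjTranspose_conjTranspose, Matrix.mul_assoc]
    have h1 := hfZ _ hΛH
    have h2 := hfu _ ⟨H, hH, rfl⟩
    have h3 : (H * D).trace = (Λ H * Z).trace := by
      simp only [Λ, hDdef]
      rw [Matrix.mul_sub, Matrix.sub_mul, trace_sub, trace_sub]
      congr 1
      rw [show H * (T * Z * Tᴴ) = (H * T * Z) * Tᴴ by noncomm_ring, trace_mul_comm,
        show Tᴴ * (H * T * Z) = Tᴴ * H * T * Z by noncomm_ring]
    rw [h3, ← h1]
    linarith
  obtain ⟨X, Y, hX, hY, hDXY, htr⟩ := jordan D hDH hC2 hDneg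
  -- perturbation
  set c : ℝ := C ^ 2 with hc
  set δ : ℝ := X.trace.re - c * Y.trace.re with hδ
  have hδ0 : 0 < δ := by rw [hδ]; linarith
  set ε : ℝ := δ / (2 * ((n : ℝ) * c + 1)) with hε
  have hden : 0 < 2 * ((n : ℝ) * c + 1) := by positivity
  have hε0 : 0 < ε := div_pos hδ0 hden
  have hεn : ε * ((n : ℝ) * c) ≤ δ / 2 := by
    rw [hε, div_mul_eq_mul_div, div_le_iff₀ hden]
    nlinarith [mul_nonneg hδ0.le (show (0 : ℝ) ≤ (n : ℝ) * c by positivity)]
  let Xε : Matrix (Fin n) (Fin n) ℂ := X + ((ε : ℝ) : ℂ) • 1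
  let Yε : Matrix (Fin n) (Fin n) ℂ := Y + ((ε : ℝ) : ℂ) • 1
  have hεc : (0 : ℂ) < ((ε : ℝ) : ℂ) := by exact_mod_cast hε0
  have hXε : Xε.PosSemidef := hX.add (PosSemidef.smul PosSemidef.one hεc.le)
  have hYε : Yε.PosDef := (PosDef.smul PosDef.one hεc).posSemidef_add hY
  obtain ⟨x, hx⟩ := exists_factor hXε
  obtain ⟨y, hy⟩ := exists_factor hYε.posSemidef
  obtain ⟨w, hw⟩ := exists_factor hZpsd
  set P : Matrix (Fin n) (Fin n) ℂ := (T * w) * (T * w)ᴴ + y * yᴴ with hP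
  have hP1 : P = T * Z * Tᴴ + Yε := by
    rw [hP, ← hy, hw, conjTranspose_mul]; noncomm_ring
  have hP2 : P = x * xᴴ + w * wᴴ := by
    rw [← hx, ← hw, hP1]
    have : Z - T * Z * Tᴴ = Y - X := by rw [← hDXY]
    simp only [Xε, Yε]
    have e : T * Z * Tᴴ = Z - (Y - X) := by rw [← this]; abel
    rw [e]; abel
  have hPd : P.PosDef := by
    rw [hP1]
    exact hYε.posSemidef_add (hZpsd.mul_mul_conjTranspose_same T)
  have hPunit := hPd.isUnit
  have hPi : P * P⁻¹ = 1 := Matrix.mul_nonsing_inv P ((Matrix.isUnit_iff_isUnit_det P).1 hPunit)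
  have hcoll := coll_of_inv (T := T) (x := x) (y := y) (w := w) (P := P) (Pi := P⁻¹) hP hP2 hPi
  have hfinal := hcoll.fsq_le hT hr0 hr1 hVN
  unfold fsq at hfinal
  rw [← hx, ← hy] at hfinal
  simp only [Xε, Yε, trace_add, trace_smul, trace_one, Complex.add_re, smul_eq_mul,
    Fintype.card_fin] at hfinal
  simp only [Complex.re_ofReal_mul, Complex.natCast_re] at hfinal
  have h5 : X.trace.re = δ + c * Y.trace.re := by rw [hδ]; ring
  rw [h5] at hfinal
  have h6 : 0 ≤ ε * (n : ℝ) := by positivity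
  nlinarith

end Separation

end Crest.Agent.Lib.Crouzeix.Paulsen
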