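import Mathlib

/-!
# Riemann mapping theorem for bounded star-shaped domains

Koebe's extremal proof, self-contained: Montel via equi-Lipschitz bounds and an ultrafilter limit,
Hurwitz via the maximum modulus principle, Koebe's square root trick.
-/

set_option autoImplicit false

open Complex Metric Set Filter Topology

namespace Crest.Agent.Lib.Crouzeix

/-- Admissible maps for the extremal problem. -/
structure Adm (Y : Set ℂ) (φ : ℂ → ℂ) : Prop where
  diff : DifferentiableOn ℂ φ Y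
  inj : InjOn φ Y
  maps : MapsTo φ Y (ball (0 : ℂ) 1)
  zero : φ 0 = 0

/-- Hurwitz step: a holomorphic function which is small at the center and large on the circle hits
the value inside the disc. -/
lemma hit_of_small {g : ℂ → ℂ} {a w : ℂ} {r m : ℝ} (hr : 0 < r)
    (hg : DifferentiableOn ℂ g (closedBall a r)) (hS : ∀ z ∈ sphere a r, m ≤ ‖g z - w‖)
    (ha : ‖g a - w‖ < m) : ∃ z ∈ ball a r, g z = w := by
  by_contra hno
  push Not at hno
  have hm : 0 < m := lt_of_le_of_lt (norm_nonneg _) ha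
  have hne : ∀ z ∈ closedBall a r, g z - w ≠ 0 := by
    intro z hz h0
    rcases (mem_closedBall.mp hz).lt_or_eq with h | h
    · exact hno z (mem_ball.mpr h) (sub_eq_zero.mp h0)
    · have := hS z (mem_sphere.mpr h)
      rw [h0, norm_zero] at this
      linarith
  have hd : DiffContOnCl ℂ (fun z => (g z - w)⁻¹) (ball a r) := by
    have h1 : DifferentiableOn ℂ (fun z => (g z - w)⁻¹) (closedBall a r) :=
      (hg.sub_const w).inv hne
    have : DiffContOnCl ℂ (fun z => (g z - w)⁻¹) (ball a r) := by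
      refine ⟨h1.mono ball_subset_closedBall, ?_⟩
      rw [closure_ball a hr.ne']
      exact h1.continuousOn
    exact this
  have hb := Complex.norm_le_of_forall_mem_frontier_norm_le (U := ball a r) (C := m⁻¹)
    isBounded_ball hd (by
      intro z hz
      rw [frontier_ball a hr.ne'] at hz
      rw [norm_inv]
      have := hS z hz
      exact inv_anti₀ hm this) (subset_closure (mem_ball_self hr))
  rw [norm_inv] at hb
  have hpos : 0 < ‖g a - w‖ := norm_pos_iff.mpr (hne a (mem_closedBall_self hr.le))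
  have := (inv_le_inv₀ hpos hm).mp hb
  linarith

/-- Isolated values: around a point where `φ` takes the value `w`, a small circle on which
`φ - w` is bounded below, if `φ` is not locally constant. -/
lemma exists_circle_bound {Y : Set ℂ} (hYo : IsOpen Y) {φ : ℂ → ℂ} (hφ : DifferentiableOn ℂ φ Y)
    {a w : ℂ} (haY : a ∈ Y) (hw : φ a = w) (hnc : ¬ ∀ᶠ z in 𝓝 a, φ z = w) {δ : ℝ} (hδ : 0 < δ) :
    ∃ r m : ℝ, 0 < r ∧ r < δ ∧ 0 < m ∧ closedBall a r ⊆ Y ∧ ∀ z ∈ sphere a r, m ≤ ‖φ z - w‖ := by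
  have han : AnalyticAt ℂ φ a := hφ.analyticAt (hYo.mem_nhds haY)
  have hiso : ∀ᶠ z in 𝓝[≠] a, φ z - w ≠ 0 := by
    have := (han.sub (analyticAt_const : AnalyticAt ℂ (fun _ => w) a)).eventually_eq_zero_or_eventually_ne_zero
    rcases this with h | h
    · exact absurd (by filter_upwards [h] with z hz using sub_eq_zero.mp hz) hnc
    · exact h
  obtain ⟨ρ, hρ, hρY⟩ := Metric.nhds_basis_closedBall.mem_iff.mp (hYo.mem_nhds haY)
  obtain ⟨ρ', hρ', hρ'ne⟩ := Metric.mem_nhdsWithin_iff.mp hiso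
  set r := min (min ρ (ρ' / 2)) (δ / 2) with hr
  have hr0 : 0 < r := by positivity
  have hrρ : r ≤ ρ := (min_le_left _ _).trans (min_le_left _ _)
  have hrρ' : r ≤ ρ' / 2 := (min_le_left _ _).trans (min_le_right _ _)
  have hrδ : r ≤ δ / 2 := min_le_right _ _
  have hball : closedBall a r ⊆ Y := (closedBall_subset_closedBall hrρ).trans hρY
  have hcont : ContinuousOn (fun z => ‖φ z - w‖) (sphere a r) :=
    ((hφ.continuousOn.mono (sphere_subset_closedBall.trans hball)).sub continuousOn_const).norm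
  have hne : (sphere a r).Nonempty := NormedSpace.sphere_nonempty.mpr hr0.le
  obtain ⟨z0, hz0, hmin⟩ := (isCompact_sphere a r).exists_isMinOn hne hcont
  refine ⟨r, ‖φ z0 - w‖, hr0, by linarith, ?_, hball, fun z hz => hmin hz⟩
  refine norm_pos_iff.mpr (hρ'ne ⟨?_, ?_⟩)
  · rw [mem_ball]
    have : dist z0 a = r := mem_sphere.mp hz0
    linarith
  · have : dist z0 a = r := mem_sphere.mp hz0
    intro h
    rw [mem_singleton_iff] at h
    rw [h, dist_self] at this
    linarith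

/-- Hurwitz: a locally uniform limit of injective holomorphic functions which is not locally
constant anywhere is injective. -/
lemma injOn_of_tendsto {ι : Type*} {l : Filter ι} [l.NeBot] {Y : Set ℂ} (hYo : IsOpen Y)
    {F : ι → ℂ → ℂ} {φ : ℂ → ℂ} (hF : ∀ i, DifferentiableOn ℂ (F i) Y) (hFi : ∀ i, InjOn (F i) Y)
    (hlim : TendstoLocallyUniformlyOn F φ l Y) (hφ : DifferentiableOn ℂ φ Y)
    (hnc : ∀ a ∈ Y, ¬ ∀ᶠ z in 𝓝 a, φ z = φ a) : InjOn φ Y := by
  intro a ha b hb hab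
  by_contra hne
  have hδ : 0 < dist a b / 2 := by
    have := dist_pos.mpr hne
    linarith
  obtain ⟨r, m, hr, hrδ, hm, hrY, hS⟩ := exists_circle_bound hYo hφ ha rfl (hnc a ha) hδ
  obtain ⟨r', m', hr', hrδ', hm', hrY', hS'⟩ := exists_circle_bound hYo hφ hb hab.symm
    (by rw [hab]; exact hnc b hb) hδ
  have hU := (tendstoLocallyUniformlyOn_iff_forall_isCompact hYo).mp hlim
  have h1 := (Metric.tendstoUniformlyOn_iff.mp (hU _ hrY (isCompact_closedBall a r))) (m / 2)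
    (by positivity)
  have h2 := (Metric.tendstoUniformlyOn_iff.mp (hU _ hrY' (isCompact_closedBall b r'))) (m' / 2)
    (by positivity)
  obtain ⟨i, hi1, hi2⟩ := (h1.and h2).exists
  have key : ∀ (c : ℂ) (s M : ℝ), 0 < s → closedBall c s ⊆ Y → φ c = φ a →
      (∀ z ∈ sphere c s, M ≤ ‖φ z - φ a‖) →
      (∀ z ∈ closedBall c s, dist (φ z) (F i z) < M / 2) →
      ∃ z ∈ ball c s, F i z = φ a := by
    intro c s M hs hsY hc hSM hclose
    refine hit_of_small hs ((hF i).mono hsY) (m := M / 2) ?_ ?_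
    · intro z hz
      have h3 := hSM z hz
      have h4 := hclose z (sphere_subset_closedBall hz)
      rw [dist_eq_norm] at h4
      have h5 : ‖φ z - φ a‖ ≤ ‖F i z - φ a‖ + ‖φ z - F i z‖ := by
        have : φ z - φ a = (F i z - φ a) + (φ z - F i z) := by ring
        rw [this]
        exact norm_add_le _ _
      linarith
    · have h4 := hclose c (mem_closedBall_self hs.le)
      rw [dist_eq_norm, hc] at h4
      rw [norm_sub_rev]
      exact h4
  obtain ⟨z, hz, hFz⟩ := key a r m hr hrY rfl hS hi1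
  obtain ⟨z', hz', hFz'⟩ := key b r' m' hr' hrY' hab.symm hS' hi2
  have hzz : z = z' := hFi i (hrY (ball_subset_closedBall hz)) (hrY' (ball_subset_closedBall hz'))
    (hFz.trans hFz'.symm)
  subst hzz
  have hd1 := mem_ball.mp hz
  have hd2 := mem_ball.mp hz'
  have : dist a b ≤ dist a z + dist z b := dist_triangle _ _ _
  rw [dist_comm a z] at this
  linarith


/-- Möbius map of the disc. -/
noncomputable def mob (c w : ℂ) : ℂ := (w - c) / (1 - (starRingEnd ℂ) c * w)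

lemma mob_den_ne {c w : ℂ} (hc : ‖c‖ < 1) (hw : ‖w‖ < 1) : 1 - (starRingEnd ℂ) c * w ≠ 0 := by
  intro h
  have h1 : (starRingEnd ℂ) c * w = 1 := (sub_eq_zero.mp h).symm
  have h2 : ‖(starRingEnd ℂ) c * w‖ = 1 := by rw [h1]; simp
  rw [norm_mul, RCLike.norm_conj] at h2
  have h3 : ‖c‖ * ‖w‖ < 1 := by
    have := norm_nonneg c
    have := norm_nonneg w
    nlinarith
  linarith

lemma mob_norm_lt {c w : ℂ} (hc : ‖c‖ < 1) (hw : ‖w‖ < 1) : ‖mob c w‖ < 1 := by
  have hden := mob_den_ne hc hw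
  unfold mob
  rw [norm_div, div_lt_one (norm_pos_iff.mpr hden)]
  have key : ‖1 - (starRingEnd ℂ) c * w‖ ^ 2 - ‖w - c‖ ^ 2 = (1 - ‖c‖ ^ 2) * (1 - ‖w‖ ^ 2) := by
    rw [← Complex.ofReal_inj]
    push_cast
    rw [← Complex.conj_mul', ← Complex.conj_mul', ← Complex.conj_mul', ← Complex.conj_mul']
    simp only [map_sub, map_mul, map_one, Complex.conj_conj]
    ring
  have hpos : 0 < (1 - ‖c‖ ^ 2) * (1 - ‖w‖ ^ 2) := by
    have := norm_nonneg c
    have := norm_nonneg w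
    apply mul_pos <;> nlinarith
  have : ‖w - c‖ ^ 2 < ‖1 - (starRingEnd ℂ) c * w‖ ^ 2 := by linarith
  exact lt_of_pow_lt_pow_left₀ 2 (norm_nonneg _) this

lemma mob_inj {c w w' : ℂ} (hc : ‖c‖ < 1) (hw : ‖w‖ < 1) (hw' : ‖w'‖ < 1)
    (h : mob c w = mob c w') : w = w' := by
  unfold mob at h
  rw [div_eq_div_iff (mob_den_ne hc hw) (mob_den_ne hc hw')] at h
  have h1 : (w - w') * (1 - (starRingEnd ℂ) c * c) = 0 := by linear_combination h
  have h2 : (1 : ℂ) - (starRingEnd ℂ) c * c ≠ 0 := mob_den_ne hc hc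
  rcases mul_eq_zero.mp h1 with h3 | h3
  · exact sub_eq_zero.mp h3
  · exact absurd h3 h2

lemma mob_hasDerivAt {c w : ℂ} (hc : ‖c‖ < 1) (hw : ‖w‖ < 1) :
    HasDerivAt (mob c) ((1 - (starRingEnd ℂ) c * c) / (1 - (starRingEnd ℂ) c * w) ^ 2) w := by
  have hden := mob_den_ne hc hw
  have h1 : HasDerivAt (fun w : ℂ => w - c) 1 w := (hasDerivAt_id w).sub_const c
  have h2 : HasDerivAt (fun w : ℂ => 1 - (starRingEnd ℂ) c * w) (-(starRingEnd ℂ) c) w := by
    have := ((hasDerivAt_id w).const_mul ((starRingEnd ℂ) c)).const_sub 1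
    simpa using this
  have h3 := h1.fun_div h2 hden
  have e : (1 - (starRingEnd ℂ) c * c) / (1 - (starRingEnd ℂ) c * w) ^ 2 =
      (1 * (1 - (starRingEnd ℂ) c * w) - (w - c) * -(starRingEnd ℂ) c) /
        (1 - (starRingEnd ℂ) c * w) ^ 2 := by
    congr 1
    ring
  rw [e]
  exact h3

/-- Koebe's square root step. -/
lemma koebe_step {Y : Set ℂ} (hYo : IsOpen Y) (hYs : IsSimplyConnected Y) (h0 : (0 : ℂ) ∈ Y)
    {φ : ℂ → ℂ} (hφ : Adm Y φ) (hd : deriv φ 0 ≠ 0) {c : ℂ} (hc : c ∈ ball (0 : ℂ) 1)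
    (hnot : c ∉ φ '' Y) : ∃ ψ, Adm Y ψ ∧ ‖deriv φ 0‖ < ‖deriv ψ 0‖ := by
  have hc1 : ‖c‖ < 1 := by simpa using hc
  have hφ1 : ∀ z ∈ Y, ‖φ z‖ < 1 := fun z hz => by simpa using hφ.maps hz
  have hc0 : c ≠ 0 := by
    rintro rfl
    exact hnot ⟨0, h0, hφ.zero⟩
  set u : ℂ → ℂ := fun z => mob c (φ z) with hu
  have huD : ∀ z ∈ Y, HasDerivAt u
      (((1 - (starRingEnd ℂ) c * c) / (1 - (starRingEnd ℂ) c * φ z) ^ 2) * deriv φ z) z := by
    intro z hz
    have h1 : HasDerivAt φ (deriv φ z) z :=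
      (hφ.diff.differentiableAt (hYo.mem_nhds hz)).hasDerivAt
    exact (mob_hasDerivAt hc1 (hφ1 z hz)).comp z h1
  have huc : ContinuousOn u Y := fun z hz => (huD z hz).continuousAt.continuousWithinAt
  have hu0 : 0 ∉ u '' Y := by
    rintro ⟨z, hz, hz0⟩
    have hden := mob_den_ne hc1 (hφ1 z hz)
    have : φ z - c = 0 := by
      have h2 : (φ z - c) / (1 - (starRingEnd ℂ) c * φ z) = 0 := hz0
      rcases div_eq_zero_iff.mp h2 with h3 | h3
      · exact h3
      · exact absurd h3 hden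
    exact hnot ⟨z, hz, sub_eq_zero.mp this⟩
  obtain ⟨h, hhc, hh2⟩ := Complex.exists_continuousOn_pow_eq hYs hYo huc hu0 (n := 2) two_ne_zero
  have hhne : ∀ z ∈ Y, h z ≠ 0 := by
    intro z hz hz0
    apply hu0
    exact ⟨z, hz, by rw [← hh2 z, hz0]; simp⟩
  have hhD : ∀ z ∈ Y, HasDerivAt h
      ((((1 - (starRingEnd ℂ) c * c) / (1 - (starRingEnd ℂ) c * φ z) ^ 2) * deriv φ z) / (2 * h z))
      z := by
    intro z hz
    refine HasDerivAt.of_comp_left (f := fun w : ℂ => w ^ 2) (g := h) (h := u)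
      (hhc.continuousAt (hYo.mem_nhds hz)) ?_ (huD z hz) ?_ ?_
    · simpa using hasDerivAt_pow 2 (h z)
    · exact mul_ne_zero two_ne_zero (hhne z hz)
    · exact Filter.Eventually.of_forall (fun y => hh2 y)
  have hnh : ∀ z ∈ Y, ‖h z‖ < 1 := by
    intro z hz
    have h1 : ‖u z‖ < 1 := mob_norm_lt hc1 (hφ1 z hz)
    rw [← hh2 z, norm_pow] at h1
    have h2 := norm_nonneg (h z)
    nlinarith
  have hhinj : InjOn h Y := by
    intro x hx y hy hxy
    have h1 : u x = u y := by rw [← hh2 x, ← hh2 y, hxy]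
    exact hφ.inj hx hy (mob_inj hc1 (hφ1 x hx) (hφ1 y hy) h1)
  set b := h 0 with hb
  have hb1 : ‖b‖ < 1 := hnh 0 h0
  have hbne : b ≠ 0 := hhne 0 h0
  have hb2 : b ^ 2 = -c := by
    rw [hb, hh2 0]
    simp [hu, mob, hφ.zero]
  have hnb : ‖b‖ ^ 2 = ‖c‖ := by
    rw [← norm_pow, hb2, norm_neg]
  set ψ : ℂ → ℂ := fun z => mob b (h z) with hψ
  have hψD : ∀ z ∈ Y, HasDerivAt ψ
      (((1 - (starRingEnd ℂ) b * b) / (1 - (starRingEnd ℂ) b * h z) ^ 2) *
        (((1 - (starRingEnd ℂ) c * c) / (1 - (starRingEnd ℂ) c * φ z) ^ 2) * deriv φ z /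
          (2 * h z))) z := by
    intro z hz
    exact (mob_hasDerivAt hb1 (hnh z hz)).comp z (hhD z hz)
  refine ⟨ψ, ⟨fun z hz => (hψD z hz).differentiableAt.differentiableWithinAt, ?_, ?_, ?_⟩, ?_⟩
  · intro x hx y hy hxy
    exact hhinj hx hy (mob_inj hb1 (hnh x hx) (hnh y hy) hxy)
  · intro z hz
    simpa using mob_norm_lt hb1 (hnh z hz)
  · simp [hψ, mob, ← hb]
  · have hD := (hψD 0 h0).deriv
    rw [hD, hφ.zero, ← hb]
    have hcb : (starRingEnd ℂ) b * b = ((‖b‖ ^ 2 : ℝ) : ℂ) := by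
      rw [Complex.conj_mul']; push_cast; ring
    have hcc : (starRingEnd ℂ) c * c = ((‖b‖ ^ 4 : ℝ) : ℂ) := by
      rw [Complex.conj_mul', ← hnb]
      push_cast
      ring
    set β := ‖b‖ with hβ
    have hβ0 : 0 < β := norm_pos_iff.mpr hbne
    have hβ1 : β < 1 := hb1
    have hp1 : 0 < 1 - β ^ 2 := by nlinarith
    have hp2 : 0 < 1 - β ^ 4 := by nlinarith [sq_nonneg (β ^ 2), sq_nonneg β]
    have hDpos : 0 < ‖deriv φ 0‖ := norm_pos_iff.mpr hd
    have e1 : (1 : ℂ) - ((β ^ 2 : ℝ) : ℂ) = ((1 - β ^ 2 : ℝ) : ℂ) := by push_cast; ring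
    have e2 : (1 : ℂ) - ((β ^ 4 : ℝ) : ℂ) = ((1 - β ^ 4 : ℝ) : ℂ) := by push_cast; ring
    rw [hcb, hcc, e1, e2]
    simp only [mul_zero, sub_zero, one_pow, div_one]
    rw [norm_mul, norm_div, norm_div, norm_mul, norm_mul, norm_pow]
    simp only [Complex.norm_real, Real.norm_eq_abs, abs_of_pos hp1, abs_of_pos hp2,
      Complex.norm_ofNat]
    rw [← hβ]
    have : ((1 - β ^ 2) / (1 - β ^ 2) ^ 2) * ((1 - β ^ 4) * ‖deriv φ 0‖ / (2 * β)) =
        ‖deriv φ 0‖ * ((1 - β ^ 4) / ((1 - β ^ 2) * (2 * β))) := by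
      field_simp
    rw [this]
    have h3 : 1 < (1 - β ^ 4) / ((1 - β ^ 2) * (2 * β)) := by
      rw [one_lt_div (by positivity)]
      have : (1 - β ^ 4) - (1 - β ^ 2) * (2 * β) = (1 - β ^ 2) * (1 - β) ^ 2 := by ring
      have h5 : 0 < (1 - β ^ 2) * (1 - β) ^ 2 := by
        apply mul_pos hp1
        have : 0 < 1 - β := by linarith
        positivity
      linarith
    nlinarith


/-- Pointwise ultrafilter limit and locally uniform convergence for a sequence of maps into the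
disc (Montel). -/
lemma exists_limit {Y : Set ℂ} (hYo : IsOpen Y) {F : ℕ → ℂ → ℂ}
    (hF : ∀ n, DifferentiableOn ℂ (F n) Y) (hb : ∀ n, ∀ z ∈ Y, ‖F n z‖ ≤ 1) :
    ∃ ψ : ℂ → ℂ, TendstoLocallyUniformlyOn F ψ (hyperfilter ℕ : Filter ℕ) Y ∧
      ∀ z ∈ Y, ‖ψ z‖ ≤ 1 := by
  classical
  have hex : ∀ z : ℂ, ∃ w : ℂ, z ∈ Y → (‖w‖ ≤ 1 ∧
      Tendsto (fun n => F n z) (hyperfilter ℕ : Filter ℕ) (𝓝 w)) := by
    intro z
    by_cases hz : z ∈ Y
    · have hsub : ((hyperfilter ℕ).map (fun n => F n z) : Filter ℂ) ≤ 𝓟 (closedBall (0 : ℂ) 1) := by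
        rw [Ultrafilter.coe_map, le_principal_iff, Filter.mem_map]
        have : (fun n => F n z) ⁻¹' closedBall (0 : ℂ) 1 = univ := by
          ext n
          simpa using hb n z hz
        rw [this]
        exact univ_mem
      obtain ⟨w, hw, hle⟩ := (isCompact_closedBall (0 : ℂ) 1).ultrafilter_le_nhds _ hsub
      exact ⟨w, fun _ => ⟨by simpa using hw, hle⟩⟩
    · exact ⟨0, fun h => absurd h hz⟩
  choose ψ hψ using hex
  refine ⟨ψ, ?_, fun z hz => (hψ z hz).1⟩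
  rw [Metric.tendstoLocallyUniformlyOn_iff]
  intro ε hε z0 hz0
  obtain ⟨ρ0, hρ0, hρ0Y⟩ := Metric.nhds_basis_closedBall.mem_iff.mp (hYo.mem_nhds hz0)
  set ρ := ρ0 / 2 with hρdef
  have hρ : 0 < ρ := by positivity
  have hballY : ball z0 ρ ⊆ Y := by
    intro z hz
    apply hρ0Y
    have := mem_ball.mp hz
    rw [mem_closedBall]
    linarith
  -- derivative bound on the small ball
  have hderiv : ∀ n, ∀ z ∈ ball z0 ρ, ‖deriv (F n) z‖ ≤ 1 / ρ := by
    intro n z hz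
    have hsub : closedBall z ρ ⊆ Y := by
      intro y hy
      apply hρ0Y
      have h1 := mem_closedBall.mp hy
      have h2 := mem_ball.mp hz
      rw [mem_closedBall]
      have := dist_triangle y z z0
      linarith
    refine Complex.norm_deriv_le_of_forall_mem_sphere_norm_le hρ
      (((hF n).mono hsub).diffContOnCl_ball subset_rfl) ?_
    intro y hy
    exact hb n y (hsub (sphere_subset_closedBall hy))
  have hLip : ∀ n, ∀ z ∈ ball z0 ρ, ∀ z' ∈ ball z0 ρ, ‖F n z' - F n z‖ ≤ 1 / ρ * ‖z' - z‖ := by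
    intro n z hz z' hz'
    refine Convex.norm_image_sub_le_of_norm_deriv_le (s := ball z0 ρ) (𝕜 := ℂ) ?_ (hderiv n)
      (convex_ball z0 ρ) hz hz'
    intro y hy
    exact (hF n).differentiableAt (hYo.mem_nhds (hballY hy))
  have hLipψ : ∀ z ∈ ball z0 ρ, ∀ z' ∈ ball z0 ρ, ‖ψ z' - ψ z‖ ≤ 1 / ρ * ‖z' - z‖ := by
    intro z hz z' hz'
    have h1 := (hψ z (hballY hz)).2
    have h2 := (hψ z' (hballY hz')).2
    have h3 : Tendsto (fun n => ‖F n z' - F n z‖) (hyperfilter ℕ : Filter ℕ) (𝓝 ‖ψ z' - ψ z‖) :=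
      (h2.sub h1).norm
    exact le_of_tendsto h3 (Eventually.of_forall fun n => hLip n z hz z' hz')
  set δ := ε * ρ / 4 with hδ
  have hδ0 : 0 < δ := by positivity
  have htb : TotallyBounded (ball z0 ρ) :=
    (isCompact_closedBall z0 ρ).totallyBounded.subset ball_subset_closedBall
  obtain ⟨t, hts, htf, hcov⟩ := Metric.finite_approx_of_totallyBounded htb δ hδ0
  refine ⟨ball z0 ρ, mem_nhdsWithin_of_mem_nhds (ball_mem_nhds z0 hρ), ?_⟩
  have hev : ∀ᶠ n in (hyperfilter ℕ : Filter ℕ), ∀ c ∈ t, dist (ψ c) (F n c) < ε / 4 := by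
    rw [Filter.eventually_all_finite htf]
    intro c hc
    have h1 := (hψ c (hballY (hts hc))).2
    have h2 := Metric.tendsto_nhds.mp h1 (ε / 4) (by positivity)
    filter_upwards [h2] with n hn
    rwa [dist_comm]
  filter_upwards [hev] with n hn y hy
  obtain ⟨c, hc, hyc⟩ : ∃ c ∈ t, y ∈ ball c δ := by
    simpa using hcov hy
  have h1 := hLip n c (hts hc) y hy
  have h2 := hLipψ c (hts hc) y hy
  have hyc' : ‖y - c‖ < δ := by simpa [dist_eq_norm] using mem_ball.mp hyc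
  have hsm : 1 / ρ * ‖y - c‖ ≤ ε / 4 := by
    have : 1 / ρ * ‖y - c‖ ≤ 1 / ρ * δ := by gcongr
    have h3 : 1 / ρ * δ = ε / 4 := by
      rw [hδ]
      field_simp
    linarith
  have h3 := hn c hc
  rw [dist_eq_norm] at h3 ⊢
  have : ψ y - F n y = (ψ y - ψ c) + (ψ c - F n c) + (F n c - F n y) := by ring
  rw [this]
  have h4 : ‖F n c - F n y‖ = ‖F n y - F n c‖ := norm_sub_rev _ _
  calc ‖(ψ y - ψ c) + (ψ c - F n c) + (F n c - F n y)‖
      ≤ ‖ψ y - ψ c‖ + ‖ψ c - F n c‖ + ‖F n c - F n y‖ := norm_add₃_le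
    _ < ε := by rw [h4]; linarith

/-- **Riemann mapping theorem** for bounded star-shaped open sets. -/
theorem riemann_star {Y : Set ℂ} (hYo : IsOpen Y) (hYb : Bornology.IsBounded Y) (h0 : (0 : ℂ) ∈ Y)
    (hst : StarConvex ℝ (0 : ℂ) Y) :
    ∃ φ : ℂ → ℂ, Adm Y φ ∧ φ '' Y = ball (0 : ℂ) 1 ∧ deriv φ 0 ≠ 0 := by
  have hYs : IsSimplyConnected Y := by
    have := hst.contractibleSpace ⟨0, h0⟩
    exact SimplyConnectedSpace.ofContractible _
  have hYc : IsPreconnected Y := hYs.isPathConnected.isConnected.isPreconnected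
  -- the family
  set S : Set ℝ := {r | ∃ φ, Adm Y φ ∧ r = ‖deriv φ 0‖} with hS
  obtain ⟨R, hR0, hR⟩ : ∃ R : ℝ, 0 < R ∧ Y ⊆ ball (0 : ℂ) R := by
    obtain ⟨R, hR⟩ := hYb.subset_ball (0 : ℂ)
    refine ⟨max R 1, by positivity, hR.trans (ball_subset_ball (le_max_left _ _))⟩
  have hmem : (R : ℂ)⁻¹ ≠ 0 := by
    simp [hR0.ne']
  have hφ0 : Adm Y (fun z => (R : ℂ)⁻¹ * z) := by
    refine ⟨(differentiable_id.const_mul _).differentiableOn, ?_, ?_, by simp⟩
    · intro x _ y _ hxy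
      exact mul_left_cancel₀ hmem hxy
    · intro z hz
      have h1 := mem_ball.mp (hR hz)
      rw [dist_zero_right] at h1
      rw [mem_ball, dist_zero_right, norm_mul, norm_inv, Complex.norm_real, Real.norm_eq_abs,
        abs_of_pos hR0]
      rw [inv_mul_lt_iff₀ hR0]
      linarith
  have hd0 : deriv (fun z => (R : ℂ)⁻¹ * z) 0 = (R : ℂ)⁻¹ := by
    have := ((hasDerivAt_id (0 : ℂ)).const_mul ((R : ℂ)⁻¹)).deriv
    simp at this ⊢
  have hSne : S.Nonempty := ⟨_, _, hφ0, rfl⟩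
  obtain ⟨ρ, hρ, hρY⟩ := Metric.nhds_basis_closedBall.mem_iff.mp (hYo.mem_nhds h0)
  have hSb : BddAbove S := by
    refine ⟨1 / ρ, ?_⟩
    rintro r ⟨φ, hφ, rfl⟩
    refine Complex.norm_deriv_le_of_forall_mem_sphere_norm_le hρ
      ((hφ.diff.mono hρY).diffContOnCl_ball subset_rfl) ?_
    intro y hy
    have := hφ.maps (hρY (sphere_subset_closedBall hy))
    rw [mem_ball, dist_zero_right] at this
    exact this.le
  obtain ⟨u, -, hu, huS⟩ := exists_seq_tendsto_sSup hSne hSb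
  choose F hFA hFu using huS
  have hFb : ∀ n, ∀ z ∈ Y, ‖F n z‖ ≤ 1 := by
    intro n z hz
    have := (hFA n).maps hz
    rw [mem_ball, dist_zero_right] at this
    exact this.le
  obtain ⟨ψ, hlim, hψb⟩ := exists_limit hYo (fun n => (hFA n).diff) hFb
  have hψd : DifferentiableOn ℂ ψ Y :=
    hlim.differentiableOn (Eventually.of_forall fun n => (hFA n).diff) hYo
  have hder := hlim.deriv (Eventually.of_forall fun n => (hFA n).diff) hYo
  have hder0 : Tendsto (fun n => deriv (F n) 0) (hyperfilter ℕ : Filter ℕ) (𝓝 (deriv ψ 0)) :=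
    hder.tendsto_at h0
  have hle : (hyperfilter ℕ : Filter ℕ) ≤ atTop := by
    rw [← Nat.cofinite_eq_atTop]
    exact Filter.hyperfilter_le_cofinite
  have hnorm : ‖deriv ψ 0‖ = sSup S := by
    have h1 : Tendsto (fun n => ‖deriv (F n) 0‖) (hyperfilter ℕ : Filter ℕ) (𝓝 ‖deriv ψ 0‖) :=
      hder0.norm
    have h2 : Tendsto u (hyperfilter ℕ : Filter ℕ) (𝓝 (sSup S)) := hu.mono_left hle
    have h3 : u = fun n => ‖deriv (F n) 0‖ := funext hFu
    rw [h3] at h2
    exact tendsto_nhds_unique h1 h2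
  have hspos : 0 < sSup S := by
    have h1 : ‖(R : ℂ)⁻¹‖ ≤ sSup S := le_csSup hSb ⟨_, hφ0, by rw [hd0]⟩
    have h2 : 0 < ‖(R : ℂ)⁻¹‖ := norm_pos_iff.mpr hmem
    linarith
  have hd : deriv ψ 0 ≠ 0 := by
    rw [← norm_pos_iff, hnorm]
    exact hspos
  have hψan : AnalyticOnNhd ℂ ψ Y := hψd.analyticOnNhd hYo
  have hconst : ∀ a ∈ Y, ¬ ∀ᶠ z in 𝓝 a, ψ z = ψ a := by
    intro a ha hev
    have h1 : EqOn ψ (fun _ => ψ a) Y :=
      hψan.eqOn_of_preconnected_of_eventuallyEq analyticOnNhd_const hYc ha hev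
    have h2 : ψ =ᶠ[𝓝 0] fun _ => ψ a := by
      filter_upwards [hYo.mem_nhds h0] with z hz using h1 hz
    apply hd
    rw [h2.deriv_eq]
    simp
  have hψ0 : ψ 0 = 0 := by
    have h1 : Tendsto (fun n => F n 0) (hyperfilter ℕ : Filter ℕ) (𝓝 (ψ 0)) := hlim.tendsto_at h0
    have h2 : (fun n => F n 0) = fun _ => 0 := funext fun n => (hFA n).zero
    rw [h2] at h1
    exact tendsto_nhds_unique h1 tendsto_const_nhds
  have hψinj : InjOn ψ Y :=
    injOn_of_tendsto hYo (fun n => (hFA n).diff) (fun n => (hFA n).inj) hlim hψd hconst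
  have hψmaps : MapsTo ψ Y (ball (0 : ℂ) 1) := by
    intro z hz
    rw [mem_ball, dist_zero_right]
    refine lt_of_le_of_ne (hψb z hz) ?_
    intro h1
    have hmax : IsMaxOn (norm ∘ ψ) Y z := by
      intro y hy
      show ‖ψ y‖ ≤ ‖ψ z‖
      rw [h1]
      exact hψb y hy
    have := Complex.eqOn_of_isPreconnected_of_isMaxOn_norm hYc hYo hψd hz hmax
    apply hconst z hz
    filter_upwards [hYo.mem_nhds hz] with y hy using this hy
  have hA : Adm Y ψ := ⟨hψd, hψinj, hψmaps, hψ0⟩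
  refine ⟨ψ, hA, ?_, hd⟩
  apply Subset.antisymm
  · exact (image_subset_iff.mpr hψmaps)
  · intro c hc
    by_contra hnot
    obtain ⟨χ, hχ, hlt⟩ := koebe_step hYo hYs h0 hA hd hc hnot
    have : ‖deriv χ 0‖ ≤ sSup S := le_csSup hSb ⟨χ, hχ, rfl⟩
    rw [hnorm] at hlt
    linarith

end Crest.Agent.Lib.Crouzeix
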