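import Mathlib

/-!
Polynomial approximation on compact convex sets of the plane (Runge, elementary form), used for the
finite dimensional Paulsen step of the Crouzeix statements.
-/

set_option autoImplicit false

open Complex Metric Set Polynomial

namespace Crest.Agent.Lib.Crouzeix.S80

/-- `g` is a uniform limit on `W` of polynomials. -/
def Approx (W : Set ℂ) (g : ℂ → ℂ) : Prop :=
  ∀ ε : ℝ, 0 < ε → ∃ q : ℂ[X], ∀ z ∈ W, ‖g z - q.eval z‖ < ε

/-- An element of the closure of the polynomial functions (as a subspace of `C(W, ℂ)`). -/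
noncomputable def polySub (W : Set ℂ) : Submodule ℂ C(W, ℂ) :=
  (Subalgebra.toSubmodule (polynomialFunctions W)).topologicalClosure

lemma approx_of_mem {W : Set ℂ} [CompactSpace W] {g : C(W, ℂ)} (hg : g ∈ polySub W) (ε : ℝ)
    (hε : 0 < ε) : ∃ q : ℂ[X], ∀ z : W, ‖g z - q.eval (z : ℂ)‖ < ε := by
  have hg' : g ∈ closure (polynomialFunctions W : Set C(W, ℂ)) := hg
  rw [Metric.mem_closure_iff] at hg'
  obtain ⟨b, hb, hd⟩ := hg' ε hε
  rw [polynomialFunctions_coe] at hb
  obtain ⟨q, rfl⟩ := hb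
  refine ⟨q, fun z => ?_⟩
  have := (ContinuousMap.dist_apply_le_dist (f := g)
    (g := Polynomial.toContinuousMapOnAlgHom W q) z).trans_lt hd
  simpa [dist_eq_norm] using this

lemma mem_of_approx {W : Set ℂ} [CompactSpace W] [Nonempty W] {g : C(W, ℂ)}
    (h : ∀ ε : ℝ, 0 < ε → ∃ q : ℂ[X], ∀ z : W, ‖g z - q.eval (z : ℂ)‖ ≤ ε) : g ∈ polySub W := by
  change g ∈ closure (polynomialFunctions W : Set C(W, ℂ))
  rw [Metric.mem_closure_iff]
  intro ε hε
  obtain ⟨q, hq⟩ := h (ε / 2) (by positivity)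
  refine ⟨Polynomial.toContinuousMapOnAlgHom W q, ?_, ?_⟩
  · rw [polynomialFunctions_coe]; exact ⟨q, rfl⟩
  · refine lt_of_le_of_lt ((ContinuousMap.dist_le (by positivity)).2 fun z => ?_) (half_lt_self hε)
    simpa [dist_eq_norm] using hq z

/-- `(s - z)⁻¹` is a uniform limit of polynomials on a compact convex set not containing `s`. -/
lemma approx_inv_sub {W : Set ℂ} (hW : IsCompact W) (hc : Convex ℝ W) (hne : W.Nonempty) {s : ℂ}
    (hs : s ∉ W) : Approx W (fun z => (s - z)⁻¹) := by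
  classical
  obtain ⟨y, hyW, hy⟩ := hW.exists_infDist_eq_dist hne s
  -- the nearest point property
  have hnear : ∀ w ∈ W, ((starRingEnd ℂ) (s - y) * (w - y)).re ≤ 0 := by
    intro w hw
    have hmin : ∀ u ∈ W, ‖s - y‖ ≤ ‖s - u‖ := by
      intro u hu
      have := Metric.infDist_le_dist_of_mem (x := s) hu
      rw [hy, dist_eq_norm, dist_eq_norm] at this
      exact this
    by_contra hcon
    push Not at hcon
    set a := ((starRingEnd ℂ) (s - y) * (w - y)).re with ha
    set b := Complex.normSq (w - y) with hb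
    have hb0 : 0 < b := by
      rw [hb, Complex.normSq_pos]
      intro h0
      have hwy : w = y := sub_eq_zero.mp h0
      have : a = 0 := by simp [ha, hwy]
      linarith
    -- choose t small
    set t := min 1 (a / b) with ht
    have ht0 : 0 < t := lt_min one_pos (div_pos hcon hb0)
    have ht1 : t ≤ 1 := min_le_left _ _
    have htb : t * b ≤ a := by
      have : t ≤ a / b := min_le_right _ _
      rwa [le_div_iff₀ hb0] at this
    have hu : y + (t : ℂ) * (w - y) ∈ W := by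
      have := hc hyW hw (sub_nonneg.mpr ht1) ht0.le (by ring)
      convert this using 1
      simp only [Complex.real_smul, Complex.ofReal_sub, Complex.ofReal_one]
      ring
    have h2 := hmin _ hu
    have h3 : Complex.normSq (s - (y + (t : ℂ) * (w - y))) =
        Complex.normSq (s - y) - 2 * t * a + t ^ 2 * b := by
      have : s - (y + (t : ℂ) * (w - y)) = (s - y) - (t : ℂ) * (w - y) := by ring
      rw [this, Complex.normSq_sub, Complex.normSq_mul, Complex.normSq_ofReal]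
      have : (((s - y) * (starRingEnd ℂ) ((t : ℂ) * (w - y))).re) = t * a := by
        rw [ha, map_mul, Complex.conj_ofReal]
        simp only [Complex.mul_re, Complex.mul_im, Complex.ofReal_re, Complex.ofReal_im,
          Complex.conj_re, Complex.conj_im, Complex.sub_re, Complex.sub_im]
        ring
      rw [this]
      ring
    have h4 : Complex.normSq (s - y) ≤ Complex.normSq (s - (y + (t : ℂ) * (w - y))) := by
      rw [Complex.normSq_eq_norm_sq, Complex.normSq_eq_norm_sq]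
      exact pow_le_pow_left₀ (norm_nonneg _) h2 2
    rw [h3] at h4
    nlinarith
  have hyne : s - y ≠ 0 := by
    intro h
    exact hs (by rwa [sub_eq_zero.mp h])
  set e := s - y with he
  set E := Complex.normSq e with hE
  have hE0 : 0 < E := Complex.normSq_pos.mpr hyne
  obtain ⟨D, hD⟩ := hW.exists_bound_of_continuousOn (f := fun z => z - s) (by fun_prop)
  set Λ : ℝ := (D ^ 2 + 1) / (2 * E) with hΛ
  have hΛ2 : 2 * Λ * E = D ^ 2 + 1 := by
    rw [hΛ]; field_simp
  have hΛ0 : 0 < Λ := by positivity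
  set a : ℂ := (Λ : ℂ) * e with ha
  set c : ℂ := s - a with hc'
  have ha0 : a ≠ 0 := mul_ne_zero (by exact_mod_cast hΛ0.ne') hyne
  have hnsa : Complex.normSq a = Λ ^ 2 * E := by
    rw [ha, Complex.normSq_mul, Complex.normSq_ofReal]; ring
  have hkey : ∀ z ∈ W, Complex.normSq (z - c) ≤ Complex.normSq a - 1 := by
    intro z hz
    have h1 : z - c = (z - s) + a := by rw [hc']; ring
    have h2 : ((z - s) * (starRingEnd ℂ) a).re = Λ * (((starRingEnd ℂ) e * (z - y)).re - E) := by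
      have h3 : z - s = (z - y) - e := by rw [he]; ring
      rw [h3, ha, map_mul, Complex.conj_ofReal, hE, Complex.normSq_apply]
      simp only [Complex.mul_re, Complex.mul_im, Complex.ofReal_re, Complex.ofReal_im,
        Complex.conj_re, Complex.conj_im, Complex.sub_re, Complex.sub_im]
      ring
    rw [h1, Complex.normSq_add, h2]
    have h4 := hnear z hz
    have h5 : Complex.normSq (z - s) ≤ D ^ 2 := by
      rw [Complex.normSq_eq_norm_sq]
      exact pow_le_pow_left₀ (norm_nonneg _) (hD z hz) 2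
    nlinarith [mul_nonneg hΛ0.le (neg_nonneg.mpr h4)]
  obtain ⟨z₀, hz₀⟩ := hne
  have hnsa1 : 1 ≤ Complex.normSq a := by
    have := hkey z₀ hz₀
    have h0 := Complex.normSq_nonneg (z₀ - c)
    linarith
  set ρ : ℝ := Real.sqrt (1 - 1 / Complex.normSq a) with hρ
  have hρ0 : 0 ≤ ρ := Real.sqrt_nonneg _
  have hinv : 1 / Complex.normSq a ≤ 1 := by
    rw [div_le_one (by linarith)]; exact hnsa1
  have hinv0 : 0 < 1 / Complex.normSq a := by positivity
  have hρ1 : ρ < 1 := by
    rw [hρ, Real.sqrt_lt' one_pos]; linarith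
  have hu : ∀ z ∈ W, ‖(z - c) / a‖ ≤ ρ := by
    intro z hz
    rw [hρ]
    apply Real.le_sqrt_of_sq_le
    have hp : 0 < Complex.normSq a := by linarith
    rw [← Complex.normSq_eq_norm_sq, Complex.normSq_div, div_le_iff₀ hp]
    have h6 : (1 - 1 / Complex.normSq a) * Complex.normSq a = Complex.normSq a - 1 := by
      field_simp
    rw [h6]
    exact hkey z hz
  intro ε hε
  have hpos : 0 < ‖a‖⁻¹ / (1 - ρ) := by
    have : 0 < ‖a‖ := norm_pos_iff.mpr ha0
    have h1 : 0 < 1 - ρ := by linarith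
    positivity
  obtain ⟨K, hK⟩ := exists_pow_lt_of_lt_one (div_pos hε hpos) hρ1
  refine ⟨C a⁻¹ * ∑ k ∈ Finset.range K, (C a⁻¹ * (X - C c)) ^ k, fun z hz => ?_⟩
  have hz1 := hu z hz
  set u := (z - c) / a with hudef
  have hs1 : s - z = a * (1 - u) := by
    rw [hudef, hc']; field_simp; ring
  have hne1 : 1 - u ≠ 0 := by
    intro h
    have : u = 1 := (sub_eq_zero.mp h).symm
    rw [this] at hz1
    simp at hz1
    linarith
  have hnorm1 : 1 - ρ ≤ ‖1 - u‖ := by
    have := norm_sub_norm_le (1 : ℂ) u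
    simp at this
    linarith
  have hev : (C a⁻¹ * ∑ k ∈ Finset.range K, (C a⁻¹ * (X - C c)) ^ k : ℂ[X]).eval z
      = a⁻¹ * ∑ k ∈ Finset.range K, u ^ k := by
    simp only [Polynomial.eval_mul, Polynomial.eval_C, Polynomial.eval_finsetSum,
      Polynomial.eval_pow, Polynomial.eval_sub, Polynomial.eval_X]
    congr 1
    apply Finset.sum_congr rfl
    intro k _
    rw [hudef]; congr 1; field_simp
  rw [hev]
  show ‖(s - z)⁻¹ - _‖ < ε
  rw [hs1, mul_inv]
  have hgeom : (∑ k ∈ Finset.range K, u ^ k) * (1 - u) = 1 - u ^ K := by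
    have := geom_sum_mul u K
    linear_combination -this
  have hdiff : a⁻¹ * (1 - u)⁻¹ - a⁻¹ * ∑ k ∈ Finset.range K, u ^ k
      = a⁻¹ * (u ^ K * (1 - u)⁻¹) := by
    have hS : (∑ k ∈ Finset.range K, u ^ k) = (1 - u ^ K) * (1 - u)⁻¹ := by
      rw [eq_mul_inv_iff_mul_eq₀ hne1]; exact hgeom
    rw [hS]; ring
  rw [hdiff, norm_mul, norm_mul, norm_pow, norm_inv, norm_inv]
  have hle : ‖u‖ ^ K ≤ ρ ^ K := pow_le_pow_left₀ (norm_nonneg _) hz1 K
  have h1ρ : 0 < 1 - ρ := by linarith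
  have hinvle : ‖1 - u‖⁻¹ ≤ (1 - ρ)⁻¹ := inv_anti₀ h1ρ hnorm1
  have hap : 0 < ‖a‖⁻¹ := by
    have : 0 < ‖a‖ := norm_pos_iff.mpr ha0
    positivity
  calc ‖a‖⁻¹ * (‖u‖ ^ K * ‖1 - u‖⁻¹)
      ≤ ‖a‖⁻¹ * (ρ ^ K * (1 - ρ)⁻¹) := by gcongr
    _ = ρ ^ K * (‖a‖⁻¹ / (1 - ρ)) := by field_simp
    _ < ε / (‖a‖⁻¹ / (1 - ρ)) * (‖a‖⁻¹ / (1 - ρ)) := by gcongr
    _ = ε := by field_simp

/-- Analytic functions on a domain conformally equivalent to the disc are uniform limits of
polynomials on compact convex subsets. -/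
theorem approx_of_differentiableOn {Ω W : Set ℂ} {f ψ g : ℂ → ℂ} (hΩ : IsOpen Ω)
    (hψd : DifferentiableOn ℂ ψ (ball 0 1)) (hψΩ : MapsTo ψ (ball 0 1) Ω)
    (hψf : ∀ z ∈ Ω, ψ (f z) = z) (hfψ : ∀ σ ∈ ball (0 : ℂ) 1, f (ψ σ) = σ)
    (hfb : MapsTo f Ω (ball 0 1)) (hfd : DifferentiableOn ℂ f Ω)
    (hWc : IsCompact W) (hWconv : Convex ℝ W) (hWne : W.Nonempty) (hWΩ : W ⊆ Ω)
    (hg : DifferentiableOn ℂ g Ω) : Approx W g := by
  classical
  -- radius
  have hfc : ContinuousOn f W := hfd.continuousOn.mono hWΩ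
  obtain ⟨z₁, hz₁, hmax⟩ := (hWc.image_of_continuousOn hfc).exists_isMaxOn
    (hWne.image f) continuous_norm.continuousOn
  obtain ⟨z₂, hz₂, rfl⟩ := hz₁
  have hr1 : ‖f z₂‖ < 1 := by simpa using hfb (hWΩ hz₂)
  set r₀ : ℝ := (‖f z₂‖ + 1) / 2 with hr₀
  have hr₀1 : r₀ < 1 := by rw [hr₀]; linarith
  have hr₀0 : 0 < r₀ := by rw [hr₀]; positivity
  have hWf : ∀ z ∈ W, ‖f z‖ < r₀ := by
    intro z hz
    have : ‖f z‖ ≤ ‖f z₂‖ := hmax (mem_image_of_mem f hz)
    rw [hr₀]; linarith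
  have hball : closedBall (0 : ℂ) r₀ ⊆ ball 0 1 := closedBall_subset_ball hr₀1
  -- derivative of ψ does not vanish
  have hψd' : ∀ σ ∈ ball (0 : ℂ) 1, HasDerivAt ψ (deriv ψ σ) σ := fun σ hσ =>
    (hψd.differentiableAt (isOpen_ball.mem_nhds hσ)).hasDerivAt
  have hψne : ∀ σ ∈ ball (0 : ℂ) 1, deriv ψ σ ≠ 0 := by
    intro σ hσ h0
    have h1 : HasDerivAt f (deriv f (ψ σ)) (ψ σ) :=
      (hfd.differentiableAt (hΩ.mem_nhds (hψΩ hσ))).hasDerivAt
    have h2 := h1.comp σ (hψd' σ hσ)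
    have h3 : HasDerivAt (f ∘ ψ) 1 σ := by
      refine (hasDerivAt_id σ).congr_of_eventuallyEq ?_
      filter_upwards [isOpen_ball.mem_nhds hσ] with x hx using hfψ x hx
    have := h2.unique h3
    rw [h0] at this
    simp at this
  -- the kernel
  let a : ℝ → ℂ := fun θ => circleMap 0 r₀ θ
  have hamem : ∀ θ, a θ ∈ ball (0 : ℂ) 1 := fun θ =>
    hball (circleMap_mem_closedBall _ hr₀0.le θ)
  have hacont : Continuous a := by simpa [a] using continuous_circleMap 0 r₀
  have hψa : Continuous fun θ => ψ (a θ) :=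
    hψd.continuousOn.comp_continuous hacont hamem
  have hdiffb : DifferentiableOn ℂ (deriv ψ) (ball 0 1) := hψd.deriv isOpen_ball
  have hdψa : Continuous fun θ => deriv ψ (a θ) :=
    hdiffb.continuousOn.comp_continuous hacont hamem
  have hga : Continuous fun θ => g (ψ (a θ)) :=
    hg.continuousOn.comp_continuous hψa fun θ => hψΩ (hamem θ)
  let num : ℝ → ℂ := fun θ => a θ * g (ψ (a θ)) * deriv ψ (a θ)
  have hnum : Continuous num := (hacont.mul hga).mul hdψa
  have hden : ∀ θ, ∀ z ∈ W, ψ (a θ) - z ≠ 0 := by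
    intro θ z hz h0
    have h1 : ψ (a θ) = z := sub_eq_zero.mp h0
    have h2 : f z = a θ := by rw [← h1]; exact hfψ _ (hamem θ)
    have h3 : ‖f z‖ = r₀ := by
      rw [h2]; simp [a, circleMap, abs_of_pos hr₀0, Complex.norm_exp_ofReal_mul_I]
    exact absurd (hWf z hz) (by rw [h3]; exact lt_irrefl _)
  -- the Cauchy formula
  have hCauchy : ∀ z ∈ W, g z = (2 * Real.pi : ℝ)⁻¹ • ∫ θ in (0 : ℝ)..2 * Real.pi,
      num θ / (ψ (a θ) - z) := by
    intro z hz
    have hzΩ := hWΩ hz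
    set σ₀ := f z with hσ₀
    have hσ₀b : σ₀ ∈ ball (0 : ℂ) 1 := hfb hzΩ
    have hψσ₀ : ψ σ₀ = z := hψf z hzΩ
    have hσ₀r : σ₀ ∈ ball (0 : ℂ) r₀ := by simpa using hWf z hz
    set e : ℂ → ℂ := dslope ψ σ₀ with he
    have hed : DifferentiableOn ℂ e (ball 0 1) :=
      (Complex.differentiableOn_dslope (isOpen_ball.mem_nhds hσ₀b)).2 hψd
    have hene : ∀ σ ∈ ball (0 : ℂ) 1, e σ ≠ 0 := by
      intro σ hσ
      by_cases hσσ : σ = σ₀
      · rw [hσσ, he, dslope_same]; exact hψne _ hσ₀b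
      · rw [he, dslope_of_ne _ hσσ, slope_def_field]
        intro h0
        rcases div_eq_zero_iff.mp h0 with h1 | h1
        · have h2 : ψ σ = ψ σ₀ := sub_eq_zero.mp h1
          have := congrArg f h2
          rw [hfψ σ hσ, hfψ σ₀ hσ₀b] at this
          exact hσσ this
        · exact hσσ (sub_eq_zero.mp h1)
    set F : ℂ → ℂ := fun σ => g (ψ σ) * deriv ψ σ / e σ with hF
    have hFd : DifferentiableOn ℂ F (ball 0 1) := by
      apply DifferentiableOn.div _ hed hene
      exact (hg.comp hψd hψΩ).mul hdiffb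
    have hFcl : DiffContOnCl ℂ F (ball 0 |r₀|) := by
      rw [abs_of_pos hr₀0]
      apply DifferentiableOn.diffContOnCl
      rw [closure_ball _ hr₀0.ne']
      exact hFd.mono hball
    have hav := hFcl.circleAverage_smul_div (w := σ₀) (by rwa [abs_of_pos hr₀0])
    have hFσ₀ : F σ₀ = g z := by
      simp only [hF, he, dslope_same, hψσ₀]
      rw [mul_div_assoc, div_self (hψne _ hσ₀b), mul_one]
    rw [← hFσ₀, ← hav, Real.circleAverage_def]
    congr 1
    apply intervalIntegral.integral_congr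
    intro θ _
    have haθ : a θ ≠ σ₀ := by
      intro h
      have : ‖σ₀‖ = r₀ := by
        rw [← h]; simp [a, circleMap, abs_of_pos hr₀0, Complex.norm_exp_ofReal_mul_I]
      exact absurd (hWf z hz) (by rw [← hσ₀, this]; exact lt_irrefl _)
    have hsub : a θ - σ₀ ≠ 0 := sub_ne_zero.mpr haθ
    have heθ : e (a θ) = (ψ (a θ) - z) / (a θ - σ₀) := by
      rw [he, dslope_of_ne _ haθ, slope_def_field, hψσ₀]
    have hdz := hden θ z hz
    simp only [smul_eq_mul, sub_zero, hF, num]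
    change a θ / (a θ - σ₀) * (g (ψ (a θ)) * deriv ψ (a θ) / e (a θ)) = _
    rw [heθ]
    field_simp
  -- work in C(W, ℂ)
  have : CompactSpace W := isCompact_iff_compactSpace.mp hWc
  have : Nonempty W := hWne.to_subtype
  let Ξ₀ : ℝ × W → ℂ := fun x => num x.1 / (ψ (a x.1) - (x.2 : ℂ))
  have hΞ₀ : Continuous Ξ₀ := by
    apply Continuous.div (hnum.comp continuous_fst)
    · exact (hψa.comp continuous_fst).sub (continuous_subtype_val.comp continuous_snd)
    · rintro ⟨θ, z⟩; exact hden θ z z.2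
  let Ξ : C(ℝ, C(W, ℂ)) := ContinuousMap.curry ⟨Ξ₀, hΞ₀⟩
  have hΞapply : ∀ θ z, Ξ θ z = num θ / (ψ (a θ) - (z : ℂ)) := fun θ z => rfl
  have hΞmem : ∀ θ, Ξ θ ∈ polySub W := by
    intro θ
    apply mem_of_approx
    intro ε hε
    have hs : ψ (a θ) ∉ W := by
      intro h
      exact hden θ _ h (sub_self _)
    by_cases hn : num θ = 0
    · refine ⟨0, fun z => ?_⟩
      simp [hΞapply, hn, hε.le]
    have hnp : 0 < ‖num θ‖ := norm_pos_iff.mpr hn
    obtain ⟨q, hq⟩ := approx_inv_sub hWc hWconv hWne hs (ε / ‖num θ‖) (by positivity)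
    refine ⟨C (num θ) * q, fun z => ?_⟩
    have h1 := hq z z.2
    rw [hΞapply]
    simp only [Polynomial.eval_mul, Polynomial.eval_C]
    have h2 : num θ / (ψ (a θ) - (z : ℂ)) - num θ * q.eval (z : ℂ)
        = num θ * ((ψ (a θ) - (z : ℂ))⁻¹ - q.eval (z : ℂ)) := by
      rw [div_eq_mul_inv]; ring
    rw [h2, norm_mul]
    have h3 := (lt_div_iff₀' hnp).1 h1
    exact h3.le
  -- the integral stays in the closed subspace
  have hclosed : IsClosed (polySub W : Set C(W, ℂ)) := by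
    exact Submodule.isClosed_topologicalClosure _
  set I₀ : C(W, ℂ) := (2 * Real.pi : ℝ)⁻¹ • ∫ θ in (0 : ℝ)..2 * Real.pi, Ξ θ with hI₀
  have hΞint : ∀ a b : ℝ, IntervalIntegrable (fun θ => Ξ θ) MeasureTheory.volume a b := fun a b =>
    Ξ.continuous.intervalIntegrable a b
  have hI₀mem : I₀ ∈ polySub W := by
    by_contra hnot
    have hconv : Convex ℝ (polySub W : Set C(W, ℂ)) :=
      (Submodule.restrictScalars ℝ (polySub W)).convex
    obtain ⟨φ, u, hu1, hu2⟩ := geometric_hahn_banach_point_closed hconv hclosed hnot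
    have hφ0 : ∀ b ∈ polySub W, φ b = 0 := by
      intro b hb
      by_contra hne
      have hmem : (((u - 1) / φ b : ℝ) : ℂ) • b ∈ polySub W :=
        (polySub W).smul_mem _ hb
      have h1 := hu2 _ hmem
      have h2 : φ ((((u - 1) / φ b : ℝ) : ℂ) • b) = ((u - 1) / φ b) * φ b := by
        have : (((u - 1) / φ b : ℝ) : ℂ) • b = ((u - 1) / φ b : ℝ) • b := by
          ext z; simp
        rw [this, map_smul, smul_eq_mul]
      rw [h2, div_mul_cancel₀ _ hne] at h1
      linarith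
    have hI : φ I₀ = 0 := by
      rw [hI₀, map_smul, ← φ.intervalIntegral_comp_comm (hΞint _ _)]
      have : ∀ θ : ℝ, φ (Ξ θ) = 0 := fun θ => hφ0 _ (hΞmem θ)
      simp [this]
    have h00 := hu2 0 (polySub W).zero_mem
    rw [map_zero] at h00
    rw [hI] at hu1
    linarith
  have hI₀eq : ∀ z : W, I₀ z = g z := by
    intro z
    rw [hCauchy z z.2, hI₀]
    have h1 : (∫ θ in (0 : ℝ)..2 * Real.pi, Ξ θ) z
        = ∫ θ in (0 : ℝ)..2 * Real.pi, num θ / (ψ (a θ) - (z : ℂ)) := by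
      have h2 := (ContinuousMap.evalCLM ℝ z).intervalIntegral_comp_comm
        (hΞint (0 : ℝ) (2 * Real.pi))
      simpa [hΞapply] using h2.symm
    simp only [ContinuousMap.smul_apply]
    rw [h1]
  intro ε hε
  obtain ⟨q, hq⟩ := approx_of_mem hI₀mem ε hε
  refine ⟨q, fun z hz => ?_⟩
  have := hq ⟨z, hz⟩
  rwa [hI₀eq] at this

end Crest.Agent.Lib.Crouzeix.S80
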