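import Mathlib
import Crest.Prelude.Def_NumRangeMetric
import Crest.Agent.Lib.Crouzeix.S80Runge
import Crest.Agent.Lib.Crouzeix.Riemann
import Crest.Agent.Lib.Crouzeix.InjDeriv
import Crest.Agent.Lib.Crouzeix.NumRange
import Crest.Agent.Lib.Crouzeix.MetricOpt
import Crest.Agent.Lib.Crouzeix.FDReduce

/-!
Step towards S0180: the element `T = p(A)` is also `q(A)` for a polynomial `q` that is strictly
less than one in modulus on the numerical range of `A`.
-/

set_option autoImplicit false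

open Complex Metric Set Polynomial
open Crest.AnalysisR.NumRange

namespace Crest.Agent.Lib.Crouzeix.S80

/-- Division of a holomorphic function by a product of linear factors whose multiplicities are
dominated by the order of vanishing. -/
lemma exists_div_multiset {Ω : Set ℂ} (hΩ : IsOpen Ω) (s : Multiset ℂ) :
    ∀ ϕ : ℂ → ℂ, DifferentiableOn ℂ ϕ Ω →
      (∀ μ ∈ s, μ ∈ Ω ∧ ((s.count μ : ℕ) : ℕ∞) ≤ analyticOrderAt ϕ μ) →
      ∃ g : ℂ → ℂ, DifferentiableOn ℂ g Ω ∧ ∀ z ∈ Ω, ϕ z = (s.map (fun μ => z - μ)).prod * g z := by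
  induction s using Multiset.induction_on with
  | empty =>
    intro ϕ hϕ _
    exact ⟨ϕ, hϕ, fun z _ => by simp⟩
  | cons μ s ih =>
    intro ϕ hϕ h
    have hμ : μ ∈ μ ::ₘ s := Multiset.mem_cons_self μ s
    obtain ⟨hμΩ, hμord⟩ := h μ hμ
    have hϕa : ∀ ν ∈ Ω, AnalyticAt ℂ ϕ ν := fun ν hν => hϕ.analyticAt (hΩ.mem_nhds hν)
    have hϕμ : ϕ μ = 0 := by
      have h1 : (1 : ℕ∞) ≤ analyticOrderAt ϕ μ := by
        refine le_trans ?_ hμord
        have : 1 ≤ (μ ::ₘ s).count μ := Multiset.one_le_count_iff_mem.mpr hμ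
        exact_mod_cast this
      have h2 : ∀ i < 1, iteratedDeriv i ϕ μ = 0 :=
        (natCast_le_analyticOrderAt_iff_iteratedDeriv_eq_zero (n := 1) (hϕa μ hμΩ)).1
          (by simpa using h1)
      simpa using h2 0 one_pos
    set ψ : ℂ → ℂ := dslope ϕ μ with hψ
    have hψd : DifferentiableOn ℂ ψ Ω :=
      (Complex.differentiableOn_dslope (hΩ.mem_nhds hμΩ)).2 hϕ
    have hfac : ∀ z, ϕ z = (z - μ) * ψ z := by
      intro z
      by_cases hz : z = μ
      · simp [hz, hϕμ]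
      · rw [hψ, dslope_of_ne _ hz, slope_def_field, hϕμ, sub_zero]
        field_simp [sub_ne_zero.mpr hz]
    have hψa : ∀ ν ∈ Ω, AnalyticAt ℂ ψ ν := fun ν hν => hψd.analyticAt (hΩ.mem_nhds hν)
    have hord : ∀ ν ∈ Ω, analyticOrderAt ϕ ν =
        analyticOrderAt (fun z => z - μ) ν + analyticOrderAt ψ ν := by
      intro ν hν
      have hlin : AnalyticAt ℂ (fun z : ℂ => z - μ) ν := by fun_prop
      have : ϕ = (fun z => z - μ) * ψ := funext hfac
      rw [this]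
      exact analyticOrderAt_mul hlin (hψa ν hν)
    obtain ⟨g, hgd, hg⟩ := ih ψ hψd (by
      intro ν hν
      have hν' : ν ∈ μ ::ₘ s := Multiset.mem_cons_of_mem hν
      obtain ⟨hνΩ, hνord⟩ := h ν hν'
      refine ⟨hνΩ, ?_⟩
      by_cases hνμ : ν = μ
      · subst hνμ
        have h1 := hord ν hνΩ
        have h2 : analyticOrderAt (fun z : ℂ => z - ν) ν = 1 := by
          rw [show (1 : ℕ∞) = ((1 : ℕ) : ℕ∞) by norm_num]
          rw [AnalyticAt.analyticOrderAt_eq_natCast (by fun_prop)]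
          exact ⟨fun _ => 1, analyticAt_const, one_ne_zero, by
            filter_upwards with z; simp⟩
        rw [h2] at h1
        rw [Multiset.count_cons_self] at hνord
        rw [h1] at hνord
        push_cast at hνord
        rw [add_comm] at hνord
        exact (ENat.add_le_add_iff_left (by simp)).1 hνord
      · have h1 := hord ν hνΩ
        have h2 : analyticOrderAt (fun z : ℂ => z - μ) ν = 0 := by
          rw [AnalyticAt.analyticOrderAt_eq_zero (by fun_prop)]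
          exact sub_ne_zero.mpr hνμ
        rw [h2, zero_add] at h1
        rw [Multiset.count_cons_of_ne hνμ, h1] at hνord
        exact hνord)
    refine ⟨g, hgd, fun z hz => ?_⟩
    rw [hfac z, hg z hz]
    simp only [Multiset.map_cons, Multiset.prod_cons]
    ring

/-- Division by the characteristic polynomial. -/
lemma exists_div_charpoly {n : ℕ} (A : Matrix (Fin n) (Fin n) ℂ) {Ω : Set ℂ} (hΩ : IsOpen Ω)
    (hspec : spectrum ℂ A ⊆ Ω) {f : ℂ → ℂ} (hf : DifferentiableOn ℂ f Ω) (p : ℂ[X])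
    (hp : AgreesOnSpectrum A f p) :
    ∃ g : ℂ → ℂ, DifferentiableOn ℂ g Ω ∧ ∀ z ∈ Ω, f z = p.eval z + A.charpoly.eval z * g z := by
  classical
  set ϕ : ℂ → ℂ := fun z => f z - p.eval z with hϕ
  have hpd : Differentiable ℂ fun z => p.eval z := p.differentiable
  have hϕd : DifferentiableOn ℂ ϕ Ω := hf.sub hpd.differentiableOn
  have hmonic : A.charpoly.Monic := Matrix.charpoly_monic A
  have hsplit : A.charpoly.roots.card = A.charpoly.natDegree :=
    (IsAlgClosed.splits A.charpoly).natDegree_eq_card_roots.symm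
  have hprod : ∀ z, A.charpoly.eval z = (A.charpoly.roots.map (fun μ => z - μ)).prod := by
    intro z
    have h1 : A.charpoly = (A.charpoly.roots.map (fun a => X - C a)).prod :=
      (Polynomial.C_leadingCoeff_mul_prod_multiset_X_sub_C hsplit).symm.trans (by
        simp [hmonic.leadingCoeff])
    conv_lhs => rw [h1]
    rw [Polynomial.eval_multiset_prod]
    simp [Multiset.map_map]
  have hroot : ∀ μ ∈ A.charpoly.roots, μ ∈ spectrum ℂ A := by
    intro μ hμ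
    have : A.charpoly.IsRoot μ := (Polynomial.mem_roots hmonic.ne_zero).1 hμ
    exact Matrix.mem_spectrum_of_isRoot_charpoly this
  obtain ⟨g, hgd, hg⟩ := exists_div_multiset hΩ A.charpoly.roots ϕ hϕd (by
    intro μ hμ
    have hμs := hroot μ hμ
    have hμΩ := hspec hμs
    refine ⟨hμΩ, ?_⟩
    have hle : A.charpoly.roots.count μ ≤ n := by
      have h1 := Multiset.count_le_card μ A.charpoly.roots
      rw [hsplit, Matrix.charpoly_natDegree_eq_dim] at h1
      simpa using h1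
    have hord : ((n : ℕ) : ℕ∞) ≤ analyticOrderAt ϕ μ := by
      have hfa : AnalyticAt ℂ f μ := hf.analyticAt (hΩ.mem_nhds hμΩ)
      have hpa : AnalyticAt ℂ (fun z => p.eval z) μ := hpd.analyticAt μ
      have hϕa : AnalyticAt ℂ ϕ μ := hfa.sub hpa
      rw [natCast_le_analyticOrderAt_iff_iteratedDeriv_eq_zero hϕa]
      intro j hj
      have h2 : iteratedDeriv j ϕ μ = iteratedDeriv j f μ - iteratedDeriv j (fun z => p.eval z) μ :=
        iteratedDeriv_fun_sub (hfa.contDiffAt) (hpa.contDiffAt)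
      rw [h2, hp μ hμs j hj, sub_self]
    exact le_trans (by exact_mod_cast hle) hord)
  refine ⟨g, hgd, fun z hz => ?_⟩
  have := hg z hz
  rw [← hprod z] at this
  simp only [hϕ] at this
  linear_combination this

/-- The numerical range of a matrix is compact. -/
lemma numRange_isCompact {n : ℕ} (A : Matrix (Fin n) (Fin n) ℂ) : IsCompact (numRange A) := by
  have : numRange A = (fun x : EuclideanSpace ℂ (Fin n) =>
      (inner ℂ x (Matrix.toEuclideanCLM (n := Fin n) (𝕜 := ℂ) A x) : ℂ)) '' sphere 0 1 := by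
    ext z
    simp only [numRange, Set.mem_ofPred_eq, Set.mem_image, mem_sphere_zero_iff_norm]
    constructor
    · rintro ⟨x, hx, rfl⟩
      exact ⟨x, hx, rfl⟩
    · rintro ⟨x, hx, rfl⟩
      exact ⟨x, hx, rfl⟩
  rw [this]
  refine (isCompact_sphere _ _).image ?_
  fun_prop

lemma numRange_eq_op {n : ℕ} (A : Matrix (Fin n) (Fin n) ℂ) :
    numRange A = Crest.Agent.Lib.Crouzeix.numRangeOp
      (Matrix.toEuclideanCLM (n := Fin n) (𝕜 := ℂ) A) := by
  ext z
  simp only [numRange, Crest.Agent.Lib.Crouzeix.numRangeOp, Set.mem_ofPred_eq]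
  constructor
  · rintro ⟨x, hx, rfl⟩
    exact ⟨x, hx, rfl⟩
  · rintro ⟨x, hx, rfl⟩
    exact ⟨x, hx, rfl⟩

lemma numRange_nonempty {n : ℕ} (hn : 1 ≤ n) (A : Matrix (Fin n) (Fin n) ℂ) :
    (numRange A).Nonempty := by
  haveI : Nonempty (Fin n) := ⟨⟨0, hn⟩⟩
  haveI : Nontrivial (EuclideanSpace ℂ (Fin n)) := inferInstance
  obtain ⟨x, hx⟩ := exists_norm_eq (EuclideanSpace ℂ (Fin n)) (c := 1) zero_le_one
  exact ⟨_, x, hx, rfl⟩

/-- The main output of this file: `T = p(A)` is `q(A)` where `q` is strictly contractive on the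
numerical range. -/
theorem exists_poly_lt_one {n : ℕ} (hn : 1 ≤ n) (A : Matrix (Fin n) (Fin n) ℂ)
    (Ω U : Set ℂ) (hΩ₁ : IsOpen Ω) (hΩ₃ : Convex ℝ Ω)
    (hΩU : closure Ω ⊆ U)
    (f : ℂ → ℂ) (hf₁ : DifferentiableOn ℂ f U) (hf₂ : Set.InjOn f U)
    (hf₃ : f '' Ω = Metric.ball 0 1)
    (hA : numRange A ⊆ Ω) (p : ℂ[X]) (hp : AgreesOnSpectrum A f p) :
    ∃ (q : ℂ[X]) (r : ℝ), 0 ≤ r ∧ r < 1 ∧
      Polynomial.aeval A q = Polynomial.aeval A p ∧ ∀ z ∈ numRange A, ‖q.eval z‖ ≤ r := by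
  classical
  have hΩsub : Ω ⊆ U := subset_closure.trans hΩU
  have hfΩ : DifferentiableOn ℂ f Ω := hf₁.mono hΩsub
  have hfinj : InjOn f Ω := hf₂.mono hΩsub
  set W := numRange A with hW
  have hWc : IsCompact W := numRange_isCompact A
  have hWconv : Convex ℝ W := by
    rw [hW, numRange_eq_op]
    exact Crest.Agent.Lib.Crouzeix.numRangeOp_convex _
  have hWne : W.Nonempty := numRange_nonempty hn A
  obtain ⟨a, haW⟩ := hWne
  have haΩ : a ∈ Ω := hA haW
  have hd : deriv f a ≠ 0 :=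
    Crest.Agent.Lib.Crouzeix.deriv_ne_zero_of_injOn hΩ₁ hfΩ hfinj haΩ
  obtain ⟨ψ, hψd, hψΩ, hfψ, hψf⟩ :=
    Crest.Agent.Lib.Crouzeix.exists_holo_inverse hΩ₁ hΩ₃.isPreconnected isOpen_ball hfΩ hfinj hf₃
      haΩ hd
  have hfb : MapsTo f Ω (ball 0 1) := fun z hz => by
    rw [← hf₃]
    exact mem_image_of_mem f hz
  have hspec : spectrum ℂ A ⊆ Ω := (Crest.Agent.Lib.Crouzeix.MetricOpt.spectrum_subset_numRange A).trans hA
  obtain ⟨g, hgd, hg⟩ := exists_div_charpoly A hΩ₁ hspec hfΩ p hp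
  have happ : Approx W g :=
    approx_of_differentiableOn hΩ₁ hψd hψΩ hψf hfψ hfb hfΩ hWc hWconv ⟨a, haW⟩ hA hgd
  -- bounds
  have hfc : ContinuousOn f W := hfΩ.continuousOn.mono hA
  obtain ⟨z₁, hz₁, hmax₁⟩ := (hWc.image_of_continuousOn hfc).exists_isMaxOn
    (Set.Nonempty.image f ⟨a, haW⟩) continuous_norm.continuousOn
  obtain ⟨z₁, hz₁', rfl⟩ := hz₁
  have hr₁ : ‖f z₁‖ < 1 := by simpa using hfb (hA hz₁')
  have hmax₁' : ∀ z ∈ W, ‖f z‖ ≤ ‖f z₁‖ := fun z hz => hmax₁ (mem_image_of_mem f hz)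
  have hχc : ContinuousOn (fun z => A.charpoly.eval z) W :=
    (A.charpoly.continuous).continuousOn
  obtain ⟨z₂, hz₂, hmax₂⟩ := hWc.exists_isMaxOn ⟨a, haW⟩ (continuous_norm.comp_continuousOn hχc)
  set C₀ : ℝ := ‖A.charpoly.eval z₂‖ with hC₀
  have hC₀' : ∀ z ∈ W, ‖A.charpoly.eval z‖ ≤ C₀ := fun z hz => hmax₂ hz
  have hC₀0 : 0 ≤ C₀ := norm_nonneg _
  set δ : ℝ := (1 - ‖f z₁‖) / 2 with hδ
  have hδ0 : 0 < δ := by rw [hδ]; linarith
  obtain ⟨q₀, hq₀⟩ := happ (δ / (C₀ + 1)) (by positivity)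
  refine ⟨p + A.charpoly * q₀, ‖f z₁‖ + δ, by positivity, by rw [hδ]; linarith, ?_, ?_⟩
  · rw [map_add, map_mul, Matrix.aeval_self_charpoly]
    simp
  · intro z hz
    have hzΩ : z ∈ Ω := hA hz
    have h1 : (p + A.charpoly * q₀).eval z = f z - A.charpoly.eval z * (g z - q₀.eval z) := by
      rw [eval_add, eval_mul, hg z hzΩ]
      ring
    rw [h1]
    have h2 : ‖A.charpoly.eval z * (g z - q₀.eval z)‖ ≤ δ := by
      rw [norm_mul]
      have h3 : ‖g z - q₀.eval z‖ ≤ δ / (C₀ + 1) := (hq₀ z hz).le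
      calc ‖A.charpoly.eval z‖ * ‖g z - q₀.eval z‖
          ≤ (C₀ + 1) * (δ / (C₀ + 1)) :=
            mul_le_mul (by linarith [hC₀' z hz]) h3 (norm_nonneg _) (by positivity)
        _ = δ := by field_simp
    calc ‖f z - A.charpoly.eval z * (g z - q₀.eval z)‖
        ≤ ‖f z‖ + ‖A.charpoly.eval z * (g z - q₀.eval z)‖ := norm_sub_le _ _
      _ ≤ ‖f z₁‖ + δ := add_le_add (hmax₁' z hz) h2

open Matrix in
/-- The operator norm of the transpose. -/
lemma norm_transpose_le {m : ℕ} (X : Matrix (Fin m) (Fin m) ℂ) :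
    ‖Matrix.toEuclideanCLM (n := Fin m) (𝕜 := ℂ) Xᵀ‖ ≤
      ‖Matrix.toEuclideanCLM (n := Fin m) (𝕜 := ℂ) X‖ := by
  have hstar : ‖Matrix.toEuclideanCLM (n := Fin m) (𝕜 := ℂ) Xᴴ‖ =
      ‖Matrix.toEuclideanCLM (n := Fin m) (𝕜 := ℂ) X‖ := by
    rw [← Matrix.star_eq_conjTranspose, map_star, ContinuousLinearMap.star_eq_adjoint,
      LinearIsometryEquiv.norm_map]
  refine ContinuousLinearMap.opNorm_le_bound _ (norm_nonneg _) fun u => ?_
  set u' : EuclideanSpace ℂ (Fin m) := WithLp.toLp 2 (star u.ofLp) with hu'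
  have hu'n : ‖u'‖ = ‖u‖ := by
    simp only [EuclideanSpace.norm_eq]
    congr 1
    refine Finset.sum_congr rfl fun i _ => ?_
    simp [u']
  have h : ‖Matrix.toEuclideanCLM (n := Fin m) (𝕜 := ℂ) Xᵀ u‖ =
      ‖Matrix.toEuclideanCLM (n := Fin m) (𝕜 := ℂ) Xᴴ u'‖ := by
    simp only [EuclideanSpace.norm_eq]
    congr 1
    refine Finset.sum_congr rfl fun i _ => ?_
    congr 1
    have e1 : (Matrix.toEuclideanCLM (n := Fin m) (𝕜 := ℂ) Xᵀ u) i = (Xᵀ *ᵥ u.ofLp) i := rfl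
    have e2 : (Matrix.toEuclideanCLM (n := Fin m) (𝕜 := ℂ) Xᴴ u') i = (Xᴴ *ᵥ (star u.ofLp)) i := rfl
    rw [e1, e2]
    have e3 : (Xᴴ *ᵥ (star u.ofLp)) i = star ((Xᵀ *ᵥ u.ofLp) i) := by
      simp only [Matrix.mulVec, dotProduct, star_sum, star_mul', Matrix.transpose_apply,
        Matrix.conjTranspose_apply, Pi.star_apply]
    rw [e3, norm_star]
  rw [h, ← hstar, ← hu'n]
  exact ContinuousLinearMap.le_opNorm _ _

open Crest.Agent.Lib.Crouzeix.Paulsen in
lemma fsq_eq_sum {n : ℕ} (L : Matrix (Fin n) (Fin n) ℂ) :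
    fsq L = ∑ a, ∑ b, ‖L a b‖ ^ 2 := by
  unfold fsq
  rw [Matrix.trace, Complex.re_sum]
  refine Finset.sum_congr rfl fun a _ => ?_
  rw [Matrix.diag_apply, Matrix.mul_apply, Complex.re_sum]
  refine Finset.sum_congr rfl fun b _ => ?_
  rw [Matrix.conjTranspose_apply, Complex.star_def, Complex.mul_conj, Complex.normSq_eq_norm_sq]
  simp [← Complex.ofReal_pow]

open Matrix Crest.Agent.Lib.Crouzeix.Paulsen in
/-- The matrix von Neumann inequality in the form of `Paulsen.VN`, from the main inequality for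
polynomials. -/
theorem vn_of_fd (hfd : Crest.Agent.Lib.Crouzeix.FDCrouzeix.{0}) {n : ℕ}
    (A : Matrix (Fin n) (Fin n) ℂ) (q : ℂ[X]) {r : ℝ} (hr : 0 ≤ r)
    (hq : ∀ z ∈ numRange A, ‖q.eval z‖ ≤ r) : VN (Polynomial.aeval A q) 2 r := by
  classical
  intro N B M hM Ξ
  have hM0 : 0 ≤ M := le_trans (norm_nonneg _) (hM 0 (by simpa using hr))
  set d : ℕ := N * q.natDegree with hd
  set c : ℕ → ℕ → ℂ := fun k l => (q ^ k).coeff l with hc
  have hdeg : ∀ k ∈ Finset.range N, (q ^ k).natDegree < d + 1 := by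
    intro k hk
    have h1 := Polynomial.natDegree_pow_le (p := q) (n := k)
    have h2 : k * q.natDegree ≤ N * q.natDegree :=
      Nat.mul_le_mul_right _ (Finset.mem_range.1 hk).le
    omega
  set B' : Fin (d + 1) → Matrix (Fin n) (Fin n) ℂ :=
    fun l => ∑ k ∈ Finset.range N, c k l • (B k)ᵀ with hB'
  have hpoly : ∀ z : ℂ, ∑ l : Fin (d + 1), z ^ (l : ℕ) • B' l =
      (∑ k ∈ Finset.range N, (q.eval z) ^ k • B k)ᵀ := by
    intro z
    simp only [hB', Finset.smul_sum]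
    rw [Finset.sum_comm, Matrix.transpose_sum]
    refine Finset.sum_congr rfl fun k hk => ?_
    rw [Matrix.transpose_smul, ← eval_pow, Polynomial.eval_eq_sum_range' (hdeg k hk) z,
      ← Fin.sum_univ_eq_sum_range (fun l => (q ^ k).coeff l * z ^ l) (d + 1), Finset.sum_smul]
    refine Finset.sum_congr rfl fun l _ => ?_
    rw [smul_smul, mul_comm]
  set A' := Matrix.toEuclideanCLM (n := Fin n) (𝕜 := ℂ) A with hA'
  set v : PiLp 2 (fun _ : Fin n => EuclideanSpace ℂ (Fin n)) :=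
    WithLp.toLp 2 (fun j => WithLp.toLp 2 (fun a => Ξ a j)) with hv
  have hFD := hfd (EuclideanSpace ℂ (Fin n)) A' n d B' M (by
    intro x hx
    rw [hpoly]
    refine (norm_transpose_le _).trans (hM _ ?_)
    exact hq _ ⟨x, hx, rfl⟩) v
  set w : PiLp 2 (fun _ : Fin n => EuclideanSpace ℂ (Fin n)) :=
    WithLp.toLp 2 (fun i : Fin n => ∑ j : Fin n, ∑ k : Fin (d + 1),
      B' k i j • (A' ^ (k : ℕ)) (v j)) with hw
  set L := ∑ k ∈ Finset.range N, (Polynomial.aeval A q) ^ k * Ξ * B k with hL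
  -- entries of the powers
  have hpow : ∀ (l : ℕ) (j a : Fin n), ((A' ^ l) (v j)) a = (A ^ l * Ξ) a j := by
    intro l j a
    rw [hA', ← map_pow]
    change (A ^ l *ᵥ (fun a => Ξ a j)) a = _
    simp [Matrix.mulVec, dotProduct, Matrix.mul_apply]
  have hTk : ∀ k ∈ Finset.range N, (Polynomial.aeval A q) ^ k =
      ∑ l : Fin (d + 1), c k l • A ^ (l : ℕ) := by
    intro k hk
    rw [← map_pow, Polynomial.aeval_eq_sum_range' (hdeg k hk) A,
      ← Fin.sum_univ_eq_sum_range (fun l => (q ^ k).coeff l • A ^ l) (d + 1)]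
  -- the entries of `L`
  have hLentry : ∀ i a, L a i = (w i) a := by
    intro i a
    have e1 : (w i) a = ∑ j : Fin n, ∑ l : Fin (d + 1), ∑ k ∈ Finset.range N,
        c k l * B k j i * (A ^ (l : ℕ) * Ξ) a j := by
      change (∑ j : Fin n, ∑ k : Fin (d + 1), B' k i j • (A' ^ (k : ℕ)) (v j) :
        EuclideanSpace ℂ (Fin n)) a = _
      simp only [hB', WithLp.ofLp_sum, Finset.sum_apply, PiLp.smul_apply, smul_eq_mul, hpow,
        Matrix.sum_apply, Matrix.smul_apply, Matrix.transpose_apply, Finset.sum_mul]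
    have e2 : L a i = ∑ k ∈ Finset.range N, ∑ j : Fin n, ∑ l : Fin (d + 1),
        c k l * B k j i * (A ^ (l : ℕ) * Ξ) a j := by
      rw [hL, Matrix.sum_apply]
      refine Finset.sum_congr rfl fun k hk => ?_
      rw [hTk k hk, Matrix.mul_apply]
      refine Finset.sum_congr rfl fun j _ => ?_
      rw [Finset.sum_mul, Matrix.sum_apply, Finset.sum_mul]
      refine Finset.sum_congr rfl fun l _ => ?_
      rw [Matrix.smul_mul, Matrix.smul_apply, smul_eq_mul]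
      ring
    rw [e1, e2, Finset.sum_comm]
    refine Finset.sum_congr rfl fun j _ => ?_
    rw [Finset.sum_comm]
  have h1 : fsq L = ‖w‖ ^ 2 := by
    rw [fsq_eq_sum, PiLp.norm_sq_eq_of_L2, Finset.sum_comm]
    refine Finset.sum_congr rfl fun i _ => ?_
    rw [EuclideanSpace.norm_sq_eq]
    refine Finset.sum_congr rfl fun a _ => ?_
    rw [hLentry]
  have h2 : fsq Ξ = ‖v‖ ^ 2 := by
    rw [fsq_eq_sum, PiLp.norm_sq_eq_of_L2, Finset.sum_comm]
    refine Finset.sum_congr rfl fun i _ => ?_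
    rw [EuclideanSpace.norm_sq_eq]
  rw [h1, h2]
  have h3 : (2 * M * ‖v‖) ^ 2 = (2 * M) ^ 2 * ‖v‖ ^ 2 := by ring
  rw [← h3]
  exact pow_le_pow_left₀ (norm_nonneg _) hFD 2

/-- The hypothesis of the Paulsen step for `S0180`. -/
theorem exists_VN (hfd : Crest.Agent.Lib.Crouzeix.FDCrouzeix.{0}) {n : ℕ} (hn : 1 ≤ n)
    (A : Matrix (Fin n) (Fin n) ℂ)
    (Ω U : Set ℂ) (hΩ₁ : IsOpen Ω) (hΩ₃ : Convex ℝ Ω)
    (hΩU : closure Ω ⊆ U)
    (f : ℂ → ℂ) (hf₁ : DifferentiableOn ℂ f U) (hf₂ : Set.InjOn f U)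
    (hf₃ : f '' Ω = Metric.ball 0 1)
    (hA : numRange A ⊆ Ω) (p : ℂ[X]) (hp : AgreesOnSpectrum A f p) :
    ∃ r : ℝ, 0 ≤ r ∧ r < 1 ∧ Crest.Agent.Lib.Crouzeix.Paulsen.VN (Polynomial.aeval A p) 2 r := by
  obtain ⟨q, r, hr0, hr1, hq, hqr⟩ := exists_poly_lt_one hn A Ω U hΩ₁ hΩ₃ hΩU f hf₁ hf₂ hf₃ hA p hp
  exact ⟨r, hr0, hr1, hq ▸ vn_of_fd hfd A q hr0 hqr⟩

/-- Everything of `S0180`, given the main inequality for polynomials in finite dimensions. -/
theorem s0180_of_fd (hfd : Crest.Agent.Lib.Crouzeix.FDCrouzeix.{0})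
    (n : ℕ) (hn : 1 ≤ n) (A : Matrix (Fin n) (Fin n) ℂ)
    (Ω U : Set ℂ) (hΩ₁ : IsOpen Ω) (hΩ₃ : Convex ℝ Ω) (hΩU : closure Ω ⊆ U)
    (f : ℂ → ℂ) (hf₁ : DifferentiableOn ℂ f U) (hf₂ : Set.InjOn f U)
    (hf₃ : f '' Ω = Metric.ball 0 1)
    (hA : numRange A ⊆ Ω) (p : Polynomial ℂ) (hp : AgreesOnSpectrum A f p) :
    (∃ (H : Matrix (Fin n) (Fin n) ℂ) (τ : ℝ), MetricStrictlyFeasible (Polynomial.aeval A p) H τ) ∧
    ∃ (H : Matrix (Fin n) (Fin n) ℂ) (κsq : ℝ),
      IsOptimalMetric (Polynomial.aeval A p) H κsq ∧ 1 ≤ κsq ∧ κsq ≤ 4 := by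
  obtain ⟨r, hr0, hr1, hVN⟩ := exists_VN hfd hn A Ω U hΩ₁ hΩ₃ hΩU f hf₁ hf₂ hf₃ hA p hp
  exact Crest.Agent.Lib.Crouzeix.MetricOpt.metric_of_VN hn _
    (Crest.Agent.Lib.Crouzeix.MetricOpt.tendsto_pow_aeval A hn Ω f hf₃ hA p hp) hr0 hr1 hVN

end Crest.Agent.Lib.Crouzeix.S80
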